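import Vale.Agent.P050.Cart.Product

/-!
Cartesian products of graphs with good prisms have good prisms.
-/

namespace Vale.Agent.P050.Cart

open Finset

/-- **Product rule.** -/
theorem Prism.box {V₁ V₂ : Type} [Fintype V₁] [DecidableEq V₁] [Fintype V₂] [DecidableEq V₂]
    {H₁ : SimpleGraph V₁} {H₂ : SimpleGraph V₂} {s₁ : V₁ → Bool} {s₂ : V₂ → Bool}
    (c₁ : ∀ u v, H₁.Adj u v → s₁ u ≠ s₁ v) (c₂ : ∀ u v, H₂.Adj u v → s₂ u ≠ s₂ v)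
    (h₁ : Prism (Lev.sideEdges H₁ s₁) s₁) (h₂ : Prism (Lev.sideEdges H₂ s₂) s₂) :
    Prism (Lev.sideEdges (H₁ □ H₂) fun p => xor (s₁ p.1) (s₂ p.2))
      (fun p => xor (s₁ p.1) (s₂ p.2)) := by
  rw [sideEdges_boxProd H₁ H₂ c₁ c₂]
  exact Prism.prod h₁ h₂

end Vale.Agent.P050.Cart
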