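import Vale.Agent.P050.Lev.KSid

/-!
Laws on the prism `K₂ □ H`: two random maps `f, g : V → U` (the two copies of `H`).
-/

namespace Vale.Agent.P050.Cart

open Finset

variable {V U : Type} [Fintype V] [DecidableEq V] [Fintype U]

/-- the mutual information of the joint law `π`, whose marginals are `m false`, `m true` -/
noncomputable def inf (m : Bool → U → ℝ) (π : U → U → ℝ) : ℝ :=
  ∑ x, ∑ y, π x y * (Real.log (π x y) - Real.log (m false x) - Real.log (m true y))

/-- the total correlation of a random map `V → U` with law `μ`, the value at `v` having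
the law `m (s v)` -/
noncomputable def tc (m : Bool → U → ℝ) (s : V → Bool) (μ : (V → U) → ℝ) : ℝ :=
  ∑ f, μ f * (Real.log (μ f) - ∑ v, Real.log (m (s v) (f v)))

/-- the total correlation of a pair of random maps `V → U`; the value at `v` has the
law `m (s v)` for the first and `m (!s v)` for the second -/
noncomputable def tc2 (m : Bool → U → ℝ) (s : V → Bool) (L : (V → U) → (V → U) → ℝ) : ℝ :=
  ∑ f, ∑ g, L f g * (Real.log (L f g) - ∑ v, Real.log (m (s v) (f v))
    - ∑ v, Real.log (m (!s v) (g v)))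

/-- the law of the first map -/
def fstLaw (L : (V → U) → (V → U) → ℝ) (f : V → U) : ℝ := ∑ g, L f g

/-- the law of the second map -/
def sndLaw (L : (V → U) → (V → U) → ℝ) (g : V → U) : ℝ := ∑ f, L f g

/-- `L` is the joint law of two random maps `f, g : V → U`, which form a random map from the prism
`K₂ □ H` (the edges of `H` are `E`, directed from the side `false` to the side `true` of `s`) such
that each edge has the law `π`; and the four bounds hold. -/
structure PrismLaw (E : Finset (V × V)) (s : V → Bool) (m : Bool → U → ℝ) (π : U → U → ℝ)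
    (L : (V → U) → (V → U) → ℝ) : Prop where
  nonneg : ∀ f g, 0 ≤ L f g
  total : ∑ f, ∑ g, L f g = 1
  rung_false : ∀ v, s v = false → ∀ F : U → U → ℝ,
    ∑ f, ∑ g, L f g * F (f v) (g v) = ∑ x, ∑ y, π x y * F x y
  rung_true : ∀ v, s v = true → ∀ F : U → U → ℝ,
    ∑ f, ∑ g, L f g * F (g v) (f v) = ∑ x, ∑ y, π x y * F x y
  edge_fst : ∀ e ∈ E, ∀ F : U → U → ℝ,
    ∑ f, ∑ g, L f g * F (f e.1) (f e.2) = ∑ x, ∑ y, π x y * F x y
  edge_snd : ∀ e ∈ E, ∀ F : U → U → ℝ,
    ∑ f, ∑ g, L f g * F (g e.2) (g e.1) = ∑ x, ∑ y, π x y * F x y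
  bound : tc2 m s L ≤ (2 * E.card + Fintype.card V) * inf m π
  bound_fst : tc2 m s L - tc m s (fstLaw L) ≤ (E.card + Fintype.card V) * inf m π
  bound_snd : tc2 m s L - tc m (fun v => !s v) (sndLaw L) ≤ (E.card + Fintype.card V) * inf m π
  bound_both : tc2 m s L - tc m s (fstLaw L) - tc m (fun v => !s v) (sndLaw L) ≤
    Fintype.card V * inf m π

/-- The graph `H` with edges `E` (directed from the side `false` to the side `true`) has good
prisms: each joint law `π` on a finite set has a prism law. -/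
def Prism {V : Type} [Fintype V] [DecidableEq V] (E : Finset (V × V)) (s : V → Bool) : Prop :=
  (∀ e ∈ E, s e.1 = false ∧ s e.2 = true) ∧
    ∀ (U : Type) [Fintype U] (m : Bool → U → ℝ) (π : U → U → ℝ), (∀ b x, 0 ≤ m b x) →
      (∀ b, ∑ x, m b x = 1) → (∀ x y, 0 ≤ π x y) → (∀ x, ∑ y, π x y = m false x) →
        (∀ y, ∑ x, π x y = m true y) → ∃ L : (V → U) → (V → U) → ℝ, PrismLaw E s m π L

/-- the edges of the Cartesian product, directed from the side `false` to the side `true` of
`fun p => xor (s₁ p.1) (s₂ p.2)` -/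
def prodEdges {V₁ V₂ : Type} [Fintype V₁] [DecidableEq V₁] [Fintype V₂] [DecidableEq V₂]
    (E₁ : Finset (V₁ × V₁)) (s₁ : V₁ → Bool) (E₂ : Finset (V₂ × V₂)) (s₂ : V₂ → Bool) :
    Finset ((V₁ × V₂) × (V₁ × V₂)) :=
  (E₁ ×ˢ (univ : Finset V₂)).image (fun p => if s₂ p.2 = false then
    ((p.1.1, p.2), (p.1.2, p.2)) else ((p.1.2, p.2), (p.1.1, p.2))) ∪
  ((univ : Finset V₁) ×ˢ E₂).image (fun p => if s₁ p.1 = false then
    ((p.1, p.2.1), (p.1, p.2.2)) else ((p.1, p.2.2), (p.1, p.2.1)))

end Vale.Agent.P050.Cart
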