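import Vale.Agent.P050.Cart.Ent
import Vale.Agent.P050.Cart.Defs

/-!
The law of a rung, of two adjacent rungs, and of a chain of rungs.
-/

set_option linter.unusedSectionVars false

namespace Vale.Agent.P050.Cart

open Finset

variable {U : Type} [Fintype U]

/-- `π` is a joint law with the marginals `m false`, `m true` -/
structure Base (m : Bool → U → ℝ) (π : U → U → ℝ) : Prop where
  m0 : ∀ b x, 0 ≤ m b x
  m1 : ∀ b, ∑ x, m b x = 1
  pi0 : ∀ x y, 0 ≤ π x y
  row : ∀ x, ∑ y, π x y = m false x
  col : ∀ y, ∑ x, π x y = m true y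

/-- the law of a rung -/
def rho (π : U → U → ℝ) (b : Bool) (z : U × U) : ℝ := if b then π z.2 z.1 else π z.1 z.2

/-- the law of the ends of a cherry -/
noncomputable def cherry (m : Bool → U → ℝ) (π : U → U → ℝ) (x v : U) : ℝ :=
  ∑ y, π x y * π v y / m true y

/-- the joint law of two adjacent rungs, on the sides `false` and `true` -/
noncomputable def tau (m : Bool → U → ℝ) (π : U → U → ℝ) (z w : U × U) : ℝ :=
  (π z.1 w.1 * π w.2 w.1 / m true w.1) * (π z.1 z.2 * π w.2 z.2 / m true z.2) /
    cherry m π z.1 w.2

/-- the joint law of two adjacent rungs, the first one on the side `b` -/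
noncomputable def st (m : Bool → U → ℝ) (π : U → U → ℝ) (b : Bool) (z w : U × U) : ℝ :=
  if b then tau m π w z else tau m π z w

open Classical in
/-- the joint law of the ends of a chain of rungs of length `d`, the first one on the side `b` -/
noncomputable def ch (m : Bool → U → ℝ) (π : U → U → ℝ) : Bool → ℕ → U × U → U × U → ℝ
  | b, 0 => fun z w => if z = w then rho π b z else 0
  | b, d + 1 => fun z w => ∑ z', st m π b z z' * ch m π (!b) d z' w / rho π (!b) z'

/-- the side of the end of a path of length `d` from the side `b` -/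
def par : Bool → ℕ → Bool
  | b, 0 => b
  | b, d + 1 => par (!b) d

theorem par_not (b : Bool) (d : ℕ) : par (!b) d = !(par b d) := by
  induction d generalizing b with
  | zero => rfl
  | succ d ih => exact ih (!b)

theorem par_par (b : Bool) (d : ℕ) : par (par b d) d = b := by
  induction d generalizing b with
  | zero => rfl
  | succ d ih =>
    show par (!(par (!b) d)) d = b
    rw [par_not, ih, Bool.not_not]

variable {m : Bool → U → ℝ} {π : U → U → ℝ}

namespace Base

variable (h : Base m π)
include h

theorem zero_col {y : U} (hy : m true y = 0) (x : U) : π x y = 0 := by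
  rw [← h.col] at hy
  exact (Finset.sum_eq_zero_iff_of_nonneg fun x _ => h.pi0 x y).1 hy x (mem_univ x)

theorem zero_row {x : U} (hx : m false x = 0) (y : U) : π x y = 0 := by
  rw [← h.row] at hx
  exact (Finset.sum_eq_zero_iff_of_nonneg fun y _ => h.pi0 x y).1 hx y (mem_univ y)

theorem rho_nonneg (b : Bool) (z : U × U) : 0 ≤ rho π b z := by
  unfold rho
  split_ifs
  · exact h.pi0 _ _
  · exact h.pi0 _ _

theorem rho_sum (b : Bool) : ∑ z, rho π b z = 1 := by
  unfold rho
  cases b
  · rw [Fintype.sum_prod_type]
    simp only [Bool.false_eq_true, if_false]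
    simp_rw [h.row]
    exact h.m1 false
  · rw [Fintype.sum_prod_type, Finset.sum_comm]
    simp only [if_true]
    simp_rw [h.row]
    exact h.m1 false

theorem rho_fst (b : Bool) (x : U) : ∑ y, rho π b (x, y) = m b x := by
  unfold rho
  cases b
  · simpa using h.row x
  · simpa using h.col x

theorem rho_snd (b : Bool) (y : U) : ∑ x, rho π b (x, y) = m (!b) y := by
  unfold rho
  cases b
  · simpa using h.col y
  · simpa using h.row y

theorem term_nonneg (x v y : U) : 0 ≤ π x y * π v y / m true y :=
  div_nonneg (mul_nonneg (h.pi0 _ _) (h.pi0 _ _)) (h.m0 _ _)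

theorem cherry_nonneg (x v : U) : 0 ≤ cherry m π x v :=
  Finset.sum_nonneg fun y _ => h.term_nonneg x v y

theorem cherry_zero {x v : U} (h0 : cherry m π x v = 0) (y : U) :
    π x y * π v y / m true y = 0 :=
  (Finset.sum_eq_zero_iff_of_nonneg fun y _ => h.term_nonneg x v y).1 h0 y (mem_univ y)

theorem sum_term (v y : U) : ∑ x, π x y * π v y / m true y = π v y := by
  rw [← Finset.sum_div, ← Finset.sum_mul, h.col]
  by_cases hy : m true y = 0
  · rw [hy, h.zero_col hy]; simp
  · field_simp

theorem tau_nonneg (z w : U × U) : 0 ≤ tau m π z w :=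
  div_nonneg (mul_nonneg (h.term_nonneg _ _ _) (h.term_nonneg _ _ _)) (h.cherry_nonneg _ _)

theorem tau_sum_u (x y v : U) : ∑ u, tau m π (x, u) (y, v) = π x y * π v y / m true y := by
  unfold tau
  simp only
  rw [← Finset.sum_div, ← Finset.mul_sum]
  change π x y * π v y / m true y * cherry m π x v / cherry m π x v = _
  by_cases h0 : cherry m π x v = 0
  · rw [h.cherry_zero h0 y]; simp
  · field_simp

theorem tau_sum_y (x u v : U) : ∑ y, tau m π (x, u) (y, v) = π x u * π v u / m true u := by
  unfold tau
  simp only
  rw [← Finset.sum_div, ← Finset.sum_mul]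
  change cherry m π x v * (π x u * π v u / m true u) / cherry m π x v = _
  by_cases h0 : cherry m π x v = 0
  · rw [h.cherry_zero h0 u]; simp
  · field_simp

theorem tau_sum_left (w : U × U) : ∑ z, tau m π z w = rho π true w := by
  obtain ⟨y, v⟩ := w
  rw [Fintype.sum_prod_type]
  simp_rw [h.tau_sum_u, h.sum_term]
  rfl

theorem tau_sum_right (z : U × U) : ∑ w, tau m π z w = rho π false z := by
  obtain ⟨x, u⟩ := z
  rw [Fintype.sum_prod_type, Finset.sum_comm]
  simp_rw [h.tau_sum_y]
  simp_rw [mul_comm (π x u)]
  rw [h.sum_term]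
  rfl

theorem st_nonneg (b : Bool) (z w : U × U) : 0 ≤ st m π b z w := by
  unfold st
  split_ifs
  · exact h.tau_nonneg _ _
  · exact h.tau_nonneg _ _

omit h in
theorem st_symm (b : Bool) (z w : U × U) : st m π b z w = st m π (!b) w z := by
  unfold st
  cases b <;> simp

theorem st_sum (b : Bool) (z : U × U) : ∑ w, st m π b z w = rho π b z := by
  unfold st
  cases b
  · simpa using h.tau_sum_right z
  · simpa using h.tau_sum_left z

theorem st_sum' (b : Bool) (w : U × U) : ∑ z, st m π b z w = rho π (!b) w := by
  simp_rw [st_symm b]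
  exact h.st_sum (!b) w

theorem st_zero (b : Bool) {z : U × U} (hz : rho π b z = 0) (w : U × U) : st m π b z w = 0 := by
  rw [← h.st_sum] at hz
  exact (Finset.sum_eq_zero_iff_of_nonneg fun w _ => h.st_nonneg b z w).1 hz w (mem_univ w)

theorem st_zero' (b : Bool) {w : U × U} (hw : rho π (!b) w = 0) (z : U × U) :
    st m π b z w = 0 := by
  rw [st_symm]
  exact h.st_zero (!b) hw z

theorem ch_nonneg (b : Bool) (d : ℕ) (z w : U × U) : 0 ≤ ch m π b d z w := by
  induction d generalizing b z with
  | zero =>
    simp only [ch]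
    split_ifs
    · exact h.rho_nonneg _ _
    · exact le_rfl
  | succ d ih =>
    simp only [ch]
    exact Finset.sum_nonneg fun z' _ => div_nonneg (mul_nonneg (h.st_nonneg _ _ _) (ih _ _))
      (h.rho_nonneg _ _)

theorem ch_sum (b : Bool) (d : ℕ) (z : U × U) : ∑ w, ch m π b d z w = rho π b z := by
  classical
  induction d generalizing b z with
  | zero =>
    simp only [ch]
    rw [Finset.sum_eq_single z]
    · simp
    · intro w _ hw
      rw [if_neg (fun h => hw h.symm)]
    · intro hn
      exact absurd (mem_univ _) hn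
  | succ d ih =>
    simp only [ch]
    rw [Finset.sum_comm]
    rw [← h.st_sum b z]
    refine Finset.sum_congr rfl fun z' _ => ?_
    rw [← Finset.sum_div, ← Finset.mul_sum, ih]
    by_cases h0 : rho π (!b) z' = 0
    · rw [h.st_zero' b h0 z]; simp
    · field_simp

theorem ch_zero (b : Bool) (d : ℕ) {z : U × U} (hz : rho π b z = 0) (w : U × U) :
    ch m π b d z w = 0 := by
  rw [← h.ch_sum b d] at hz
  exact (Finset.sum_eq_zero_iff_of_nonneg fun w _ => h.ch_nonneg b d z w).1 hz w (mem_univ w)

theorem ch_sum' (b : Bool) (d : ℕ) (w : U × U) : ∑ z, ch m π b d z w = rho π (par b d) w := by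
  classical
  induction d generalizing b with
  | zero =>
    simp only [ch, par]
    rw [Finset.sum_eq_single w]
    · simp
    · intro z _ hz
      rw [if_neg hz]
    · intro hn
      exact absurd (mem_univ _) hn
  | succ d ih =>
    simp only [ch, par]
    rw [Finset.sum_comm, ← ih]
    refine Finset.sum_congr rfl fun z' _ => ?_
    rw [← Finset.sum_div, ← Finset.sum_mul, h.st_sum']
    by_cases h0 : rho π (!b) z' = 0
    · rw [h.ch_zero (!b) d h0 w]; simp
    · field_simp

theorem ch_one (b : Bool) (z w : U × U) : ch m π b 1 z w = st m π b z w := by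
  classical
  show ∑ z', st m π b z z' * (if z' = w then rho π (!b) z' else 0) / rho π (!b) z' = _
  rw [Finset.sum_eq_single w]
  · rw [if_pos rfl]
    by_cases h0 : rho π (!b) w = 0
    · rw [h.st_zero' b h0 z]; simp
    · field_simp
  · intro z' _ hz
    rw [if_neg hz]; simp
  · intro hn
    exact absurd (mem_univ _) hn

theorem ch_succ (b : Bool) (d : ℕ) (z w : U × U) : ch m π b (d + 1) z w =
    ∑ z', ch m π b d z z' * st m π (par b d) z' w / rho π (par b d) z' := by
  classical
  induction d generalizing b z with
  | zero =>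
    rw [h.ch_one]
    show _ = ∑ z', (if z = z' then rho π b z else 0) * st m π b z' w / rho π b z'
    rw [Finset.sum_eq_single z]
    · rw [if_pos rfl]
      by_cases h0 : rho π b z = 0
      · rw [h.st_zero b h0 w]; simp
      · field_simp
    · intro z' _ hz
      rw [if_neg (fun h => hz h.symm)]; simp
    · intro hn
      exact absurd (mem_univ _) hn
  | succ d ih =>
    have e1 : ch m π b (d + 1 + 1) z w =
        ∑ z', st m π b z z' * ch m π (!b) (d + 1) z' w / rho π (!b) z' := rfl
    rw [e1]
    simp_rw [ih (!b)]
    have e2 : ∀ z', st m π b z z' * (∑ z'', ch m π (!b) d z' z'' * st m π (par (!b) d) z'' w /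
        rho π (par (!b) d) z'') / rho π (!b) z' = ∑ z'', (st m π b z z' * ch m π (!b) d z' z'' /
        rho π (!b) z') * st m π (par (!b) d) z'' w / rho π (par (!b) d) z'' := by
      intro z'
      rw [Finset.mul_sum, Finset.sum_div]
      refine Finset.sum_congr rfl fun z'' _ => ?_
      ring
    simp_rw [e2]
    rw [Finset.sum_comm]
    refine Finset.sum_congr rfl fun z'' _ => ?_
    rw [← Finset.sum_div, ← Finset.sum_mul]
    rfl

theorem ch_symm (b : Bool) (d : ℕ) (z w : U × U) : ch m π b d z w = ch m π (par b d) d w z := by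
  classical
  induction d generalizing b z w with
  | zero =>
    simp only [ch, par]
    by_cases hzw : z = w
    · rw [hzw]
    · rw [if_neg hzw, if_neg (fun h => hzw h.symm)]
  | succ d ih =>
    have e1 : ch m π b (d + 1) z w =
        ∑ z', st m π b z z' * ch m π (!b) d z' w / rho π (!b) z' := rfl
    have e2 : par b (d + 1) = par (!b) d := rfl
    rw [e1, e2, h.ch_succ, par_par]
    refine Finset.sum_congr rfl fun z' _ => ?_
    rw [ih (!b) z' w, st_symm b z z']
    ring

end Base

end Vale.Agent.P050.Cart
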