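import Vale.Agent.P050.Cart.State

/-!
Ears.
-/

set_option linter.unusedSectionVars false

namespace Vale.Agent.P050.Cart

open Finset

variable {V U : Type} [Fintype V] [DecidableEq V] [Fintype U]

variable {m : Bool → U → ℝ} {π : U → U → ℝ} (h : Base m π) {s : V → Bool}
  {E : Finset (V × V)} {S : Finset V} {μ : (V → U × U) → ℝ}

include h

/-- the next vertex of an ear -/
theorem St.extend {u v w : V} {n : ℕ}
    (hst : St m π E s S μ (pot0 m π (s u) (n + 2)) (potf m π (s u) (n + 2))
      (pots m π (s u) (n + 2))) (hw : w ∉ S) (hu : u ∈ S) (hv : v ∈ S) (hsw : s w = !s u)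
    (hT : Tie m π s μ u v (n + 2)) :
    ∃ μ', St m π (insert (dedge s w u) E) s (insert w S) μ' (pot0 m π (s w) (n + 1))
        (potf m π (s w) (n + 1)) (pots m π (s w) (n + 1)) ∧
      (∀ x y d, x ∈ S → y ∈ S → Tie m π s μ x y d → Tie m π s μ' x y d) ∧
      Tie m π s μ' w v (n + 1) ∧
      ∀ x a, x ∈ S → Tri m π s μ x u v a (n + 2) → Tri m π s μ' x w v (a + 1) (n + 1) := by
  classical
  have huw : u ≠ w := fun h => hw (h ▸ hu)
  have hvw : v ≠ w := fun h => hw (h ▸ hv)
  set κ : (U × U) × (U × U) → U × U → ℝ := fun e b => st m π (s u) e.1 b *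
    ch m π (!s u) (n + 1) b e.2 / (rho π (!s u) b * ch m π (s u) (n + 2) e.1 e.2) with hκ
  set q : U × U → ({v // v ≠ w} → U × U) → ℝ := fun a o => κ (o ⟨u, huw⟩, o ⟨v, hvw⟩) a with hq
  have hq0 : ∀ a o, 0 ≤ q a o := fun a o => div_nonneg (mul_nonneg (h.st_nonneg _ _ _)
    (h.ch_nonneg _ _ _ _)) (mul_nonneg (h.rho_nonneg _ _) (h.ch_nonneg _ _ _ _))
  have hchdef : ∀ α γ, ch m π (s u) (n + 2) α γ = ∑ b, st m π (s u) α b *
      ch m π (!s u) (n + 1) b γ / rho π (!s u) b := fun α γ => rfl
  have hs : ∀ o, mar μ (off w) o ≠ 0 → ∑ a, q a o = 1 := by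
    intro o ho
    have h0 : ch m π (s u) (n + 2) (o ⟨u, huw⟩) (o ⟨v, hvw⟩) ≠ 0 := by
      intro h0
      apply ho
      refine mar_zero_of_map hst.nonneg (off w) (fun o => (o ⟨u, huw⟩, o ⟨v, hvw⟩)) ?_
      have e : mar μ (fun z => (off w z ⟨u, huw⟩, off w z ⟨v, hvw⟩)) = chP m π (s u) (n + 2) :=
        hT.2
      rw [e]
      exact h0
    simp only [hq, hκ]
    have e1 : ∀ a, st m π (s u) (o ⟨u, huw⟩) a * ch m π (!s u) (n + 1) a (o ⟨v, hvw⟩) /
        (rho π (!s u) a * ch m π (s u) (n + 2) (o ⟨u, huw⟩) (o ⟨v, hvw⟩)) =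
        (st m π (s u) (o ⟨u, huw⟩) a * ch m π (!s u) (n + 1) a (o ⟨v, hvw⟩) / rho π (!s u) a) /
          ch m π (s u) (n + 2) (o ⟨u, huw⟩) (o ⟨v, hvw⟩) := fun a => by rw [div_div]
    simp_rw [e1]
    rw [← Finset.sum_div, ← hchdef]
    exact div_self h0
  set μ' := resample w q μ with hμ'
  have hpres : ∀ x y d, x ∈ S → y ∈ S → Tie m π s μ x y d → Tie m π s μ' x y d :=
    fun x y d hx hy ht => ht.resample' hs (fun h => hw (h ▸ hx)) (fun h => hw (h ▸ hy))
  -- the joint law of `w, u, v`
  have hkey : ∀ α β γ, κ (α, γ) β * ch m π (s u) (n + 2) α γ =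
      st m π (s u) α β * ch m π (!s u) (n + 1) β γ / rho π (!s u) β := by
    intro α β γ
    simp only [hκ]
    by_cases h0 : ch m π (s u) (n + 2) α γ = 0
    · rw [h0, mul_zero]
      have h1 := h0
      rw [hchdef] at h1
      exact ((Finset.sum_eq_zero_iff_of_nonneg fun b _ => div_nonneg (mul_nonneg
        (h.st_nonneg _ _ _) (h.ch_nonneg _ _ _ _)) (h.rho_nonneg _ _)).1 h1 β
          (mem_univ β)).symm
    · field_simp
  have hlaw3 : mar μ' (fun z => (z u, z w, z v)) = trP m π (s u) (n + 1) := by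
    funext ⟨α, β, γ⟩
    have e2 := resample_kernel (q := q) (μ := μ) (fun o => (o ⟨u, huw⟩, o ⟨v, hvw⟩))
      κ (fun a o => rfl) hs β (α, γ)
    have e3 : mar μ' (fun z => (z w, (z u, z v))) (β, (α, γ)) =
      κ (α, γ) β * mar μ (fun z => (z u, z v)) (α, γ) := e2
    have e4 := mar_inj μ' (fun z => (z w, (z u, z v)))
      (e := fun p : (U × U) × (U × U) × (U × U) => (p.2.1, p.1, p.2.2)) (fun x y hxy => by
      simp only [Prod.mk.injEq] at hxy
      exact Prod.ext hxy.2.1 (Prod.ext hxy.1 hxy.2.2)) (β, (α, γ))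
    simp only at e4
    rw [e4, e3, hT.2]
    unfold chP trP
    simp only
    rw [hkey]
  have htri : ∀ x a, x ∈ S → Tri m π s μ x u v a (n + 2) →
      Tri m π s μ' x w v (a + 1) (n + 1) := by
    intro x a hx ht
    have hxw : x ≠ w := fun h => hw (h ▸ hx)
    refine ⟨?_, ?_⟩
    · rw [hsw, ht.1, ← par_not]
      rfl
    · intro ξ β γ
      have e1 : ∀ α, mar μ' (fun z => ((z x, (z w, z v)), z u)) ((ξ, (β, γ)), α) =
          κ (α, γ) β * (ch m π (s x) a ξ α * ch m π (s u) (n + 2) α γ / rho π (s u) α) := by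
        intro α
        have e2 := resample_kernel (q := q) (μ := μ)
          (fun o => (o ⟨x, hxw⟩, (o ⟨u, huw⟩, o ⟨v, hvw⟩)))
          (fun p => κ p.2) (fun a o => rfl) hs β (ξ, (α, γ))
        have e3 : mar μ' (fun z => (z w, (z x, (z u, z v)))) (β, (ξ, (α, γ))) =
          κ (α, γ) β * mar μ (fun z => (z x, (z u, z v))) (ξ, (α, γ)) := e2
        rw [ht.2] at e3
        rw [← e3]
        exact mar_inj μ' (fun z => (z w, (z x, (z u, z v))))
          (e := fun p : (U × U) × (U × U) × (U × U) × (U × U) =>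
            ((p.2.1, (p.1, p.2.2.2)), p.2.2.1)) (fun x y hxy => by
          simp only [Prod.mk.injEq] at hxy
          exact Prod.ext hxy.1.2.1 (Prod.ext hxy.1.1 (Prod.ext hxy.2 hxy.1.2.2))) (β, (ξ, (α, γ)))
      rw [← mar_fst μ' (fun z => (z x, (z w, z v))) (fun z => z u) (ξ, (β, γ))]
      simp_rw [e1]
      have e5 : ∀ α, κ (α, γ) β * (ch m π (s x) a ξ α * ch m π (s u) (n + 2) α γ /
          rho π (s u) α) = (ch m π (s x) a ξ α * st m π (s u) α β / rho π (s u) α) *
            (ch m π (!s u) (n + 1) β γ / rho π (!s u) β) := by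
        intro α
        have := hkey α β γ
        calc κ (α, γ) β * (ch m π (s x) a ξ α * ch m π (s u) (n + 2) α γ / rho π (s u) α)
            = (κ (α, γ) β * ch m π (s u) (n + 2) α γ) * (ch m π (s x) a ξ α / rho π (s u) α) := by
              ring
          _ = _ := by rw [this]; ring
      simp_rw [e5]
      rw [← Finset.sum_mul, hsw, h.ch_succ (s x) a ξ β, ← ht.1]
      ring
  have hlaw2 : mar μ' (fun z => (z w, z v)) = chP m π (!s u) (n + 1) := by
    have e1 := trP_23 h (s u) (n + 1)
    rw [← hlaw3] at e1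
    rw [← e1]
    funext a
    rw [mar_mar]
  have htiev : Tie m π s μ' w v (n + 1) := by
    refine ⟨?_, by rw [hlaw2, hsw]⟩
    rw [hT.1, hsw]
    rfl
  have htieu : Tie m π s μ' u w 1 := by
    refine ⟨hsw, ?_⟩
    have e1 := trP_12 h (s u) (n + 1)
    rw [← hlaw3] at e1
    rw [← e1]
    funext a
    rw [mar_mar]
  have hrs := h.rho_sum (s w)
  have hI := hst.indep w hw
  have hcard : (insert (dedge s w u) E).card = E.card + 1 := by
    refine Finset.card_insert_of_notMem fun hmem => ?_
    have h2 := hst.inS _ hmem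
    unfold dedge at h2
    split_ifs at h2
    · exact hw h2.1
    · exact hw h2.2
  have hvert : ∀ x, mar μ' (fun z => z x) = rho π (s x) := by
    intro x
    by_cases hx : x = w
    · rw [hx]
      funext a
      have e1 := mar_fst μ' (fun z => z w) (fun z => z v) a
      rw [← e1, htiev.2]
      unfold chP
      simp only
      exact h.ch_sum _ _ _
    · have e := resample_comp (q := q) (μ := μ) hs (fun o => o ⟨x, hx⟩)
      have e2 : mar μ' (fun z => z x) = mar μ (fun z => z x) := e
      rw [e2, hst.vertex]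
  -- entropies
  have hentμw : ent μ (fun z => z w) = hr π := by
    rw [ent_comp h (hst.vertex w) (fun z => z), ent_rho h]
  have hE := resample_ent hst.nonneg hst.total hq0 (fun o => (o ⟨u, huw⟩, o ⟨v, hvw⟩)) κ
    (fun a o => rfl) hs hrs hI
  have hE2 : ent μ' (fun z => z) = ent μ (fun z => z) - (hr π + hc m π (s u) (n + 2) -
      ent (trP m π (s u) (n + 1)) (fun p => p)) := by
    have e1 : ent μ' (fun z => (z w, (off w z ⟨u, huw⟩, off w z ⟨v, hvw⟩))) =
        ent (trP m π (s u) (n + 1)) (fun p => p) := by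
      have := ent_comp h hlaw3 (fun p => p)
      rw [← this]
      exact ent_inj μ' (fun z => (z u, z w, z v))
        (e := fun p : (U × U) × (U × U) × (U × U) => (p.2.1, p.1, p.2.2)) (fun x y hxy => by
        simp only [Prod.mk.injEq] at hxy
        exact Prod.ext hxy.2.1 (Prod.ext hxy.1 hxy.2.2))
    have e2 : ent μ (fun z => (off w z ⟨u, huw⟩, off w z ⟨v, hvw⟩)) = hc m π (s u) (n + 2) :=
      ent_comp h hT.2 (fun p => p)
    rw [hentμw, e1, e2] at hE
    linarith
  have hF := resample_ent_le (Y := U) (β := U × U) hst.nonneg hst.total hq0 hs hrs hI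
    (fun z => z.1) (fun o => (o ⟨u, huw⟩, o ⟨v, hvw⟩))
  have hF2 : ent μ' (fun z v => (z v).1) ≤ ent μ (fun z v => (z v).1) -
      (hm m (!s u) + hf m π (s u) (n + 2) -
      ent (trP m π (s u) (n + 1)) (fun p => (p.1.1, p.2.2.1, p.2.1.1))) := by
    have e1 : ent μ' (fun z => ((z w).1, ((z u).1, (z v).1))) =
        ent (trP m π (s u) (n + 1)) (fun p => (p.1.1, p.2.2.1, p.2.1.1)) := by
      rw [← ent_comp h hlaw3 (fun p => (p.1.1, p.2.2.1, p.2.1.1))]
      exact ent_inj μ' (fun z => ((z u).1, (z v).1, (z w).1))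
        (e := fun p : U × U × U => (p.2.2, p.1, p.2.1)) (fun x y hxy => by
        simp only [Prod.mk.injEq] at hxy
        exact Prod.ext hxy.2.1 (Prod.ext hxy.2.2 hxy.1))
    have e2 : ent μ (fun z => (z w).1) = hm m (s w) := by
      rw [ent_comp h (hst.vertex w) (fun z => z.1), ent_comp h (mar_rho_fst h _) (fun z => z)]
      rfl
    have e3 : ent μ (fun z => ((z u).1, (z v).1)) = hf m π (s u) (n + 2) := by
      rw [ent_comp h hT.2 (fun p => (p.1.1, p.2.1))]
      rfl
    rw [e1, e2, e3, hsw] at hF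
    linarith
  have hG := resample_ent_le (Y := U) (β := U × U) hst.nonneg hst.total hq0 hs hrs hI
    (fun z => z.2) (fun o => (o ⟨u, huw⟩, o ⟨v, hvw⟩))
  have hG2 : ent μ' (fun z v => (z v).2) ≤ ent μ (fun z v => (z v).2) -
      (hm m (s u) + Cart.hs m π (s u) (n + 2) -
      ent (trP m π (s u) (n + 1)) (fun p => (p.1.2, p.2.2.2, p.2.1.2))) := by
    have e1 : ent μ' (fun z => ((z w).2, ((z u).2, (z v).2))) =
        ent (trP m π (s u) (n + 1)) (fun p => (p.1.2, p.2.2.2, p.2.1.2)) := by
      rw [← ent_comp h hlaw3 (fun p => (p.1.2, p.2.2.2, p.2.1.2))]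
      exact ent_inj μ' (fun z => ((z u).2, (z v).2, (z w).2))
        (e := fun p : U × U × U => (p.2.2, p.1, p.2.1)) (fun x y hxy => by
        simp only [Prod.mk.injEq] at hxy
        exact Prod.ext hxy.2.1 (Prod.ext hxy.2.2 hxy.1))
    have e2 : ent μ (fun z => (z w).2) = hm m (!s w) := by
      rw [ent_comp h (hst.vertex w) (fun z => z.2), ent_comp h (mar_rho_snd h _) (fun z => z)]
      rfl
    have e3 : ent μ (fun z => ((z u).2, (z v).2)) = Cart.hs m π (s u) (n + 2) := by
      rw [ent_comp h hT.2 (fun p => (p.1.2, p.2.2))]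
      rfl
    rw [e1, e2, e3, hsw, Bool.not_not] at hG
    linarith
  have s0 := pot0_step h (s u) n
  have s1 := potf_step h (s u) n
  have s2 := pots_step h (s u) n
  rw [← hsw] at s0 s1 s2
  rw [← hsw] at hF2
  refine ⟨μ', ?_, hpres, htiev, htri⟩
  refine
    { nonneg := resample_nonneg hq0 hst.nonneg
      total := resample_total hs hst.total
      vertex := hvert
      indep := ?_
      inS := ?_
      edge := ?_
      bound := ?_
      bound_fst := ?_
      bound_snd := ?_
      bound_both := ?_ }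
  · intro w' hw'
    have h1 : w' ≠ w := fun h => hw' (h ▸ mem_insert_self _ _)
    have h2 : w' ∉ S := fun h => hw' (mem_insert_of_mem h)
    have h3 : u ≠ w' := fun h => h2 (h ▸ hu)
    have h4 : v ≠ w' := fun h => h2 (h ▸ hv)
    refine (hst.indep w' h2).resample' h1 fun a z y => ?_
    simp only [hq, off]
    rw [Function.update_of_ne h3, Function.update_of_ne h4]
  · intro e he
    rcases mem_insert.1 he with he | he
    · rw [he]
      unfold dedge
      split_ifs
      · exact ⟨mem_insert_self _ _, mem_insert_of_mem hu⟩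
      · exact ⟨mem_insert_of_mem hu, mem_insert_self _ _⟩
    · exact ⟨mem_insert_of_mem (hst.inS e he).1, mem_insert_of_mem (hst.inS e he).2⟩
  · intro e he
    rcases mem_insert.1 he with he | he
    · rw [he]
      unfold dedge
      split_ifs with hf
      · exact ⟨hf, Tie.symm h htieu⟩
      · refine ⟨?_, htieu⟩
        simp only
        rw [Bool.not_eq_false] at hf
        rw [hf] at hsw
        cases hsv : s u
        · rfl
        · rw [hsv] at hsw
          exact absurd hsw (by simp)
    · exact ⟨(hst.edge e he).1, hpres _ _ _ (hst.inS e he).1 (hst.inS e he).2 (hst.edge e he).2⟩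
  · rw [hcard, hE2]
    push_cast
    have := hst.bound
    linarith
  · rw [hcard, hE2]
    push_cast
    have := hst.bound_fst
    linarith
  · rw [hcard, hE2]
    push_cast
    have := hst.bound_snd
    linarith
  · rw [hE2]
    have := hst.bound_both
    linarith

/-- the last edge of an ear -/
theorem St.close {u v : V}
    (hst : St m π E s S μ (pot0 m π (s u) 1) (potf m π (s u) 1) (pots m π (s u) 1))
    (hu : u ∈ S) (hv : v ∈ S) (hT : Tie m π s μ u v 1) (hE : dedge s u v ∉ E) :
    St m π (insert (dedge s u v) E) s S μ 0 0 0 := by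
  classical
  have hcard : (insert (dedge s u v) E).card = E.card + 1 := Finset.card_insert_of_notMem hE
  have hsv : s v = !s u := hT.1
  refine
    { nonneg := hst.nonneg
      total := hst.total
      vertex := hst.vertex
      indep := hst.indep
      inS := ?_
      edge := ?_
      bound := ?_
      bound_fst := ?_
      bound_snd := ?_
      bound_both := ?_ }
  · intro e he
    rcases mem_insert.1 he with he | he
    · rw [he]
      unfold dedge
      split_ifs
      · exact ⟨hu, hv⟩
      · exact ⟨hv, hu⟩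
    · exact hst.inS e he
  · intro e he
    rcases mem_insert.1 he with he | he
    · rw [he]
      unfold dedge
      split_ifs with hf
      · exact ⟨hf, hT⟩
      · refine ⟨?_, Tie.symm h hT⟩
        simp only
        rw [Bool.not_eq_false] at hf
        rw [hsv, hf]
        rfl
    · exact hst.edge e he
  · have := hst.bound
    rw [pot0_one h] at this
    rw [hcard]
    push_cast
    linarith
  · have := hst.bound_fst
    rw [pot0_one h, potf_one h] at this
    rw [hcard]
    push_cast
    linarith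
  · have := hst.bound_snd
    rw [pot0_one h, pots_one h] at this
    rw [hcard]
    push_cast
    linarith
  · have := hst.bound_both
    rw [pot0_one h, potf_one h, pots_one h] at this
    linarith

end Vale.Agent.P050.Cart
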