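import Vale.Agent.P050.Cart.Ear

/-!
Independent rungs; whole ears.
-/

set_option linter.unusedSectionVars false

namespace Vale.Agent.P050.Cart

open Finset

variable {V U : Type} [Fintype V] [DecidableEq V] [Fintype U]

theorem Indep.mar_eq {X : Type} [Fintype X] {μ : (V → X) → ℝ} {w : V} {r : X → ℝ}
    (hI : Indep μ w r) (hr : ∑ a, r a = 1) (h1 : ∑ z, μ z = 1) : mar μ (fun z => z w) = r := by
  funext a
  rw [← mar_fst μ (fun z => z w) (off w) a]
  simp_rw [hI.split hr]
  rw [← Finset.mul_sum, mar_total, h1, mul_one]

section product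

variable {X Y : Type} [Fintype X] [Fintype Y]

theorem prodLaw_total (r : V → X → ℝ) (hr1 : ∀ v, ∑ x, r v x = 1) :
    ∑ z : V → X, ∏ v, r v (z v) = 1 := by
  have h3 := Finset.prod_univ_sum (fun _ : V => (univ : Finset X)) (fun v x => r v x)
  rw [Fintype.piFinset_univ] at h3
  rw [← h3]
  simp [hr1]

theorem prodLaw_indep (r : V → X → ℝ) (w : V) : Indep (fun z : V → X => ∏ v, r v (z v)) w (r w) := by
  refine ⟨fun z => ∏ v ∈ univ.erase w, r v (z v), ?_, ?_⟩
  · intro z y
    refine Finset.prod_congr rfl fun v hv => ?_
    rw [Function.update_of_ne (Finset.ne_of_mem_erase hv)]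
  · intro z
    exact (Finset.mul_prod_erase univ (fun v => r v (z v)) (mem_univ w)).symm

theorem prodLaw_mar (r : V → X → ℝ) (F : X → Y) (f : V → Y) :
    mar (fun z : V → X => ∏ v, r v (z v)) (fun z v => F (z v)) f = ∏ v, mar (r v) F (f v) := by
  classical
  unfold mar
  have h3 := Finset.prod_univ_sum (fun _ : V => (univ : Finset X))
    (fun v x => if F x = f v then r v x else 0)
  rw [Fintype.piFinset_univ] at h3
  rw [h3]
  refine Finset.sum_congr rfl fun z _ => ?_
  rw [Finset.prod_ite_zero]
  by_cases hz : ∀ v, F (z v) = f v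
  · rw [if_pos (funext hz), if_pos (fun v _ => hz v)]
  · rw [if_neg (fun h => hz (congrFun h)), if_neg (fun h => hz fun v => h v (mem_univ v))]

theorem prodLaw_ent {r : V → X → ℝ} (hr0 : ∀ v x, 0 ≤ r v x) (hr1 : ∀ v, ∑ x, r v x = 1)
    (F : X → Y) : ent (fun z : V → X => ∏ v, r v (z v)) (fun z v => F (z v)) =
      ∑ v, ent (r v) F := by
  have hP : ∀ z : V → X, 0 ≤ ∏ v, r v (z v) := fun z => Finset.prod_nonneg fun v _ => hr0 _ _
  rw [ent_eq]
  have e1 : ∀ z : V → X, (∏ v, r v (z v)) *
      Real.log (mar (fun z : V → X => ∏ v, r v (z v)) (fun z v => F (z v)) (fun v => F (z v))) =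
      ∑ w, (∏ v, r v (z v)) * Real.log (mar (r w) F (F (z w))) := by
    intro z
    by_cases h0 : ∏ v, r v (z v) = 0
    · rw [h0]; simp
    · rw [prodLaw_mar, Real.log_prod, Finset.mul_sum]
      intro v _
      exact mar_ne_zero (hr0 v) F (Finset.prod_ne_zero_iff.1 h0 v (mem_univ v))
  simp_rw [e1]
  rw [Finset.sum_comm, ← Finset.sum_neg_distrib]
  refine Finset.sum_congr rfl fun w _ => ?_
  rw [ent_eq]
  congr 1
  have e2 := sum_mar (fun z : V → X => ∏ v, r v (z v)) (fun z => z w)
    (fun x => Real.log (mar (r w) F (F x)))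
  rw [(prodLaw_indep r w).mar_eq (hr1 w) (prodLaw_total r hr1)] at e2
  exact e2.symm

end product

variable {m : Bool → U → ℝ} {π : U → U → ℝ} (h : Base m π) {s : V → Bool}
  {E : Finset (V × V)} {S : Finset V} {μ : (V → U × U) → ℝ}

include h

theorem St.init (s : V → Bool) :
    St m π ∅ s ∅ (fun z : V → U × U => ∏ v, rho π (s v) (z v)) 0 0 0 := by
  have hr0 : ∀ v (x : U × U), 0 ≤ rho π (s v) x := fun v x => h.rho_nonneg _ _
  have hr1 : ∀ v : V, ∑ x, rho π (s v) x = 1 := fun v => h.rho_sum _
  have e0 : ent (fun z : V → U × U => ∏ v, rho π (s v) (z v)) (fun z => z) =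
      Fintype.card V * hr π := by
    have := prodLaw_ent (r := fun v => rho π (s v)) hr0 hr1 (fun x => x)
    have e1 : ∑ v : V, ent (rho π (s v)) (fun x => x) = Fintype.card V * hr π := by
      simp_rw [ent_rho h]
      rw [Finset.sum_const, Finset.card_univ, nsmul_eq_mul]
    rw [← e1, ← this]
  have e1 : ent (fun z : V → U × U => ∏ v, rho π (s v) (z v)) (fun z v => (z v).1) =
      ∑ v, hm m (s v) := by
    rw [prodLaw_ent (r := fun v => rho π (s v)) hr0 hr1 (fun x => x.1)]
    refine Finset.sum_congr rfl fun v _ => ?_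
    rw [ent_comp h (mar_rho_fst h _) (fun z => z)]
    rfl
  have e2 : ent (fun z : V → U × U => ∏ v, rho π (s v) (z v)) (fun z v => (z v).2) =
      ∑ v, hm m (!s v) := by
    rw [prodLaw_ent (r := fun v => rho π (s v)) hr0 hr1 (fun x => x.2)]
    refine Finset.sum_congr rfl fun v _ => ?_
    rw [ent_comp h (mar_rho_snd h _) (fun z => z)]
    rfl
  refine
    { nonneg := fun z => Finset.prod_nonneg fun v _ => hr0 _ _
      total := prodLaw_total _ hr1
      vertex := fun v => (prodLaw_indep (fun v => rho π (s v)) v).mar_eq (hr1 v)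
        (prodLaw_total _ hr1)
      indep := fun w _ => prodLaw_indep (fun v => rho π (s v)) w
      inS := fun e he => absurd he (Finset.notMem_empty e)
      edge := fun e he => absurd he (Finset.notMem_empty e)
      bound := ?_
      bound_fst := ?_
      bound_snd := ?_
      bound_both := ?_ }
  · rw [e0]
    unfold ii
    simp only [Finset.card_empty, Nat.cast_zero]
    linarith
  · rw [e0, e1]
    unfold ii
    simp only [Finset.card_empty, Nat.cast_zero]
    linarith
  · rw [e0, e2]
    unfold ii
    simp only [Finset.card_empty, Nat.cast_zero]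
    linarith
  · rw [e0, e1, e2]
    unfold ii
    linarith

/-- **An ear.** -/
theorem St.ear {p : ℕ → V} {n : ℕ} (hst : St m π E s S μ 0 0 0) (h0 : p 0 ∈ S)
    (hd : p (n + 2) ∈ S) (hne : p 0 ≠ p (n + 2)) (hnew : ∀ i, 0 < i → i < n + 2 → p i ∉ S)
    (hinj : ∀ i j, 0 < i → i < j → j < n + 2 → p i ≠ p j)
    (hsd : ∀ i, i < n + 2 → s (p (i + 1)) = !s (p i)) (hT : Tie m π s μ (p 0) (p (n + 2)) (n + 2)) :
    ∃ μ', St m π (E ∪ (range (n + 2)).image fun i => dedge s (p i) (p (i + 1))) s
        (S ∪ (range (n + 1)).image fun i => p (i + 1)) μ' 0 0 0 ∧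
      (∀ x y d, x ∈ S → y ∈ S → Tie m π s μ x y d → Tie m π s μ' x y d) ∧
      ∀ i j, i ≤ j → j ≤ n + 2 → Tie m π s μ' (p i) (p j) (j - i) := by
  classical
  have key : ∀ k, k ≤ n + 1 → ∃ μ', St m π
      (E ∪ (range k).image fun i => dedge s (p i) (p (i + 1))) s
        (S ∪ (range k).image fun i => p (i + 1)) μ' (pot0 m π (s (p k)) (n + 2 - k))
        (potf m π (s (p k)) (n + 2 - k)) (pots m π (s (p k)) (n + 2 - k)) ∧
      (∀ x y d, x ∈ S → y ∈ S → Tie m π s μ x y d → Tie m π s μ' x y d) ∧
      (∀ i, i ≤ k → Tri m π s μ' (p i) (p k) (p (n + 2)) (k - i) (n + 2 - k)) ∧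
      (∀ i j, i ≤ j → j ≤ k → Tie m π s μ' (p i) (p j) (j - i)) ∧
      ∀ i, i ≤ k → Tie m π s μ' (p i) (p (n + 2)) (n + 2 - i) := by
    intro k
    induction k with
    | zero =>
      intro _
      refine ⟨μ, ?_, fun _ _ _ _ _ ht => ht, ?_, ?_, ?_⟩
      · have q0 := pot_start0 h (s (p 0)) (n + 2)
        have q1 := pot_start1 h (s (p 0)) (n + 2)
        have q2 := pot_start2 h (s (p 0)) (n + 2)
        have q3 := pot_start3 h (s (p 0)) n
        simp only [range_zero, image_empty, union_empty, Nat.sub_zero]
        exact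
          { nonneg := hst.nonneg
            total := hst.total
            vertex := hst.vertex
            indep := hst.indep
            inS := hst.inS
            edge := hst.edge
            bound := by have := hst.bound; linarith
            bound_fst := by have := hst.bound_fst; linarith
            bound_snd := by have := hst.bound_snd; linarith
            bound_both := by have := hst.bound_both; linarith }
      · intro i hi
        have : i = 0 := Nat.le_zero.1 hi
        subst this
        exact Tie.tri h hT
      · intro i j hij hj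
        have : j = 0 := Nat.le_zero.1 hj
        subst this
        have : i = 0 := Nat.le_zero.1 hij
        subst this
        exact Tie.refl h hst.vertex _
      · intro i hi
        have : i = 0 := Nat.le_zero.1 hi
        subst this
        exact hT
    | succ k ih =>
      intro hk
      obtain ⟨μ₁, hst₁, hp₁, htri, htie, hend⟩ := ih (by omega)
      have hwS : p (k + 1) ∉ S ∪ (range k).image fun i => p (i + 1) := by
        intro hmem
        rcases mem_union.1 hmem with hmem | hmem
        · exact hnew (k + 1) (by omega) (by omega) hmem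
        · obtain ⟨i, hi, hi2⟩ := mem_image.1 hmem
          rw [mem_range] at hi
          exact hinj (i + 1) (k + 1) (by omega) (by omega) (by omega) hi2
      have hinS : ∀ i, i ≤ k → p i ∈ S ∪ (range k).image fun i => p (i + 1) := by
        intro i hi
        rcases Nat.eq_zero_or_pos i with h1 | h1
        · rw [h1]
          exact mem_union_left _ h0
        · refine mem_union_right _ (mem_image.2 ⟨i - 1, mem_range.2 (by omega), ?_⟩)
          congr 1
          omega
      have hdS : p (n + 2) ∈ S ∪ (range k).image fun i => p (i + 1) := mem_union_left _ hd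
      have e1 : n + 2 - k = (n - k) + 2 := by omega
      have e2 : n + 2 - (k + 1) = (n - k) + 1 := by omega
      rw [e1] at hst₁
      have hTk : Tie m π s μ₁ (p k) (p (n + 2)) ((n - k) + 2) := by
        have := hend k le_rfl
        rwa [e1] at this
      obtain ⟨μ₂, hst₂, hp₂, hv₂, ht₂⟩ := hst₁.extend h hwS (hinS k le_rfl) hdS
        (hsd k (by omega)) hTk
      have hset : insert (p (k + 1)) (S ∪ (range k).image fun i => p (i + 1)) =
          S ∪ (range (k + 1)).image fun i => p (i + 1) := by
        rw [range_add_one, image_insert, union_insert]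
      have hedg : insert (dedge s (p (k + 1)) (p k))
          (E ∪ (range k).image fun i => dedge s (p i) (p (i + 1))) =
          E ∪ (range (k + 1)).image fun i => dedge s (p i) (p (i + 1)) := by
        rw [range_add_one, image_insert, union_insert]
        have hds : dedge s (p (k + 1)) (p k) = dedge s (p k) (p (k + 1)) := by
          unfold dedge
          rw [hsd k (by omega)]
          cases s (p k) <;> simp
        rw [hds]
      rw [hset, hedg] at hst₂
      have htri₂ : ∀ i, i ≤ k → Tri m π s μ₂ (p i) (p (k + 1)) (p (n + 2)) (k + 1 - i)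
          ((n - k) + 1) := by
        intro i hi
        have h3 := htri i hi
        rw [e1] at h3
        have h4 := ht₂ (p i) (k - i) (hinS i hi) h3
        have h5 : k - i + 1 = k + 1 - i := by omega
        rwa [h5] at h4
      rw [e2]
      refine ⟨μ₂, hst₂, ?_, ?_, ?_, ?_⟩
      · intro x y d hx hy ht
        exact hp₂ x y d (mem_union_left _ hx) (mem_union_left _ hy) (hp₁ x y d hx hy ht)
      · intro i hi
        rcases Nat.lt_or_ge i (k + 1) with h3 | h3
        · exact htri₂ i (by omega)
        · have h4 : i = k + 1 := by omega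
          rw [h4, Nat.sub_self]
          exact Tie.tri h hv₂
      · intro i j hij hj
        rcases Nat.lt_or_ge j (k + 1) with h3 | h3
        · exact hp₂ _ _ _ (hinS i (by omega)) (hinS j (by omega)) (htie i j hij (by omega))
        · have h4 : j = k + 1 := by omega
          rw [h4]
          rcases Nat.lt_or_ge i (k + 1) with h5 | h5
          · exact Tri.tie h (htri₂ i (by omega))
          · have h6 : i = k + 1 := by omega
            rw [h6, Nat.sub_self]
            exact Tie.refl h hst₂.vertex _
      · intro i hi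
        rcases Nat.lt_or_ge i (k + 1) with h3 | h3
        · exact hp₂ _ _ _ (hinS i (by omega)) hdS (hend i (by omega))
        · have h4 : i = k + 1 := by omega
          rw [h4, e2]
          exact hv₂
  obtain ⟨μ₁, hst₁, hp₁, -, htie, hend⟩ := key (n + 1) le_rfl
  have e1 : n + 2 - (n + 1) = 1 := by omega
  rw [e1] at hst₁
  have hlast : p (n + 1) ∈ S ∪ (range (n + 1)).image fun i => p (i + 1) :=
    mem_union_right _ (mem_image.2 ⟨n, mem_range.2 (by omega), rfl⟩)
  have hdS : p (n + 2) ∈ S ∪ (range (n + 1)).image fun i => p (i + 1) := mem_union_left _ hd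
  have hT1 : Tie m π s μ₁ (p (n + 1)) (p (n + 2)) 1 := by
    have := hend (n + 1) le_rfl
    rwa [e1] at this
  have hnot : dedge s (p (n + 1)) (p (n + 2)) ∉
      E ∪ (range (n + 1)).image fun i => dedge s (p i) (p (i + 1)) := by
    intro hmem
    rcases mem_union.1 hmem with hmem | hmem
    · have h3 := hst.inS _ hmem
      unfold dedge at h3
      split_ifs at h3
      · exact hnew (n + 1) (by omega) (by omega) h3.1
      · exact hnew (n + 1) (by omega) (by omega) h3.2
    · obtain ⟨i, hi, hi2⟩ := mem_image.1 hmem
      rw [mem_range] at hi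
      have h3 : p (n + 2) = p i ∨ p (n + 2) = p (i + 1) := by
        unfold dedge at hi2
        split_ifs at hi2
        · simp only [Prod.mk.injEq] at hi2
          exact Or.inr hi2.2.symm
        · simp only [Prod.mk.injEq] at hi2
          exact Or.inl hi2.1.symm
        · simp only [Prod.mk.injEq] at hi2
          exact Or.inl hi2.2.symm
        · simp only [Prod.mk.injEq] at hi2
          exact Or.inr hi2.1.symm
      rcases h3 with h3 | h3
      · rcases Nat.eq_zero_or_pos i with h4 | h4
        · rw [h4] at h3
          exact hne h3.symm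
        · exact hnew i h4 (by omega) (h3 ▸ hd)
      · exact hnew (i + 1) (by omega) (by omega) (h3 ▸ hd)
  have hfin := hst₁.close h hlast hdS hT1 hnot
  have hedg : insert (dedge s (p (n + 1)) (p (n + 2)))
      (E ∪ (range (n + 1)).image fun i => dedge s (p i) (p (i + 1))) =
      E ∪ (range (n + 2)).image fun i => dedge s (p i) (p (i + 1)) := by
    rw [range_add_one (n := n + 1), image_insert, union_insert]
  rw [hedg] at hfin
  refine ⟨μ₁, hfin, hp₁, ?_⟩
  intro i j hij hj
  rcases Nat.lt_or_ge j (n + 2) with h3 | h3
  · exact htie i j hij (by omega)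
  · have h4 : j = n + 2 := by omega
    rw [h4]
    rcases Nat.lt_or_ge i (n + 2) with h5 | h5
    · exact hend i (by omega)
    · have h6 : i = n + 2 := by omega
      rw [h6, Nat.sub_self]
      exact Tie.refl h hfin.vertex _

end Vale.Agent.P050.Cart
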