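import Vale.Agent.P050.Lev.Amalgam

/-!
Entropy of functions on a finite probability space.
-/

set_option linter.unusedSectionVars false

namespace Vale.Agent.P050.Cart

open Finset

section ent

variable {Ω α β γ : Type} [Fintype Ω] [Fintype α] [Fintype β] [Fintype γ]

open Classical in
/-- the law of `f` -/
noncomputable def mar (P : Ω → ℝ) (f : Ω → α) (a : α) : ℝ := ∑ ω, if f ω = a then P ω else 0

/-- the entropy of `f` -/
noncomputable def ent (P : Ω → ℝ) (f : Ω → α) : ℝ := - ∑ a, mar P f a * Real.log (mar P f a)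

omit [Fintype α] in
theorem mar_nonneg {P : Ω → ℝ} (hP : ∀ ω, 0 ≤ P ω) (f : Ω → α) (a : α) : 0 ≤ mar P f a := by
  unfold mar
  refine Finset.sum_nonneg fun ω _ => ?_
  split_ifs
  · exact hP ω
  · exact le_rfl

theorem sum_mar (P : Ω → ℝ) (f : Ω → α) (F : α → ℝ) :
    ∑ a, mar P f a * F a = ∑ ω, P ω * F (f ω) := by
  classical
  unfold mar
  simp_rw [Finset.sum_mul]
  rw [Finset.sum_comm]
  refine Finset.sum_congr rfl fun ω _ => ?_
  rw [Finset.sum_eq_single (f ω)]
  · rw [if_pos rfl]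
  · intro b _ hb
    rw [if_neg (fun h => hb h.symm), zero_mul]
  · intro h
    exact absurd (mem_univ _) h

omit [Fintype α] in
theorem mar_ne_zero {P : Ω → ℝ} (hP : ∀ ω, 0 ≤ P ω) (f : Ω → α) {ω : Ω} (h : P ω ≠ 0) :
    mar P f (f ω) ≠ 0 := by
  classical
  unfold mar
  intro h0
  have := (Finset.sum_eq_zero_iff_of_nonneg (fun ω' _ => by
    split_ifs
    · exact hP ω'
    · exact le_rfl)).1 h0 ω (mem_univ ω)
  rw [if_pos rfl] at this
  exact h this

theorem ent_eq (P : Ω → ℝ) (f : Ω → α) : ent P f = - ∑ ω, P ω * Real.log (mar P f (f ω)) := by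
  unfold ent
  rw [sum_mar P f fun a => Real.log (mar P f a)]

omit [Fintype α] [Fintype β] in
theorem mar_inj (P : Ω → ℝ) (f : Ω → α) {e : α → β} (he : Function.Injective e) (a : α) :
    mar P (fun ω => e (f ω)) (e a) = mar P f a := by
  classical
  unfold mar
  refine Finset.sum_congr rfl fun ω _ => ?_
  simp only [he.eq_iff]

theorem ent_inj (P : Ω → ℝ) (f : Ω → α) {e : α → β} (he : Function.Injective e) :
    ent P (fun ω => e (f ω)) = ent P f := by
  rw [ent_eq, ent_eq]
  simp_rw [mar_inj P f he]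

/-- the marginal of a law of a pair -/
theorem mar_fst (P : Ω → ℝ) (f : Ω → α) (g : Ω → β) (a : α) :
    ∑ b, mar P (fun ω => (f ω, g ω)) (a, b) = mar P f a := by
  classical
  unfold mar
  rw [Finset.sum_comm]
  refine Finset.sum_congr rfl fun ω _ => ?_
  rw [Finset.sum_eq_single (g ω)]
  · simp
  · intro b _ hb
    rw [if_neg]
    intro h
    exact hb (Prod.ext_iff.1 h).2.symm
  · intro h
    exact absurd (mem_univ _) h

theorem mar_snd (P : Ω → ℝ) (f : Ω → α) (g : Ω → β) (b : β) :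
    ∑ a, mar P (fun ω => (f ω, g ω)) (a, b) = mar P g b := by
  classical
  unfold mar
  rw [Finset.sum_comm]
  refine Finset.sum_congr rfl fun ω _ => ?_
  rw [Finset.sum_eq_single (f ω)]
  · simp
  · intro b _ hb
    rw [if_neg]
    intro h
    exact hb (Prod.ext_iff.1 h).1.symm
  · intro h
    exact absurd (mem_univ _) h

theorem mar_total (P : Ω → ℝ) (f : Ω → α) : ∑ a, mar P f a = ∑ ω, P ω := by
  have := sum_mar P f fun _ => 1
  simpa using this

/-- submodularity of entropy -/
theorem ent_submod {P : Ω → ℝ} (hP : ∀ ω, 0 ≤ P ω) (f : Ω → α) (g : Ω → β) (h : Ω → γ) :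
    ent P (fun ω => (f ω, g ω, h ω)) + ent P h ≤
      ent P (fun ω => (f ω, h ω)) + ent P (fun ω => (g ω, h ω)) := by
  classical
  set T := mar P (fun ω => (f ω, g ω, h ω)) with hT
  set F := mar P (fun ω => (f ω, h ω)) with hF
  set G := mar P (fun ω => (g ω, h ω)) with hG
  set H := mar P h with hH
  have hFs : ∀ c, ∑ a, F (a, c) = H c := fun c => mar_snd P f h c
  have hGs : ∀ c, ∑ a, G (a, c) = H c := fun c => mar_snd P g h c
  have hF0 : ∀ x, 0 ≤ F x := mar_nonneg hP _
  have hG0 : ∀ x, 0 ≤ G x := mar_nonneg hP _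
  have hH0 : ∀ x, 0 ≤ H x := mar_nonneg hP _
  have hTG : ∀ b c, ∑ a, T (a, b, c) = G (b, c) := fun b c => mar_snd P f (fun ω => (g ω, h ω)) (b, c)
  have hTF : ∀ a c, ∑ b, T (a, b, c) = F (a, c) := by
    intro a c
    have h1 := mar_fst P (fun ω => (f ω, h ω)) g (a, c)
    rw [← hF] at h1
    rw [← h1]
    refine Finset.sum_congr rfl fun b _ => ?_
    exact (mar_inj P (fun ω => (f ω, g ω, h ω)) (e := fun x : α × β × γ => ((x.1, x.2.2), x.2.1))
      (fun x y hxy => by
        simp only [Prod.mk.injEq] at hxy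
        exact Prod.ext hxy.1.1 (Prod.ext hxy.2 hxy.1.2)) (a, b, c)).symm
  have key := Lev.gibbs_aux T (fun x : α × β × γ => F (x.1, x.2.2) * G (x.2.1, x.2.2) / H x.2.2)
    (mar_nonneg hP _) (fun x => div_nonneg (mul_nonneg (hF0 _) (hG0 _)) (hH0 _)) ?_ ?_
  · have e1 : ∑ x, T x * (Real.log (T x) - Real.log (F (x.1, x.2.2) * G (x.2.1, x.2.2) / H x.2.2))
        = ∑ ω, P ω * (Real.log (T (f ω, g ω, h ω)) - Real.log (F (f ω, h ω) * G (g ω, h ω) /
            H (h ω))) :=
      sum_mar P (fun ω => (f ω, g ω, h ω)) fun x =>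
        (Real.log (T x) - Real.log (F (x.1, x.2.2) * G (x.2.1, x.2.2) / H x.2.2))
    rw [e1] at key
    rw [ent_eq, ent_eq, ent_eq, ent_eq]
    have e2 : ∀ ω, P ω * (Real.log (T (f ω, g ω, h ω)) - Real.log (F (f ω, h ω) * G (g ω, h ω) /
            H (h ω))) = P ω * Real.log (T (f ω, g ω, h ω)) + P ω * Real.log (H (h ω))
            - P ω * Real.log (F (f ω, h ω)) - P ω * Real.log (G (g ω, h ω)) := by
      intro ω
      by_cases h0 : P ω = 0
      · rw [h0]; ring
      have h1 : F (f ω, h ω) ≠ 0 := mar_ne_zero hP (fun ω => (f ω, h ω)) h0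
      have h2 : G (g ω, h ω) ≠ 0 := mar_ne_zero hP (fun ω => (g ω, h ω)) h0
      have h3 : H (h ω) ≠ 0 := mar_ne_zero hP h h0
      rw [Real.log_div (mul_ne_zero h1 h2) h3, Real.log_mul h1 h2]
      ring
    rw [Finset.sum_congr rfl fun ω _ => e2 ω, Finset.sum_sub_distrib, Finset.sum_sub_distrib,
      Finset.sum_add_distrib] at key
    linarith
  · rw [Fintype.sum_prod_type, Fintype.sum_prod_type]
    simp only
    have h1 : ∑ a, ∑ x : β × γ, F (a, x.2) * G (x.1, x.2) / H x.2
        = ∑ c, (∑ a, F (a, c)) * (∑ b, G (b, c)) / H c := by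
      rw [Finset.sum_comm, Fintype.sum_prod_type, Finset.sum_comm]
      refine Finset.sum_congr rfl fun c _ => ?_
      simp only
      rw [Finset.sum_mul_sum, Finset.sum_div, Finset.sum_comm]
      refine Finset.sum_congr rfl fun a _ => ?_
      rw [Finset.sum_div]
    rw [h1]
    simp_rw [hFs, hGs]
    have h2 : ∑ a, ∑ x : β × γ, T (a, x) = ∑ c, H c := by
      rw [Finset.sum_comm, Fintype.sum_prod_type, Finset.sum_comm]
      refine Finset.sum_congr rfl fun c _ => ?_
      rw [← hGs]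
      exact Finset.sum_congr rfl fun b _ => hTG b c
    rw [h2]
    refine Finset.sum_le_sum fun c _ => ?_
    by_cases hc : H c = 0
    · rw [hc]; simp
    · rw [mul_div_assoc, div_self hc, mul_one]
  · rintro ⟨a, b, c⟩ hx
    simp only at hx
    have hzF : F (a, c) = 0 → T (a, b, c) = 0 := by
      intro h0
      rw [← hTF] at h0
      exact (Finset.sum_eq_zero_iff_of_nonneg fun b _ => mar_nonneg hP _ _).1 h0 b (mem_univ b)
    have hzG : G (b, c) = 0 → T (a, b, c) = 0 := by
      intro h0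
      rw [← hTG] at h0
      exact (Finset.sum_eq_zero_iff_of_nonneg fun b _ => mar_nonneg hP _ _).1 h0 a (mem_univ a)
    rcases div_eq_zero_iff.1 hx with h0 | h0
    · rcases mul_eq_zero.1 h0 with h0 | h0
      · exact hzF h0
      · exact hzG h0
    · apply hzF
      rw [← hFs] at h0
      exact (Finset.sum_eq_zero_iff_of_nonneg fun b _ => hF0 _).1 h0 a (mem_univ a)

/-- equality under conditional independence -/
theorem ent_markov {P : Ω → ℝ} (hP : ∀ ω, 0 ≤ P ω) (f : Ω → α) (g : Ω → β) (h : Ω → γ)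
    (hM : ∀ a b c, mar P (fun ω => (f ω, g ω, h ω)) (a, b, c) * mar P h c =
      mar P (fun ω => (f ω, h ω)) (a, c) * mar P (fun ω => (g ω, h ω)) (b, c)) :
    ent P (fun ω => (f ω, g ω, h ω)) + ent P h =
      ent P (fun ω => (f ω, h ω)) + ent P (fun ω => (g ω, h ω)) := by
  rw [ent_eq, ent_eq, ent_eq, ent_eq]
  have e2 : ∀ ω, P ω * Real.log (mar P (fun ω => (f ω, g ω, h ω)) (f ω, g ω, h ω))
      + P ω * Real.log (mar P h (h ω)) = P ω * Real.log (mar P (fun ω => (f ω, h ω)) (f ω, h ω))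
      + P ω * Real.log (mar P (fun ω => (g ω, h ω)) (g ω, h ω)) := by
    intro ω
    by_cases h0 : P ω = 0
    · rw [h0]; ring
    rw [← mul_add, ← mul_add, ← Real.log_mul, ← Real.log_mul, hM]
    · exact mar_ne_zero hP (fun ω => (f ω, h ω)) h0
    · exact mar_ne_zero hP (fun ω => (g ω, h ω)) h0
    · exact mar_ne_zero hP (fun ω => (f ω, g ω, h ω)) h0
    · exact mar_ne_zero hP h h0
  have := Finset.sum_congr rfl fun ω (_ : ω ∈ univ) => e2 ω
  rw [Finset.sum_add_distrib, Finset.sum_add_distrib] at this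
  linarith

/-- monotonicity of the mutual information -/
theorem ent_pair_le {P : Ω → ℝ} (hP : ∀ ω, 0 ≤ P ω) (f : Ω → α) (g : Ω → β) (h : Ω → γ) :
    ent P (fun ω => (f ω, g ω, h ω)) + ent P h ≤
      ent P (fun ω => (f ω, h ω)) + ent P (fun ω => (g ω, h ω)) := ent_submod hP f g h

/-- the entropy only depends on the law -/
theorem ent_law {Ω' : Type} [Fintype Ω'] {P : Ω → ℝ} {P' : Ω' → ℝ} {f : Ω → α} {f' : Ω' → α}
    (h : ∀ a, mar P f a = mar P' f' a) : ent P f = ent P' f' := by
  unfold ent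
  simp_rw [h]

theorem mar_id (P : Ω → ℝ) (a : Ω) : mar P (fun ω => ω) a = P a := by
  classical
  unfold mar
  rw [Finset.sum_ite_eq' univ a P]
  simp

/-- the law of a function of a function -/
theorem mar_mar (P : Ω → ℝ) (f : Ω → α) (g : α → β) (b : β) :
    mar (mar P f) g b = mar P (fun ω => g (f ω)) b := by
  classical
  have := sum_mar P f fun a => if g a = b then 1 else 0
  unfold mar at this ⊢
  simp only [mul_ite, mul_one, mul_zero] at this
  exact this

theorem ent_mar (P : Ω → ℝ) (f : Ω → α) (g : α → β) :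
    ent (mar P f) g = ent P (fun ω => g (f ω)) := by
  unfold ent
  simp_rw [mar_mar]

end ent

end Vale.Agent.P050.Cart
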