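import Vale.Agent.P050.Cart.FactorDefs

/-!
Complete bipartite graphs with a part of size at most two are grown graphs.
-/

namespace Vale.Agent.P050.Cart

open Finset

/-- the vertices grown so far -/
def twoSet (t k : ℕ) : Finset (Fin 2 ⊕ Fin t) :=
  univ.filter fun v => ∀ j, v = Sum.inr j → j.1 < k

theorem mem_twoSet {t k : ℕ} {v : Fin 2 ⊕ Fin t} :
    v ∈ twoSet t k ↔ ∀ j, v = Sum.inr j → j.1 < k := by
  simp [twoSet]

theorem grown_start (t : ℕ) :
    ∃ T, Grown (completeBipartiteGraph (Fin 2) (Fin (t + 1))) (twoSet (t + 1) 1) T ∧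
      T (Sum.inl 0) (Sum.inl 1) 2 := by
  have h0 := Grown.empty (H := completeBipartiteGraph (Fin 2) (Fin (t + 1)))
  have h1 := h0.isolated (Sum.inl 0) (by simp) (by simp)
  have h2 := h1.pendant (Sum.inr 0) (Sum.inl 0) (by simp) (by simp) (by simp)
  have h3 := h2.pendant (Sum.inl 1) (Sum.inr 0) (by simp) (by simp) (by simp)
  have hS : insert (Sum.inl 1) (insert (Sum.inr 0) (insert (Sum.inl 0) ∅)) =
      twoSet (t + 1) 1 := by
    ext v
    rw [mem_twoSet]
    rcases v with v | v
    · fin_cases v <;> simp
    · simp only [Finset.mem_insert, Finset.notMem_empty, or_false, Sum.inr.injEq, forall_eq',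
        reduceCtorEq, false_or]
      constructor
      · rintro rfl
        simp
      · intro h
        exact Fin.ext (by simpa using h)
  rw [hS] at h3
  refine ⟨_, h3, ?_⟩
  right; right
  refine ⟨1, rfl, Or.inr ⟨rfl, ?_⟩⟩
  right; right
  exact ⟨0, rfl, Or.inl ⟨rfl, Or.inr ⟨rfl, rfl, rfl⟩⟩⟩

theorem grown_two (t : ℕ) : ∀ k, k ≤ t →
    ∃ T, Grown (completeBipartiteGraph (Fin 2) (Fin (t + 1))) (twoSet (t + 1) (k + 1)) T ∧
      T (Sum.inl 0) (Sum.inl 1) 2 := by
  intro k
  induction k with
  | zero => exact fun _ => grown_start t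
  | succ k ih =>
    intro hk
    obtain ⟨T, hT, h01⟩ := ih (by omega)
    let j : Fin (t + 1) := ⟨k + 1, by omega⟩
    let p : ℕ → Fin 2 ⊕ Fin (t + 1) := fun i => if i = 0 then Sum.inl 0 else
      if i = 1 then Sum.inr j else Sum.inl 1
    have h := hT.ear p 2 le_rfl (by simpa [p] using h01) (by simp [p]) (by
      intro i h1 h2
      have : i = 1 := by omega
      subst this
      simp [p, mem_twoSet, j]) (by
      intro i j h1 h2 h3
      omega) (by
      intro i h1 h2 x _
      have : i = 1 := by omega
      subst this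
      rcases x with x | x
      · fin_cases x <;> simp [p]
      · simp [p])
    have hS : twoSet (t + 1) (k + 1) ∪ (range (2 - 1)).image (fun i => p (i + 1)) =
        twoSet (t + 1) (k + 1 + 1) := by
      ext v
      simp only [mem_union, mem_image, mem_range, mem_twoSet]
      rcases v with v | v
      · simp
      · simp only [Sum.inr.injEq, forall_eq']
        constructor
        · rintro (h | ⟨i, hi, h⟩)
          · omega
          · have : i = 0 := by omega
            subst this
            simp [p] at h
            rw [← h]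
            simp [j]
        · intro h
          by_cases hv : v.1 < k + 1
          · exact Or.inl hv
          · refine Or.inr ⟨0, by norm_num, ?_⟩
            simp only [p, zero_add, one_ne_zero, if_false, if_true, Sum.inr.injEq]
            exact Fin.ext (by simp [j]; omega)
    rw [hS] at h
    exact ⟨_, h, Or.inl h01⟩

theorem grown_two' (t : ℕ) : ∃ T, Grown (completeBipartiteGraph (Fin 2) (Fin t)) univ T := by
  cases t with
  | zero =>
    have h0 := Grown.empty (H := completeBipartiteGraph (Fin 2) (Fin 0))
    have h1 := h0.isolated (Sum.inl 0) (by simp) (by simp)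
    have h2 := h1.isolated (Sum.inl 1) (by simp) (by simp)
    have : insert (Sum.inl 1) (insert (Sum.inl 0) ∅) = (univ : Finset (Fin 2 ⊕ Fin 0)) := by
      ext v
      rcases v with v | v
      · fin_cases v <;> simp
      · exact v.elim0
    rw [this] at h2
    exact ⟨_, h2⟩
  | succ t =>
    obtain ⟨T, hT, -⟩ := grown_two t t le_rfl
    have : twoSet (t + 1) (t + 1) = univ := by
      ext v
      simp only [mem_twoSet, mem_univ, iff_true]
      intro j _
      exact j.2
    rw [this] at hT
    exact ⟨T, hT⟩

/-- `K_{2,t}` is a factor. -/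
theorem factor_two (t : ℕ) :
    Factor (completeBipartiteGraph (Fin 2) (Fin t)) fun v => v.isRight := by
  obtain ⟨T, hT⟩ := grown_two' t
  refine Factor.grown ?_ hT
  rintro (u | u) (v | v) h <;> simp at h ⊢

theorem grown_three_zero :
    ∃ T, Grown (completeBipartiteGraph (Fin 3) (Fin 0)) univ T := by
  have h0 := Grown.empty (H := completeBipartiteGraph (Fin 3) (Fin 0))
  have h1 := h0.isolated (Sum.inl 0) (by simp) (by simp)
  have h2 := h1.isolated (Sum.inl 1) (by simp) (by simp)
  have h3 := h2.isolated (Sum.inl 2) (by simp) (by simp)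
  have : insert (Sum.inl 2) (insert (Sum.inl 1) (insert (Sum.inl 0) ∅)) =
      (univ : Finset (Fin 3 ⊕ Fin 0)) := by
    ext v
    rcases v with v | v
    · fin_cases v <;> simp
    · exact v.elim0
  rw [this] at h3
  exact ⟨_, h3⟩

end Vale.Agent.P050.Cart
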