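import Vale.Agent.P050.Cart.PrismGlue

/-!
Exchanging the two sides of a graph with good prisms.
-/

set_option linter.unusedSectionVars false

namespace Vale.Agent.P050.Cart

open Finset

section flip

variable {V : Type} [Fintype V] [DecidableEq V]

/-- exchange of the sides -/
theorem Prism.flip {E : Finset (V × V)} {s : V → Bool} (hP : Prism E s) :
    Prism (E.image Prod.swap) (fun v => !s v) := by
  have hc : (E.image Prod.swap).card = E.card :=
    Finset.card_image_of_injective _ Prod.swap_injective
  refine ⟨?_, ?_⟩
  · intro e he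
    rw [Finset.mem_image] at he
    obtain ⟨e', he', rfl⟩ := he
    have := hP.1 e' he'
    simp [this.1, this.2]
  · intro U _ m π m0 m1 pi0 row col
    obtain ⟨L, hL⟩ := hP.2 U (fun b => m (!b)) (fun x y => π y x) (fun b x => m0 _ _)
      (fun b => m1 _) (fun x y => pi0 _ _) (fun x => col x) (fun y => row y)
    have hi : inf (fun b => m (!b)) (fun x y => π y x) = inf m π := by
      unfold inf
      rw [Finset.sum_comm]
      refine Finset.sum_congr rfl fun x _ => Finset.sum_congr rfl fun y _ => ?_
      simp only [Bool.not_false, Bool.not_true]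
      ring
    have h2 : tc2 m (fun v => !s v) L = tc2 (fun b => m (!b)) s L := rfl
    have h1 : tc m (fun v => !s v) (fstLaw L) = tc (fun b => m (!b)) s (fstLaw L) := rfl
    have h1' : tc m (fun v => !(!s v)) (sndLaw L) =
      tc (fun b => m (!b)) (fun v => !s v) (sndLaw L) := rfl
    have b00 := hL.bound
    have b10 := hL.bound_fst
    have b01 := hL.bound_snd
    have b11 := hL.bound_both
    refine ⟨L, hL.nonneg, hL.total, ?_, ?_, ?_, ?_, ?_, ?_, ?_, ?_⟩
    · intro v hv F
      have hv' : s v = true := by simpa using hv
      rw [Finset.sum_comm (f := fun x y => π x y * F x y)]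
      exact hL.rung_true v hv' fun x y => F y x
    · intro v hv F
      have hv' : s v = false := by simpa using hv
      rw [Finset.sum_comm (f := fun x y => π x y * F x y)]
      exact hL.rung_false v hv' fun x y => F y x
    · intro e he F
      rw [Finset.mem_image] at he
      obtain ⟨e', he', rfl⟩ := he
      rw [Finset.sum_comm (f := fun x y => π x y * F x y)]
      exact hL.edge_fst e' he' fun x y => F y x
    · intro e he F
      rw [Finset.mem_image] at he
      obtain ⟨e', he', rfl⟩ := he
      rw [Finset.sum_comm (f := fun x y => π x y * F x y)]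
      exact hL.edge_snd e' he' fun x y => F y x
    · rw [h2, hc, ← hi]; exact b00
    · rw [h2, h1, hc, ← hi]; exact b10
    · rw [h2, h1', hc, ← hi]; exact b01
    · rw [h2, h1, h1', ← hi]; exact b11

/-- exchange of the sides, for graphs -/
theorem Prism.flip_graph {H : SimpleGraph V} {s : V → Bool}
    (hP : Prism (Lev.sideEdges H s) s) :
    Prism (Lev.sideEdges H fun v => !s v) (fun v => !s v) := by
  have e : (Lev.sideEdges H fun v => !s v) = (Lev.sideEdges H s).image Prod.swap := by
    ext ⟨u, v⟩
    simp only [Lev.sideEdges, Finset.mem_filter, Finset.mem_univ, true_and, Finset.mem_image,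
      Bool.not_eq_false', Bool.not_eq_true']
    constructor
    · rintro ⟨h1, h2, h3⟩
      exact ⟨(v, u), ⟨h1.symm, h3, h2⟩, rfl⟩
    · rintro ⟨⟨a, b⟩, ⟨h1, h2, h3⟩, h4⟩
      simp only [Prod.swap_prod_mk, Prod.mk.injEq] at h4
      obtain ⟨rfl, rfl⟩ := h4
      exact ⟨h1.symm, h3, h2⟩
  rw [e]
  exact hP.flip

end flip

end Vale.Agent.P050.Cart
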