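import Vale.Agent.P050.Cart.Grown

/-!
From a law of rungs to a pair of random maps.
-/

set_option linter.unusedSectionVars false

namespace Vale.Agent.P050.Cart

open Finset

variable {V U : Type} [Fintype V] [DecidableEq V] [Fintype U]

/-- the joint law of the two copies -/
def rows (μ : (V → U × U) → ℝ) (f g : V → U) : ℝ := μ fun v => (f v, g v)

theorem sum_rows (μ : (V → U × U) → ℝ) (F : (V → U) → (V → U) → ℝ) :
    ∑ f, ∑ g, rows μ f g * F f g = ∑ z, μ z * F (fun v => (z v).1) (fun v => (z v).2) := by
  rw [← Fintype.sum_prod_type' (f := fun f g => rows μ f g * F f g)]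
  exact Fintype.sum_equiv
    { toFun := fun p : (V → U) × (V → U) => fun v => (p.1 v, p.2 v)
      invFun := fun z => (fun v => (z v).1, fun v => (z v).2)
      left_inv := fun p => rfl
      right_inv := fun z => rfl } _ _ fun p => rfl

theorem rows_fst (μ : (V → U × U) → ℝ) : fstLaw (rows μ) = mar μ fun z v => (z v).1 := by
  classical
  funext f
  unfold fstLaw
  have h1 := sum_rows μ fun f' _ => if f' = f then 1 else 0
  have h2 : ∑ f', ∑ g, rows μ f' g * (if f' = f then (1 : ℝ) else 0) = ∑ g, rows μ f g := by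
    rw [Finset.sum_eq_single f]
    · simp
    · intro f' _ hf
      simp [hf]
    · intro hn
      exact absurd (mem_univ _) hn
  rw [h2] at h1
  rw [h1]
  unfold mar
  refine Finset.sum_congr rfl fun z _ => ?_
  by_cases c : (fun v => (z v).1) = f
  · rw [if_pos c, if_pos c, mul_one]
  · rw [if_neg c, if_neg c, mul_zero]

theorem rows_snd (μ : (V → U × U) → ℝ) : sndLaw (rows μ) = mar μ fun z v => (z v).2 := by
  classical
  funext g
  unfold sndLaw
  have h1 := sum_rows μ fun _ g' => if g' = g then 1 else 0
  have h2 : ∑ f', ∑ g', rows μ f' g' * (if g' = g then (1 : ℝ) else 0) = ∑ f, rows μ f g := by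
    refine Finset.sum_congr rfl fun f' _ => ?_
    rw [Finset.sum_eq_single g]
    · simp
    · intro g' _ hg
      simp [hg]
    · intro hn
      exact absurd (mem_univ _) hn
  rw [h2] at h1
  rw [h1]
  unfold mar
  refine Finset.sum_congr rfl fun z _ => ?_
  by_cases c : (fun v => (z v).2) = g
  · rw [if_pos c, if_pos c, mul_one]
  · rw [if_neg c, if_neg c, mul_zero]

theorem ent_id' {Ω : Type} [Fintype Ω] (P : Ω → ℝ) :
    ∑ ω, P ω * Real.log (P ω) = - ent P (fun ω => ω) := by
  rw [ent_eq, neg_neg]
  simp_rw [mar_id]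

variable {m : Bool → U → ℝ} {π : U → U → ℝ} (h : Base m π) {s : V → Bool}
  {E : Finset (V × V)} {S : Finset V} {μ : (V → U × U) → ℝ}

include h

theorem sum_log_fst (hv : ∀ v, mar μ (fun z => z v) = rho π (s v)) :
    ∑ z, μ z * ∑ v, Real.log (m (s v) (z v).1) = - ∑ v, hm m (s v) := by
  simp_rw [Finset.mul_sum]
  rw [Finset.sum_comm, ← Finset.sum_neg_distrib]
  refine Finset.sum_congr rfl fun v _ => ?_
  have e := sum_mar μ (fun z => (z v).1) (fun x => Real.log (m (s v) x))
  have e2 : mar μ (fun z => (z v).1) = m (s v) := by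
    rw [← mar_rho_fst h (s v), ← hv v]
    funext x
    rw [mar_mar]
  rw [← e, e2]
  unfold hm ent
  rw [neg_neg]
  simp_rw [mar_id]

theorem sum_log_snd (hv : ∀ v, mar μ (fun z => z v) = rho π (s v)) :
    ∑ z, μ z * ∑ v, Real.log (m (!s v) (z v).2) = - ∑ v, hm m (!s v) := by
  simp_rw [Finset.mul_sum]
  rw [Finset.sum_comm, ← Finset.sum_neg_distrib]
  refine Finset.sum_congr rfl fun v _ => ?_
  have e := sum_mar μ (fun z => (z v).2) (fun x => Real.log (m (!s v) x))
  have e2 : mar μ (fun z => (z v).2) = m (!s v) := by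
    rw [← mar_rho_snd h (s v), ← hv v]
    funext x
    rw [mar_mar]
  rw [← e, e2]
  unfold hm ent
  rw [neg_neg]
  simp_rw [mar_id]

theorem inf_eq : inf m π = ii m π := by
  unfold inf ii
  have e1 : ∑ x, ∑ y, π x y * Real.log (π x y) = - hr π := by
    unfold hr
    rw [← ent_id', Fintype.sum_prod_type]
    rfl
  have e2 : ∑ x, ∑ y, π x y * Real.log (m false x) = - hm m false := by
    unfold hm
    rw [← ent_id']
    refine Finset.sum_congr rfl fun x _ => ?_
    rw [← Finset.sum_mul, h.row]
  have e3 : ∑ x, ∑ y, π x y * Real.log (m true y) = - hm m true := by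
    unfold hm
    rw [← ent_id', Finset.sum_comm]
    refine Finset.sum_congr rfl fun x _ => ?_
    rw [← Finset.sum_mul, h.col]
  simp_rw [mul_sub, Finset.sum_sub_distrib]
  rw [e1, e2, e3]
  ring

theorem St.prismLaw (hst : St m π E s S μ 0 0 0) : PrismLaw E s m π (rows μ) := by
  classical
  have hcv : ∑ v, hm m (s v) + ∑ v, hm m (!s v) =
      Fintype.card V * (hm m false + hm m true) := by
    rw [← Finset.sum_add_distrib]
    have : ∀ v, hm m (s v) + hm m (!s v) = hm m false + hm m true := by
      intro v
      cases s v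
      · rfl
      · exact add_comm _ _
    simp_rw [this]
    rw [Finset.sum_const, Finset.card_univ, nsmul_eq_mul]
  have ht2 : tc2 m s (rows μ) = Fintype.card V * (hm m false + hm m true) -
      ent μ (fun z => z) := by
    unfold tc2
    rw [sum_rows μ fun f g => (Real.log (rows μ f g) - ∑ v, Real.log (m (s v) (f v))
      - ∑ v, Real.log (m (!s v) (g v)))]
    have e : ∀ z : V → U × U, rows μ (fun v => (z v).1) (fun v => (z v).2) = μ z := fun z => rfl
    simp_rw [e, mul_sub, Finset.sum_sub_distrib]
    rw [sum_log_fst h hst.vertex, sum_log_snd h hst.vertex, ent_id']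
    linarith
  have ht1 : tc m s (fstLaw (rows μ)) = ∑ v, hm m (s v) - ent μ (fun z v => (z v).1) := by
    unfold tc
    rw [rows_fst, sum_mar μ (fun z v => (z v).1) (fun f => Real.log (mar μ (fun z v => (z v).1) f) -
      ∑ v, Real.log (m (s v) (f v)))]
    simp_rw [mul_sub, Finset.sum_sub_distrib]
    rw [sum_log_fst h hst.vertex, ent_eq]
    ring
  have ht3 : tc m (fun v => !s v) (sndLaw (rows μ)) =
      ∑ v, hm m (!s v) - ent μ (fun z v => (z v).2) := by
    unfold tc
    rw [rows_snd, sum_mar μ (fun z v => (z v).2) (fun f => Real.log (mar μ (fun z v => (z v).2) f) -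
      ∑ v, Real.log (m (!s v) (f v)))]
    simp_rw [mul_sub, Finset.sum_sub_distrib]
    rw [sum_log_snd h hst.vertex, ent_eq]
    ring
  refine
    { nonneg := fun f g => hst.nonneg _
      total := ?_
      rung_false := ?_
      rung_true := ?_
      edge_fst := ?_
      edge_snd := ?_
      bound := ?_
      bound_fst := ?_
      bound_snd := ?_
      bound_both := ?_ }
  · have := sum_rows μ fun _ _ => 1
    simp only [mul_one] at this
    rw [this, hst.total]
  · intro v hv F
    rw [sum_rows μ fun f g => F (f v) (g v)]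
    have e := sum_mar μ (fun z => z v) (fun a => F a.1 a.2)
    rw [← e, hst.vertex, hv, Fintype.sum_prod_type]
    rfl
  · intro v hv F
    rw [sum_rows μ fun f g => F (g v) (f v)]
    have e := sum_mar μ (fun z => z v) (fun a => F a.2 a.1)
    rw [← e, hst.vertex, hv, Fintype.sum_prod_type, Finset.sum_comm]
    rfl
  · intro e he F
    rw [sum_rows μ fun f _ => F (f e.1) (f e.2)]
    obtain ⟨h1, h2⟩ := hst.edge e he
    have e1 := sum_mar μ (fun z => ((z e.1).1, (z e.2).1)) (fun a => F a.1 a.2)
    have e2 : mar μ (fun z => ((z e.1).1, (z e.2).1)) =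
        mar (chP m π false 1) (fun p => (p.1.1, p.2.1)) := by
      have h3 := h2.2
      rw [h1] at h3
      rw [← h3]
      funext x
      rw [mar_mar]
    rw [← e1, e2, Fintype.sum_prod_type]
    refine Finset.sum_congr rfl fun x _ => Finset.sum_congr rfl fun y _ => ?_
    rw [st_row1 h]
    simp
  · intro e he F
    rw [sum_rows μ fun _ g => F (g e.2) (g e.1)]
    obtain ⟨h1, h2⟩ := hst.edge e he
    have e1 := sum_mar μ (fun z => ((z e.1).2, (z e.2).2)) (fun a => F a.2 a.1)
    have e2 : mar μ (fun z => ((z e.1).2, (z e.2).2)) =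
        mar (chP m π false 1) (fun p => (p.1.2, p.2.2)) := by
      have h3 := h2.2
      rw [h1] at h3
      rw [← h3]
      funext x
      rw [mar_mar]
    rw [← e1, e2, Fintype.sum_prod_type, Finset.sum_comm]
    refine Finset.sum_congr rfl fun x _ => Finset.sum_congr rfl fun y _ => ?_
    rw [st_row2 h]
    simp
  · rw [ht2, inf_eq h]
    have := hst.bound
    linarith
  · rw [ht2, ht1, inf_eq h]
    have := hst.bound_fst
    linarith
  · rw [ht2, ht3, inf_eq h]
    have := hst.bound_snd
    linarith
  · rw [ht2, ht1, ht3, inf_eq h]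
    have := hst.bound_both
    linarith

omit h in
/-- **Grown graphs have good prisms.** -/
theorem Grown.prism {V : Type} [Fintype V] [DecidableEq V] {H : SimpleGraph V} {s : V → Bool}
    (hs : ∀ u v, H.Adj u v → s u ≠ s v) {T : V → V → ℕ → Prop} (hG : Grown H univ T) :
    Prism (Lev.sideEdges H s) s := by
  classical
  refine ⟨?_, ?_⟩
  · intro e he
    unfold Lev.sideEdges at he
    rw [mem_filter] at he
    exact he.2.2
  · intro U _ m π m0 m1 pi0 row col
    obtain ⟨μ, hst, -⟩ := hG.law (m := m) (π := π)
      { m0 := m0, m1 := m1, pi0 := pi0, row := row, col := col } hs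
    have e : inEdges H s (univ : Finset V) = Lev.sideEdges H s := by
      unfold inEdges
      simp
    rw [e] at hst
    exact ⟨rows μ, hst.prismLaw { m0 := m0, m1 := m1, pi0 := pi0, row := row, col := col }⟩

end Vale.Agent.P050.Cart
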