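import Vale.Agent.P050.Lev.Final
import Vale.Agent.P050.Cart.Defs

/-!
Couplings with small total correlation give the two-sided Sidorenko inequality.
-/

namespace Vale.Agent.P050.Cart

open Finset Vale.Agent.P050.Lev

variable {V : Type} [Fintype V] [DecidableEq V]

/-- `ν` is a coupling of the vertex laws `c (side v)` with edge laws `π` and total correlation at
most `|E|` times the mutual information of `π`. -/
structure SidLaw {U : Type} [Fintype U] (E : Finset (V × V)) (side : V → Bool) (c : Bool → U → ℝ)
    (π : U → U → ℝ) (ν : (V → U) → ℝ) : Prop where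
  nonneg : ∀ z, 0 ≤ ν z
  total : ∑ z, ν z = 1
  vertex : ∀ v, ∀ f : U → ℝ, ∑ z, ν z * f (z v) = ∑ x, c (side v) x * f x
  edge : ∀ e ∈ E, ∀ f : U → U → ℝ, ∑ z, ν z * f (z e.1) (z e.2) = ∑ x, ∑ y, π x y * f x y
  bound : tc c side ν ≤ E.card * inf c π

theorem SidLaw.law_ne_zero {U : Type} [Fintype U] {E : Finset (V × V)} {side : V → Bool}
    {c : Bool → U → ℝ} {π : U → U → ℝ} {ν : (V → U) → ℝ} (h : SidLaw E side c π ν) {z : V → U}
    (hz : ν z ≠ 0) (v : V) : c (side v) (z v) ≠ 0 := by
  classical
  intro h0
  have h1 := h.vertex v (fun x => if x = z v then 1 else 0)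
  simp only [mul_ite, mul_one, mul_zero, Finset.sum_ite_eq', Finset.mem_univ, if_true] at h1
  rw [h0] at h1
  have h2 := (Finset.sum_eq_zero_iff_of_nonneg (fun z' _ => by
    split_ifs
    · exact h.nonneg _
    · exact le_rfl)).1 h1 z (mem_univ z)
  simp only [if_true] at h2
  exact hz h2

theorem SidLaw.edge_ne_zero {U : Type} [Fintype U] {E : Finset (V × V)} {side : V → Bool}
    {c : Bool → U → ℝ} {π : U → U → ℝ} {ν : (V → U) → ℝ} (h : SidLaw E side c π ν) {z : V → U}
    (hz : ν z ≠ 0) {e : V × V} (he : e ∈ E) : π (z e.1) (z e.2) ≠ 0 := by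
  classical
  intro h0
  have h1 := h.edge e he (fun x y => if x = z e.1 ∧ y = z e.2 then 1 else 0)
  have h3 : ∑ x, ∑ y, π x y * (if x = z e.1 ∧ y = z e.2 then (1 : ℝ) else 0) = 0 := by
    refine Finset.sum_eq_zero fun x _ => Finset.sum_eq_zero fun y _ => ?_
    split_ifs with h4
    · rw [h4.1, h4.2, h0, zero_mul]
    · rw [mul_zero]
  rw [h3] at h1
  have h2 := (Finset.sum_eq_zero_iff_of_nonneg (fun z' _ => by
    split_ifs
    · rw [mul_one]; exact h.nonneg _
    · rw [mul_zero])).1 h1 z (mem_univ z)
  simp only [and_self, if_true, mul_one] at h2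
  exact hz h2

theorem ksid_of_sidLaw {E : Finset (V × V)} {side : V → Bool}
    (hE : ∀ e ∈ E, side e.1 = false ∧ side e.2 = true)
    (hG : ∀ (U : Type) [Fintype U] (c : Bool → U → ℝ) (π : U → U → ℝ), (∀ b x, 0 ≤ c b x) →
      (∀ b, ∑ x, c b x = 1) → (∀ x y, 0 ≤ π x y) → (∀ x, ∑ y, π x y = c false x) →
      (∀ y, ∑ x, π x y = c true y) → ∃ ν : (V → U) → ℝ, SidLaw E side c π ν) : KSid E side := by
  classical
  refine ⟨hE, ?_⟩
  intro U _ m W hm hm1 hW
  set p : ℝ := ∑ x, ∑ y, m false x * m true y * W x y with hp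
  set B : (V → U) → ℝ := fun z => ∏ e ∈ E, W (z e.1) (z e.2) with hBdef
  have hB0 : ∀ z, 0 ≤ B z := fun z => Finset.prod_nonneg fun e _ => hW _ _
  have hterm0 : ∀ x y, 0 ≤ m false x * m true y * W x y := fun x y =>
    mul_nonneg (mul_nonneg (hm _ _) (hm _ _)) (hW _ _)
  have hp0 : 0 ≤ p := Finset.sum_nonneg fun x _ => Finset.sum_nonneg fun y _ => hterm0 x y
  have hrhs0 : 0 ≤ ∑ z : V → U, (∏ v, m (side v) (z v)) * B z :=
    Finset.sum_nonneg fun z _ => mul_nonneg (Finset.prod_nonneg fun v _ => hm _ _) (hB0 z)
  rcases hp0.eq_or_lt with hp0' | hppos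
  · by_cases hc : E.card = 0
    · have hE0 : E = ∅ := Finset.card_eq_zero.1 hc
      rw [hc, pow_zero]
      have : ∑ z : V → U, (∏ v, m (side v) (z v)) * B z = 1 := by
        simp only [hBdef, hE0, Finset.prod_empty, mul_one]
        have h3 := (Finset.prod_univ_sum (fun _ : V => (univ : Finset U))
          (fun v x => m (side v) x)).symm
        rw [Fintype.piFinset_univ] at h3
        rw [h3]
        simp [hm1]
      exact this.ge
    · rw [← hp0', zero_pow hc]
      exact hrhs0
  -- the joint law
  set π : U → U → ℝ := fun x y => m false x * m true y * W x y / p with hπdef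
  have hπ : ∀ x y, 0 ≤ π x y := fun x y => div_nonneg (hterm0 x y) hp0
  set a : U → ℝ := fun x => ∑ y, π x y with ha_def
  set b : U → ℝ := fun y => ∑ x, π x y with hb_def
  have ha : ∀ x, 0 ≤ a x := fun x => Finset.sum_nonneg fun y _ => hπ x y
  have hb : ∀ y, 0 ≤ b y := fun y => Finset.sum_nonneg fun x _ => hπ x y
  have hπ1 : ∑ x, ∑ y, π x y = 1 := by
    simp only [hπdef]
    simp_rw [← Finset.sum_div]
    exact div_self hppos.ne'
  have ha1 : ∑ x, a x = 1 := hπ1
  have hb1 : ∑ y, b y = 1 := by
    simp only [hb_def]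
    rw [Finset.sum_comm]
    exact hπ1
  have h1 : ∀ x, ∑ y, π x y = a x := fun x => rfl
  have h2 : ∀ y, ∑ x, π x y = b y := fun y => rfl
  set c : Bool → U → ℝ := fun s => if s = false then a else b with hc
  have hc0 : ∀ s x, 0 ≤ c s x := by
    intro s x
    cases s
    · exact ha x
    · exact hb x
  have hc1 : ∀ s, ∑ x, c s x = 1 := by
    intro s
    cases s
    · exact ha1
    · exact hb1
  obtain ⟨ν, hν⟩ := hG U c π hc0 hc1 hπ (fun x => rfl) (fun y => rfl)
  have hedge := hν.edge
  -- the vertices of positive degree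
  set N : Finset V := E.image Prod.fst ∪ E.image Prod.snd with hN
  set q : V → U → ℝ := fun w => if w ∈ N then m (side w) else c (side w) with hq
  have hq0 : ∀ w x, 0 ≤ q w x := by
    intro w x
    simp only [hq]
    split_ifs
    · exact hm _ _
    · exact hc0 _ _
  have hsum : ∑ z : V → U, (∏ v, m (side v) (z v)) * B z
      = ∑ z : V → U, (∏ v, q v (z v)) * B z := by
    refine weights_eq N B ?_ (fun v => m (side v)) q ?_ ?_ ?_
    · intro v hv Z y
      simp only [hBdef]
      refine Finset.prod_congr rfl fun e he => ?_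
      have h3 : e.1 ≠ v := fun h => hv (by
        rw [hN, ← h]
        exact Finset.mem_union_left _ (Finset.mem_image_of_mem _ he))
      have h4 : e.2 ≠ v := fun h => hv (by
        rw [hN, ← h]
        exact Finset.mem_union_right _ (Finset.mem_image_of_mem _ he))
      rw [Function.update_of_ne h3, Function.update_of_ne h4]
    · intro v hv
      simp only [hq, if_pos hv]
    · intro v _
      exact hm1 _
    · intro v hv
      simp only [hq, if_neg hv]
      exact hc1 _
  have hcm : ∀ s x, c s x ≠ 0 → m s x ≠ 0 := by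
    intro s x h3 h4
    apply h3
    cases s
    · show ∑ y, π x y = 0
      simp only [hπdef, h4, zero_mul, zero_div, Finset.sum_const_zero]
    · show ∑ y, π y x = 0
      simp only [hπdef, h4, zero_mul, mul_zero, zero_div, Finset.sum_const_zero]
  have hsupp : ∀ z, ν z ≠ 0 → (∀ v, q v (z v) ≠ 0) ∧ ∀ e ∈ E, W (z e.1) (z e.2) ≠ 0 := by
    intro z hz
    refine ⟨fun v => ?_, fun e he h3 => ?_⟩
    · have h3 := hν.law_ne_zero hz v
      simp only [hq]
      split_ifs
      · exact hcm _ _ h3
      · exact h3
    · apply hν.edge_ne_zero hz he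
      simp only [hπdef, h3, mul_zero, zero_div]
  obtain ⟨hgibbs, hSpos⟩ := gibbs_log (p := ν) (q := fun z => (∏ v, q v (z v)) * B z) hν.nonneg
    (fun z => mul_nonneg (Finset.prod_nonneg fun v _ => hq0 _ _) (hB0 z))
    (fun z hz => by
      by_contra hcon
      obtain ⟨h3, h4⟩ := hsupp z hcon
      rcases mul_eq_zero.1 hz with h5 | h5
      · obtain ⟨v, -, h6⟩ := Finset.prod_eq_zero_iff.1 h5
        exact h3 v h6
      · obtain ⟨e, he, h6⟩ := Finset.prod_eq_zero_iff.1 h5
        exact h4 e he h6) hν.total
  rw [hsum]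
  -- relative entropies of the marginals
  set D : Bool → ℝ := fun s => ∑ x, c s x * (Real.log (c s x) - Real.log (m s x)) with hD
  have hD0 : ∀ s, 0 ≤ D s := by
    intro s
    have h3 := gibbs' (p := c s) (q := m s) (hc0 s) (hm s)
      (fun x hx => by
        by_contra h
        exact hcm s x h hx) (hc1 s) (hm1 s).le
    simp only [hD]
    simp_rw [mul_sub, Finset.sum_sub_distrib]
    linarith
  set I : ℝ := ∑ x, ∑ y, π x y * (Real.log (π x y) - Real.log (a x) - Real.log (b y)) with hI
  have hbound : tc c side ν ≤ E.card * I := hν.bound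
  have hlogW : ∑ x, ∑ y, π x y * Real.log (W x y) = Real.log p + I + D false + D true := by
    have e1 : D false = ∑ x, ∑ y, π x y * (Real.log (a x) - Real.log (m false x)) := by
      simp only [hD]
      refine Finset.sum_congr rfl fun x _ => ?_
      rw [← Finset.sum_mul]
      rfl
    have e2 : D true = ∑ x, ∑ y, π x y * (Real.log (b y) - Real.log (m true y)) := by
      simp only [hD]
      rw [Finset.sum_comm]
      refine Finset.sum_congr rfl fun x _ => ?_
      rw [← Finset.sum_mul]
      rfl
    have e3 : Real.log p = ∑ x, ∑ y, π x y * Real.log p := by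
      simp_rw [← Finset.sum_mul]
      rw [hπ1, one_mul]
    rw [e1, e2, e3, hI]
    simp_rw [← Finset.sum_add_distrib]
    refine Finset.sum_congr rfl fun x _ => Finset.sum_congr rfl fun y _ => ?_
    by_cases h3 : π x y = 0
    · rw [h3]; ring
    have h4 : m false x * m true y * W x y ≠ 0 := fun h => h3 (by
      simp only [hπdef]; rw [h, zero_div])
    have h5 : W x y ≠ 0 := right_ne_zero_of_mul h4
    have h6 : m false x ≠ 0 := left_ne_zero_of_mul (left_ne_zero_of_mul h4)
    have h7 : m true y ≠ 0 := right_ne_zero_of_mul (left_ne_zero_of_mul h4)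
    have h8 : Real.log (π x y) = Real.log (m false x) + Real.log (m true y) + Real.log (W x y)
        - Real.log p := by
      simp only [hπdef]
      rw [Real.log_div h4 hppos.ne', Real.log_mul (mul_ne_zero h6 h7) h5, Real.log_mul h6 h7]
    rw [h8]
    ring
  -- the main computation
  have hmain : (E.card : ℝ) * Real.log p
      ≤ ∑ z, ν z * (Real.log ((∏ v, q v (z v)) * B z) - Real.log (ν z)) := by
    have h3 : ∀ z, ν z * (Real.log ((∏ v, q v (z v)) * B z) - Real.log (ν z))
        = ∑ v, ν z * (Real.log (q v (z v)) - Real.log (c (side v) (z v)))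
          + ∑ e ∈ E, ν z * Real.log (W (z e.1) (z e.2))
          - ν z * (Real.log (ν z) - ∑ v, Real.log (c (side v) (z v))) := by
      intro z
      by_cases hz : ν z = 0
      · simp [hz]
      obtain ⟨h4, h5⟩ := hsupp z hz
      rw [Real.log_mul (Finset.prod_ne_zero_iff.2 fun v _ => h4 v)
        (Finset.prod_ne_zero_iff.2 h5), Real.log_prod (fun v _ => h4 v),
        Real.log_prod h5, ← Finset.mul_sum, ← Finset.mul_sum]
      simp_rw [Finset.sum_sub_distrib]
      ring
    simp_rw [h3]
    rw [Finset.sum_sub_distrib, Finset.sum_add_distrib, Finset.sum_comm,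
      Finset.sum_comm (t := E)]
    have h4 : ∑ e ∈ E, ∑ z, ν z * Real.log (W (z e.1) (z e.2))
        = E.card * (Real.log p + I + D false + D true) := by
      rw [Finset.sum_congr rfl (g := fun _ => Real.log p + I + D false + D true),
        Finset.sum_const, nsmul_eq_mul]
      intro e he
      rw [hedge e he (fun x y => Real.log (W x y)), hlogW]
    have h5 : ∀ v, ∑ z, ν z * (Real.log (q v (z v)) - Real.log (c (side v) (z v)))
        = - (if v ∈ N then D (side v) else 0) := by
      intro v
      have h6 := hν.vertex v (fun x => Real.log (q v x) - Real.log (c (side v) x))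
      rw [h6]
      split_ifs with h7
      · simp only [hD, hq, if_pos h7]
        rw [← Finset.sum_neg_distrib]
        refine Finset.sum_congr rfl fun x _ => ?_
        ring
      · simp only [hq, if_neg h7, sub_self, mul_zero, Finset.sum_const_zero, neg_zero]
    have h6 : ∑ v, (if v ∈ N then D (side v) else 0) ≤ E.card * (D false + D true) := by
      rw [← Finset.sum_filter, Finset.filter_mem_eq_inter, Finset.univ_inter]
      calc ∑ v ∈ N, D (side v) ≤ ∑ v ∈ E.image Prod.fst, D (side v)
            + ∑ v ∈ E.image Prod.snd, D (side v) := by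
            rw [hN, ← Finset.sum_union_inter]
            have : 0 ≤ ∑ v ∈ E.image Prod.fst ∩ E.image Prod.snd, D (side v) :=
              Finset.sum_nonneg fun v _ => hD0 _
            linarith
        _ ≤ ∑ e ∈ E, D (side e.1) + ∑ e ∈ E, D (side e.2) :=
            add_le_add (sum_image_le' E Prod.fst (fun v => D (side v)) fun v => hD0 _)
              (sum_image_le' E Prod.snd (fun v => D (side v)) fun v => hD0 _)
        _ = E.card * (D false + D true) := by
            have h8 : ∑ e ∈ E, D (side e.1) = E.card * D false := by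
              rw [← nsmul_eq_mul, ← Finset.sum_const]
              exact Finset.sum_congr rfl fun e he => by rw [(hE e he).1]
            have h9 : ∑ e ∈ E, D (side e.2) = E.card * D true := by
              rw [← nsmul_eq_mul, ← Finset.sum_const]
              exact Finset.sum_congr rfl fun e he => by rw [(hE e he).2]
            rw [h8, h9]
            ring
    have h7 : ∑ z, ν z * (Real.log (ν z) - ∑ v, Real.log (c (side v) (z v))) ≤ E.card * I :=
      hbound
    simp_rw [h5]
    rw [h4, Finset.sum_neg_distrib]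
    linarith
  have hfin := hmain.trans hgibbs
  rw [← Real.log_pow] at hfin
  exact (Real.log_le_log_iff (pow_pos hppos _) hSpos).1 hfin


end Vale.Agent.P050.Cart
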