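import Vale.Agent.P050.Lev.SGood
import Vale.Agent.P050.Cart.OfCoupling

/-!
Cartesian products: `F □ H` satisfies the two-sided Sidorenko inequality if `F` does and `H` has
good prisms; and good prisms pass to Cartesian products.
-/

set_option linter.unusedSectionVars false

namespace Vale.Agent.P050.Cart

open Finset Vale.Agent.P050.Lev

theorem KSid.sidLaw {V : Type} [Fintype V] [DecidableEq V] {E : Finset (V × V)} {side : V → Bool}
    (h : KSid E side) {U : Type} [Fintype U] {c : Bool → U → ℝ} {π : U → U → ℝ}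
    (hc : ∀ b x, 0 ≤ c b x) (hc1 : ∀ b, ∑ x, c b x = 1) (hπ : ∀ x y, 0 ≤ π x y)
    (h1 : ∀ x, ∑ y, π x y = c false x) (h2 : ∀ y, ∑ x, π x y = c true y) :
    ∃ ν : (V → U) → ℝ, SidLaw E side c π ν := by
  obtain ⟨ν, h0, hs, hv, he, hb⟩ := exact_coupling h hc hc1 hπ h1 h2
  exact ⟨ν, h0, hs, hv, he, hb⟩

section basics

variable {V U : Type} [Fintype V] [DecidableEq V] [Fintype U] {E : Finset (V × V)} {s : V → Bool}
  {m : Bool → U → ℝ} {π : U → U → ℝ} {L : (V → U) → (V → U) → ℝ}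

theorem fstLaw_nonneg (h : ∀ f g, 0 ≤ L f g) (f : V → U) : 0 ≤ fstLaw L f :=
  Finset.sum_nonneg fun g _ => h f g

theorem sndLaw_nonneg (h : ∀ f g, 0 ≤ L f g) (g : V → U) : 0 ≤ sndLaw L g :=
  Finset.sum_nonneg fun f _ => h f g

theorem sum_fstLaw (F : (V → U) → ℝ) :
    ∑ f, fstLaw L f * F f = ∑ f, ∑ g, L f g * F f := by
  simp only [fstLaw, Finset.sum_mul]

theorem sum_sndLaw (F : (V → U) → ℝ) :
    ∑ g, sndLaw L g * F g = ∑ f, ∑ g, L f g * F g := by
  rw [Finset.sum_comm]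
  simp only [sndLaw, Finset.sum_mul]

/-- the two marginals of `L` -/
def supLaw (L : (V → U) → (V → U) → ℝ) : Bool → (V → U) → ℝ
  | false => fstLaw L
  | true => sndLaw L

theorem supLaw_nonneg (h : ∀ f g, 0 ≤ L f g) (b : Bool) (f : V → U) : 0 ≤ supLaw L b f := by
  cases b
  · exact fstLaw_nonneg h f
  · exact sndLaw_nonneg h f

theorem supLaw_total (h : ∑ f, ∑ g, L f g = 1) (b : Bool) : ∑ f, supLaw L b f = 1 := by
  cases b
  · exact h
  · rw [Finset.sum_comm] at h
    exact h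

theorem PrismLaw.vertex_fst (h : PrismLaw E s m π L) (h1 : ∀ x, ∑ y, π x y = m false x)
    (h2 : ∀ y, ∑ x, π x y = m true y) (v : V) (F : U → ℝ) :
    ∑ f, fstLaw L f * F (f v) = ∑ x, m (s v) x * F x := by
  rw [sum_fstLaw fun f => F (f v)]
  cases hv : s v
  · rw [h.rung_false v hv fun x _ => F x]
    simp_rw [← Finset.sum_mul, h1]
  · rw [h.rung_true v hv fun _ y => F y, Finset.sum_comm]
    simp_rw [← Finset.sum_mul, h2]

theorem PrismLaw.vertex_snd (h : PrismLaw E s m π L) (h1 : ∀ x, ∑ y, π x y = m false x)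
    (h2 : ∀ y, ∑ x, π x y = m true y) (v : V) (F : U → ℝ) :
    ∑ g, sndLaw L g * F (g v) = ∑ x, m (!s v) x * F x := by
  rw [sum_sndLaw fun g => F (g v)]
  cases hv : s v
  · rw [h.rung_false v hv fun _ y => F y, Finset.sum_comm]
    simp_rw [← Finset.sum_mul, h2]
    rfl
  · rw [h.rung_true v hv fun x _ => F x]
    simp_rw [← Finset.sum_mul, h1]
    rfl

theorem inf_supLaw (m : Bool → U → ℝ) (s : V → Bool) (L : (V → U) → (V → U) → ℝ) :
    inf (supLaw L) L
      = tc2 m s L - tc m s (fstLaw L) - tc m (fun v => !s v) (sndLaw L) := by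
  unfold inf tc2 tc
  rw [sum_fstLaw fun f => Real.log (fstLaw L f) - ∑ v, Real.log (m (s v) (f v)),
    sum_sndLaw fun g => Real.log (sndLaw L g) - ∑ v, Real.log (m (!s v) (g v)),
    ← Finset.sum_sub_distrib, ← Finset.sum_sub_distrib]
  refine Finset.sum_congr rfl fun f _ => ?_
  rw [← Finset.sum_sub_distrib, ← Finset.sum_sub_distrib]
  refine Finset.sum_congr rfl fun g _ => ?_
  simp only [supLaw]
  ring

end basics

section cards

variable {V₁ V₂ : Type} [Fintype V₁] [DecidableEq V₁] [Fintype V₂] [DecidableEq V₂]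
  {E₁ : Finset (V₁ × V₁)} {s₁ : V₁ → Bool} {E₂ : Finset (V₂ × V₂)} {s₂ : V₂ → Bool}

theorem mem_prodEdges {e : (V₁ × V₂) × (V₁ × V₂)} :
    e ∈ prodEdges E₁ s₁ E₂ s₂ ↔
      (∃ a ∈ E₁, ∃ w, e = if s₂ w = false then ((a.1, w), (a.2, w)) else ((a.2, w), (a.1, w))) ∨
      (∃ v, ∃ a ∈ E₂, e = if s₁ v = false then ((v, a.1), (v, a.2)) else ((v, a.2), (v, a.1))) := by
  unfold prodEdges
  rw [Finset.mem_union, Finset.mem_image, Finset.mem_image]
  constructor
  · rintro (⟨⟨a, w⟩, h, rfl⟩ | ⟨⟨v, a⟩, h, rfl⟩)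
    · exact Or.inl ⟨a, (Finset.mem_product.1 h).1, w, rfl⟩
    · exact Or.inr ⟨v, a, (Finset.mem_product.1 h).2, rfl⟩
  · rintro (⟨a, ha, w, rfl⟩ | ⟨v, a, ha, rfl⟩)
    · exact Or.inl ⟨(a, w), Finset.mem_product.2 ⟨ha, mem_univ _⟩, rfl⟩
    · exact Or.inr ⟨(v, a), Finset.mem_product.2 ⟨mem_univ _, ha⟩, rfl⟩

theorem prodEdges_side (h₁ : ∀ e ∈ E₁, s₁ e.1 = false ∧ s₁ e.2 = true)
    (h₂ : ∀ e ∈ E₂, s₂ e.1 = false ∧ s₂ e.2 = true) :
    ∀ e ∈ prodEdges E₁ s₁ E₂ s₂, (fun p : V₁ × V₂ => xor (s₁ p.1) (s₂ p.2)) e.1 = false ∧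
      (fun p : V₁ × V₂ => xor (s₁ p.1) (s₂ p.2)) e.2 = true := by
  intro e he
  rcases mem_prodEdges.1 he with ⟨a, ha, w, rfl⟩ | ⟨v, a, ha, rfl⟩
  · obtain ⟨h3, h4⟩ := h₁ a ha
    cases hw : s₂ w <;> simp [h3, h4, hw]
  · obtain ⟨h3, h4⟩ := h₂ a ha
    cases hv : s₁ v <;> simp [h3, h4, hv]

theorem card_prodEdges (h₂ : ∀ e ∈ E₂, s₂ e.1 = false ∧ s₂ e.2 = true) :
    (prodEdges E₁ s₁ E₂ s₂).card
      = E₁.card * Fintype.card V₂ + Fintype.card V₁ * E₂.card := by
  unfold prodEdges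
  rw [Finset.card_union_of_disjoint, Finset.card_image_of_injOn, Finset.card_image_of_injOn,
    Finset.card_product, Finset.card_product, Finset.card_univ, Finset.card_univ]
  · rintro ⟨v, a⟩ - ⟨v', a'⟩ - h
    simp only at h
    have h5 : v = v' := by
      have := congrArg (fun q => q.1.1) h
      split_ifs at this <;> exact this
    subst h5
    by_cases hv : s₁ v = false
    · simp only [hv, if_true] at h
      have h6 := congrArg (fun q => q.1.2) h
      have h7 := congrArg (fun q => q.2.2) h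
      exact Prod.ext rfl (Prod.ext h6 h7)
    · simp only [hv] at h
      have h6 := congrArg (fun q => q.1.2) h
      have h7 := congrArg (fun q => q.2.2) h
      exact Prod.ext rfl (Prod.ext h7 h6)
  · rintro ⟨a, w⟩ - ⟨a', w'⟩ - h
    simp only at h
    have h5 : w = w' := by
      have := congrArg (fun q => q.1.2) h
      split_ifs at this <;> exact this
    subst h5
    by_cases hw : s₂ w = false
    · simp only [hw, if_true] at h
      have h6 := congrArg (fun q => q.1.1) h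
      have h7 := congrArg (fun q => q.2.1) h
      exact Prod.ext (Prod.ext h6 h7) rfl
    · simp only [hw] at h
      have h6 := congrArg (fun q => q.1.1) h
      have h7 := congrArg (fun q => q.2.1) h
      exact Prod.ext (Prod.ext h7 h6) rfl
  · rw [Finset.disjoint_left]
    intro e he he'
    obtain ⟨⟨a, w⟩, -, rfl⟩ := Finset.mem_image.1 he
    obtain ⟨⟨v, b⟩, hb, h⟩ := Finset.mem_image.1 he'
    have hb' := h₂ b (Finset.mem_product.1 hb).2
    have h3 : b.1 = b.2 := by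
      have h4 := congrArg (fun q => q.1.2) h
      have h5 := congrArg (fun q => q.2.2) h
      simp only at h4 h5
      split_ifs at h4 h5
      · exact h4.trans h5.symm
      · exact h4.trans h5.symm
      · exact h5.trans h4.symm
      · exact h5.trans h4.symm
    rw [h3, hb'.2] at hb'
    exact absurd hb'.1 (by simp)

/-- the edges of the box product -/
theorem sideEdges_boxProd (G : SimpleGraph V₁) (H : SimpleGraph V₂)
    (hG : ∀ u v, G.Adj u v → s₁ u ≠ s₁ v) (hH : ∀ u v, H.Adj u v → s₂ u ≠ s₂ v) :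
    sideEdges (G □ H) (fun p => xor (s₁ p.1) (s₂ p.2))
      = prodEdges (sideEdges G s₁) s₁ (sideEdges H s₂) s₂ := by
  ext ⟨⟨a, b⟩, ⟨c, d⟩⟩
  rw [mem_prodEdges]
  simp only [sideEdges, Finset.mem_filter, Finset.mem_univ, true_and, SimpleGraph.boxProd_adj]
  constructor
  · rintro ⟨⟨h, rfl⟩ | ⟨h, rfl⟩, h3, h4⟩
    · left
      have h5 := hG a c h
      cases hb : s₂ b
      · rw [hb] at h3 h4
        refine ⟨(a, c), ⟨h, by simpa using h3, by simpa using h4⟩, b, by simp [hb]⟩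
      · rw [hb] at h3 h4
        refine ⟨(c, a), ⟨h.symm, by simpa using h4, by simpa using h3⟩, b, by simp [hb]⟩
    · right
      have h5 := hH b d h
      cases ha : s₁ a
      · rw [ha] at h3 h4
        refine ⟨a, (b, d), ⟨h, by simpa using h3, by simpa using h4⟩, by simp [ha]⟩
      · rw [ha] at h3 h4
        refine ⟨a, (d, b), ⟨h.symm, by simpa using h4, by simpa using h3⟩, by simp [ha]⟩
  · rintro (⟨⟨x, y⟩, ⟨h, h3, h4⟩, w, he⟩ | ⟨v, ⟨x, y⟩, ⟨h, h3, h4⟩, he⟩)
    · simp only at h h3 h4 he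
      cases hw : s₂ w
      · simp only [hw, if_true, Prod.mk.injEq] at he
        obtain ⟨⟨rfl, rfl⟩, rfl, rfl⟩ := he
        exact ⟨Or.inl ⟨h, rfl⟩, by simp [h3, hw], by simp [h4, hw]⟩
      · simp only [hw, Bool.true_eq_false, if_false, Prod.mk.injEq] at he
        obtain ⟨⟨rfl, rfl⟩, rfl, rfl⟩ := he
        exact ⟨Or.inl ⟨h.symm, rfl⟩, by simp [h4, hw], by simp [h3, hw]⟩
    · simp only at h h3 h4 he
      cases hv : s₁ v
      · simp only [hv, if_true, Prod.mk.injEq] at he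
        obtain ⟨⟨rfl, rfl⟩, rfl, rfl⟩ := he
        exact ⟨Or.inr ⟨h, rfl⟩, by simp [h3, hv], by simp [h4, hv]⟩
      · simp only [hv, Bool.true_eq_false, if_false, Prod.mk.injEq] at he
        obtain ⟨⟨rfl, rfl⟩, rfl, rfl⟩ := he
        exact ⟨Or.inr ⟨h.symm, rfl⟩, by simp [h4, hv], by simp [h3, hv]⟩

end cards

section curry

variable {V₁ V₂ U : Type} [Fintype V₁] [DecidableEq V₁] [Fintype V₂] [DecidableEq V₂] [Fintype U]

/-- a law on maps `V₁ → V₂ → U` as a law on maps `V₁ × V₂ → U` -/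
def unc (ν : (V₁ → V₂ → U) → ℝ) (z : V₁ × V₂ → U) : ℝ := ν (fun a b => z (a, b))

theorem sum_unc (F : (V₁ → V₂ → U) → ℝ) :
    ∑ z : V₁ × V₂ → U, F (fun a b => z (a, b)) = ∑ Z, F Z :=
  Equiv.sum_comp (Equiv.curry V₁ V₂ U) F

/-- the total correlation of a copy inside -/
noncomputable def innerTc (m : Bool → U → ℝ) (s₂ : V₂ → Bool) (M : Bool → (V₂ → U) → ℝ)
    (b : Bool) : ℝ :=
  ∑ x, M b x * (Real.log (M b x) - ∑ w, Real.log (m (xor b (s₂ w)) (x w)))

theorem tc_unc (m : Bool → U → ℝ) (s₂ : V₂ → Bool) (M : Bool → (V₂ → U) → ℝ) (σ : V₁ → Bool)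
    (ν : (V₁ → V₂ → U) → ℝ)
    (hv : ∀ v, ∀ F : (V₂ → U) → ℝ, ∑ Z, ν Z * F (Z v) = ∑ x, M (σ v) x * F x) :
    tc m (fun p : V₁ × V₂ => xor (σ p.1) (s₂ p.2)) (unc ν)
      = tc M σ ν + ∑ v, innerTc m s₂ M (σ v) := by
  have h1 : tc m (fun p : V₁ × V₂ => xor (σ p.1) (s₂ p.2)) (unc ν)
      = ∑ Z, ν Z * (Real.log (ν Z) - ∑ v, ∑ w, Real.log (m (xor (σ v) (s₂ w)) (Z v w))) := by
    unfold tc
    rw [← sum_unc fun Z => ν Z * (Real.log (ν Z) -
      ∑ v, ∑ w, Real.log (m (xor (σ v) (s₂ w)) (Z v w)))]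
    refine Finset.sum_congr rfl fun z _ => ?_
    rw [Fintype.sum_prod_type]
    rfl
  have h2 : ∀ v, innerTc m s₂ M (σ v) = ∑ Z, ν Z * (Real.log (M (σ v) (Z v)) -
      ∑ w, Real.log (m (xor (σ v) (s₂ w)) (Z v w))) := by
    intro v
    exact (hv v fun x => Real.log (M (σ v) x) - ∑ w, Real.log (m (xor (σ v) (s₂ w)) (x w))).symm
  rw [h1, Finset.sum_congr rfl fun v _ => h2 v, Finset.sum_comm]
  unfold tc
  rw [← Finset.sum_add_distrib]
  refine Finset.sum_congr rfl fun Z _ => ?_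
  rw [← Finset.mul_sum, ← mul_add, Finset.sum_sub_distrib]
  ring

theorem tc2_unc (m : Bool → U → ℝ) (s₂ : V₂ → Bool) (M : Bool → (V₂ → U) → ℝ) (σ : V₁ → Bool)
    (L : (V₁ → V₂ → U) → (V₁ → V₂ → U) → ℝ)
    (hf : ∀ v, ∀ F : (V₂ → U) → ℝ, ∑ Z, fstLaw L Z * F (Z v) = ∑ x, M (σ v) x * F x)
    (hg : ∀ v, ∀ F : (V₂ → U) → ℝ, ∑ Z, sndLaw L Z * F (Z v) = ∑ x, M (!σ v) x * F x) :
    tc2 m (fun p : V₁ × V₂ => xor (σ p.1) (s₂ p.2))
        (fun z z' => L (fun a b => z (a, b)) (fun a b => z' (a, b)))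
      = tc2 M σ L + ∑ v, innerTc m s₂ M (σ v) + ∑ v, innerTc m s₂ M (!σ v) := by
  have h1 : tc2 m (fun p : V₁ × V₂ => xor (σ p.1) (s₂ p.2))
        (fun z z' => L (fun a b => z (a, b)) (fun a b => z' (a, b)))
      = ∑ Z, ∑ Z', L Z Z' * (Real.log (L Z Z')
        - ∑ v, ∑ w, Real.log (m (xor (σ v) (s₂ w)) (Z v w))
        - ∑ v, ∑ w, Real.log (m (xor (!σ v) (s₂ w)) (Z' v w))) := by
    unfold tc2
    rw [← sum_unc fun Z => ∑ Z', L Z Z' * (Real.log (L Z Z')
        - ∑ v, ∑ w, Real.log (m (xor (σ v) (s₂ w)) (Z v w))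
        - ∑ v, ∑ w, Real.log (m (xor (!σ v) (s₂ w)) (Z' v w)))]
    refine Finset.sum_congr rfl fun z _ => ?_
    rw [← sum_unc fun Z' => L (fun a b => z (a, b)) Z' * (Real.log (L (fun a b => z (a, b)) Z')
        - ∑ v, ∑ w, Real.log (m (xor (σ v) (s₂ w)) (z (v, w)))
        - ∑ v, ∑ w, Real.log (m (xor (!σ v) (s₂ w)) (Z' v w)))]
    refine Finset.sum_congr rfl fun z' _ => ?_
    rw [Fintype.sum_prod_type, Fintype.sum_prod_type]
    simp only [Bool.not_bne]
  have h2 : ∀ v, innerTc m s₂ M (σ v) = ∑ Z, ∑ Z', L Z Z' * (Real.log (M (σ v) (Z v)) -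
      ∑ w, Real.log (m (xor (σ v) (s₂ w)) (Z v w))) := by
    intro v
    rw [← sum_fstLaw fun Z => Real.log (M (σ v) (Z v)) -
      ∑ w, Real.log (m (xor (σ v) (s₂ w)) (Z v w))]
    exact (hf v fun x => Real.log (M (σ v) x) - ∑ w, Real.log (m (xor (σ v) (s₂ w)) (x w))).symm
  have h3 : ∀ v, innerTc m s₂ M (!σ v) = ∑ Z, ∑ Z', L Z Z' * (Real.log (M (!σ v) (Z' v)) -
      ∑ w, Real.log (m (xor (!σ v) (s₂ w)) (Z' v w))) := by
    intro v
    rw [← sum_sndLaw fun Z' => Real.log (M (!σ v) (Z' v)) -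
      ∑ w, Real.log (m (xor (!σ v) (s₂ w)) (Z' v w))]
    exact (hg v fun x => Real.log (M (!σ v) x) -
      ∑ w, Real.log (m (xor (!σ v) (s₂ w)) (x w))).symm
  rw [h1, Finset.sum_congr rfl fun v _ => h2 v, Finset.sum_congr rfl fun v _ => h3 v,
    Finset.sum_comm (s := univ) (t := univ) (f := fun v Z => ∑ Z', L Z Z' *
      (Real.log (M (σ v) (Z v)) - ∑ w, Real.log (m (xor (σ v) (s₂ w)) (Z v w)))),
    Finset.sum_comm (s := univ) (t := univ) (f := fun v Z => ∑ Z', L Z Z' *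
      (Real.log (M (!σ v) (Z' v)) - ∑ w, Real.log (m (xor (!σ v) (s₂ w)) (Z' v w))))]
  unfold tc2
  rw [← Finset.sum_add_distrib, ← Finset.sum_add_distrib]
  refine Finset.sum_congr rfl fun Z _ => ?_
  rw [Finset.sum_comm (s := univ) (t := univ) (f := fun v Z' => L Z Z' *
      (Real.log (M (σ v) (Z v)) - ∑ w, Real.log (m (xor (σ v) (s₂ w)) (Z v w)))),
    Finset.sum_comm (s := univ) (t := univ) (f := fun v Z' => L Z Z' *
      (Real.log (M (!σ v) (Z' v)) - ∑ w, Real.log (m (xor (!σ v) (s₂ w)) (Z' v w)))),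
    ← Finset.sum_add_distrib, ← Finset.sum_add_distrib]
  refine Finset.sum_congr rfl fun Z' _ => ?_
  rw [← Finset.mul_sum, ← Finset.mul_sum, Finset.sum_sub_distrib, Finset.sum_sub_distrib]
  ring

theorem innerTc_false (m : Bool → U → ℝ) (s₂ : V₂ → Bool) (L : (V₂ → U) → (V₂ → U) → ℝ) :
    innerTc m s₂ (supLaw L) false = tc m s₂ (fstLaw L) := by
  simp only [innerTc, tc, supLaw, Bool.false_bne]

theorem innerTc_true (m : Bool → U → ℝ) (s₂ : V₂ → Bool) (L : (V₂ → U) → (V₂ → U) → ℝ) :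
    innerTc m s₂ (supLaw L) true = tc m (fun v => !s₂ v) (sndLaw L) := by
  simp only [innerTc, tc, supLaw, Bool.true_bne]

end curry

section transfer

variable {V₁ V₂ U : Type} [Fintype V₁] [DecidableEq V₁] [Fintype V₂] [DecidableEq V₂] [Fintype U]
  {E₁ : Finset (V₁ × V₁)} {s₁ : V₁ → Bool} {E₂ : Finset (V₂ × V₂)} {s₂ : V₂ → Bool}
  {m : Bool → U → ℝ} {π : U → U → ℝ} {L : (V₂ → U) → (V₂ → U) → ℝ}

theorem PrismLaw.vertex_sup (h : PrismLaw E₂ s₂ m π L) (h1 : ∀ x, ∑ y, π x y = m false x)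
    (h2 : ∀ y, ∑ x, π x y = m true y) (b : Bool) (w : V₂) (F : U → ℝ) :
    ∑ x, supLaw L b x * F (x w) = ∑ x, m (xor b (s₂ w)) x * F x := by
  cases b
  · simp only [Bool.false_bne]
    exact h.vertex_fst h1 h2 w F
  · simp only [Bool.true_bne]
    exact h.vertex_snd h1 h2 w F

theorem edge_transfer (h : PrismLaw E₂ s₂ m π L) (Ex : ((V₁ → V₂ → U) → ℝ) → ℝ)
    (hv : ∀ v, ∀ F : (V₂ → U) → ℝ, Ex (fun Z => F (Z v)) = ∑ x, supLaw L (s₁ v) x * F x)
    (he : ∀ e ∈ E₁, ∀ F : (V₂ → U) → (V₂ → U) → ℝ,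
      Ex (fun Z => F (Z e.1) (Z e.2)) = ∑ x, ∑ y, L x y * F x y)
    {e : (V₁ × V₂) × (V₁ × V₂)} (hmem : e ∈ prodEdges E₁ s₁ E₂ s₂) (F : U → U → ℝ) :
    Ex (fun Z => F (Z e.1.1 e.1.2) (Z e.2.1 e.2.2)) = ∑ x, ∑ y, π x y * F x y := by
  rcases mem_prodEdges.1 hmem with ⟨a, ha, w, rfl⟩ | ⟨v, a, ha, rfl⟩
  · cases hw : s₂ w
    · simp only [if_true]
      rw [he a ha fun x y => F (x w) (y w)]
      exact h.rung_false w hw F
    · simp only [Bool.true_eq_false, if_false]
      rw [he a ha fun x y => F (y w) (x w)]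
      exact h.rung_true w hw F
  · cases hs : s₁ v
    · simp only [if_true]
      rw [hv v fun x => F (x a.1) (x a.2), hs]
      exact (sum_fstLaw fun x => F (x a.1) (x a.2)).trans (h.edge_fst a ha F)
    · simp only [Bool.true_eq_false, if_false]
      rw [hv v fun x => F (x a.2) (x a.1), hs]
      exact (sum_sndLaw fun x => F (x a.2) (x a.1)).trans (h.edge_snd a ha F)

theorem edge_transfer' (h : PrismLaw E₂ s₂ m π L) (Ex : ((V₁ → V₂ → U) → ℝ) → ℝ)
    (hv : ∀ v, ∀ F : (V₂ → U) → ℝ, Ex (fun Z => F (Z v)) = ∑ x, supLaw L (!s₁ v) x * F x)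
    (he : ∀ e ∈ E₁, ∀ F : (V₂ → U) → (V₂ → U) → ℝ,
      Ex (fun Z => F (Z e.2) (Z e.1)) = ∑ x, ∑ y, L x y * F x y)
    {e : (V₁ × V₂) × (V₁ × V₂)} (hmem : e ∈ prodEdges E₁ s₁ E₂ s₂) (F : U → U → ℝ) :
    Ex (fun Z => F (Z e.2.1 e.2.2) (Z e.1.1 e.1.2)) = ∑ x, ∑ y, π x y * F x y := by
  rcases mem_prodEdges.1 hmem with ⟨a, ha, w, rfl⟩ | ⟨v, a, ha, rfl⟩
  · cases hw : s₂ w
    · simp only [if_true]
      rw [he a ha fun x y => F (x w) (y w)]
      exact h.rung_false w hw F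
    · simp only [Bool.true_eq_false, if_false]
      rw [he a ha fun x y => F (y w) (x w)]
      exact h.rung_true w hw F
  · cases hs : s₁ v
    · simp only [if_true]
      rw [hv v fun x => F (x a.2) (x a.1), hs]
      exact (sum_sndLaw fun x => F (x a.2) (x a.1)).trans (h.edge_snd a ha F)
    · simp only [Bool.true_eq_false, if_false]
      rw [hv v fun x => F (x a.1) (x a.2), hs]
      exact (sum_fstLaw fun x => F (x a.1) (x a.2)).trans (h.edge_fst a ha F)

theorem sum_side (σ : V₁ → Bool) (g : Bool → ℝ) : ∑ v, g (σ v) =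
    (univ.filter fun v => σ v = false).card * g false
      + (univ.filter fun v => σ v = true).card * g true := by
  rw [← Finset.sum_filter_add_sum_filter_not univ (fun v => σ v = false)]
  congr 1
  · rw [Finset.sum_congr rfl (g := fun _ => g false), Finset.sum_const, nsmul_eq_mul]
    intro v hv
    rw [(Finset.mem_filter.1 hv).2]
  · have h1 : (univ.filter fun v => ¬ σ v = false) = univ.filter fun v => σ v = true := by
      ext v
      simp
    rw [h1, Finset.sum_congr rfl (g := fun _ => g true), Finset.sum_const, nsmul_eq_mul]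
    intro v hv
    rw [(Finset.mem_filter.1 hv).2]

theorem card_side (σ : V₁ → Bool) : (Fintype.card V₁ : ℝ) =
    (univ.filter fun v => σ v = false).card + (univ.filter fun v => σ v = true).card := by
  have h := sum_side σ fun _ => 1
  simpa using h

end transfer

section main

variable {V₁ V₂ : Type} [Fintype V₁] [DecidableEq V₁] [Fintype V₂] [DecidableEq V₂]
  {E₁ : Finset (V₁ × V₁)} {s₁ : V₁ → Bool} {E₂ : Finset (V₂ × V₂)} {s₂ : V₂ → Bool}

/-- The Cartesian product of a graph with the two-sided Sidorenko inequality, without isolated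
vertices, and a graph with good prisms satisfies the two-sided Sidorenko inequality. -/
theorem KSid.cart (h1 : KSid E₁ s₁) (hiso : ∀ v, ∃ e ∈ E₁, e.1 = v ∨ e.2 = v)
    (h2 : Prism E₂ s₂) :
    KSid (prodEdges E₁ s₁ E₂ s₂) (fun p => xor (s₁ p.1) (s₂ p.2)) := by
  refine ksid_of_sidLaw (prodEdges_side h1.1 h2.1) fun U _ m π hm hm1 hπ m1 m2 => ?_
  obtain ⟨L, hL⟩ := h2.2 U m π hm hm1 hπ m1 m2
  obtain ⟨ν, hν⟩ := KSid.sidLaw h1 (c := supLaw L) (π := L) (supLaw_nonneg hL.nonneg)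
    (supLaw_total hL.total) hL.nonneg (fun _ => rfl) (fun _ => rfl)
  refine ⟨unc ν, fun z => hν.nonneg _, ?_, ?_, ?_, ?_⟩
  · exact (sum_unc ν).trans hν.total
  · rintro ⟨v, w⟩ f
    refine (sum_unc fun Z => ν Z * f (Z v w)).trans ?_
    rw [hν.vertex v fun x => f (x w)]
    exact hL.vertex_sup m1 m2 (s₁ v) w f
  · intro e he f
    refine (sum_unc fun Z => ν Z * f (Z e.1.1 e.1.2) (Z e.2.1 e.2.2)).trans ?_
    exact edge_transfer hL (fun G => ∑ Z, ν Z * G Z) hν.vertex hν.edge he f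
  · rw [tc_unc m s₂ (supLaw L) s₁ ν hν.vertex, sum_side s₁ (innerTc m s₂ (supLaw L)), innerTc_false,
      innerTc_true, card_prodEdges h2.1]
    have hb := hν.bound
    rw [inf_supLaw m s₂ L] at hb
    have b00 := hL.bound
    have b10 := hL.bound_fst
    have b01 := hL.bound_snd
    have b11 := hL.bound_both
    have hc := card_side s₁
    have ha : (univ.filter fun v => s₁ v = false).card ≤ E₁.card := by
      refine le_trans (Finset.card_le_card ?_) (Finset.card_image_le (s := E₁) (f := Prod.fst))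
      intro v hv
      obtain ⟨e, he, h | h⟩ := hiso v
      · exact Finset.mem_image.2 ⟨e, he, h⟩
      · have h3 := (h1.1 e he).2
        rw [h, (Finset.mem_filter.1 hv).2] at h3
        exact absurd h3 (by simp)
    have hb' : (univ.filter fun v => s₁ v = true).card ≤ E₁.card := by
      refine le_trans (Finset.card_le_card ?_) (Finset.card_image_le (s := E₁) (f := Prod.snd))
      intro v hv
      obtain ⟨e, he, h | h⟩ := hiso v
      · have h3 := (h1.1 e he).1
        rw [h, (Finset.mem_filter.1 hv).2] at h3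
        exact absurd h3 (by simp)
      · exact Finset.mem_image.2 ⟨e, he, h⟩
    have ha2 : ((univ.filter fun v => s₁ v = false).card : ℝ) ≤ E₁.card := by exact_mod_cast ha
    have hb2 : ((univ.filter fun v => s₁ v = true).card : ℝ) ≤ E₁.card := by exact_mod_cast hb'
    have ha0 : (0 : ℝ) ≤ (univ.filter fun v => s₁ v = false).card := by positivity
    have hb0 : (0 : ℝ) ≤ (univ.filter fun v => s₁ v = true).card := by positivity
    push_cast
    rw [hc]
    generalize tc2 m s₂ L = T at *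
    generalize tc m s₂ (fstLaw L) = t at *
    generalize tc m (fun v => !s₂ v) (sndLaw L) = t' at *
    generalize tc (supLaw L) s₁ ν = T' at *
    generalize inf m π = I at *
    generalize ((univ.filter fun v => s₁ v = false).card : ℝ) = a at *
    generalize ((univ.filter fun v => s₁ v = true).card : ℝ) = b at *
    generalize (E₁.card : ℝ) = e at *
    generalize (E₂.card : ℝ) = e' at *
    generalize (Fintype.card V₂ : ℝ) = n at *
    have k00 := mul_le_mul_of_nonneg_left b00 (mul_nonneg ha0 hb0)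
    have k10 := mul_le_mul_of_nonneg_left b10 (mul_nonneg (sub_nonneg.2 ha2) hb0)
    have k01 := mul_le_mul_of_nonneg_left b01 (mul_nonneg ha0 (sub_nonneg.2 hb2))
    have k11 := mul_le_mul_of_nonneg_left b11
      (mul_nonneg (sub_nonneg.2 ha2) (sub_nonneg.2 hb2))
    rcases (ha0.trans ha2).eq_or_lt with h0 | h0
    · have ha' : a = 0 := le_antisymm (ha2.trans h0.symm.le) ha0
      have hb'' : b = 0 := le_antisymm (hb2.trans h0.symm.le) hb0
      subst ha' hb''
      rw [← h0] at hb ⊢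
      linarith
    · have key : e * (e * (T - t - t') + (a * t + b * t')) ≤ e * ((e * n + (a + b) * e') * I) := by
        nlinarith
      have := le_of_mul_le_mul_left key h0
      linarith

/-- Good prisms pass to Cartesian products. -/
theorem Prism.prod (h1 : Prism E₁ s₁) (h2 : Prism E₂ s₂) :
    Prism (prodEdges E₁ s₁ E₂ s₂) (fun p => xor (s₁ p.1) (s₂ p.2)) := by
  refine ⟨prodEdges_side h1.1 h2.1, fun U _ m π hm hm1 hπ m1 m2 => ?_⟩
  obtain ⟨L, hL⟩ := h2.2 U m π hm hm1 hπ m1 m2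
  obtain ⟨K, hK⟩ := h1.2 (V₂ → U) (supLaw L) L (supLaw_nonneg hL.nonneg)
    (supLaw_total hL.total) hL.nonneg (fun _ => rfl) (fun _ => rfl)
  have hf : ∀ v, ∀ F : (V₂ → U) → ℝ,
      ∑ Z, fstLaw K Z * F (Z v) = ∑ x, supLaw L (s₁ v) x * F x :=
    fun v F => hK.vertex_fst (fun _ => rfl) (fun _ => rfl) v F
  have hg : ∀ v, ∀ F : (V₂ → U) → ℝ,
      ∑ Z, sndLaw K Z * F (Z v) = ∑ x, supLaw L (!s₁ v) x * F x :=
    fun v F => hK.vertex_snd (fun _ => rfl) (fun _ => rfl) v F
  have sum2 : ∀ G : (V₁ → V₂ → U) → (V₁ → V₂ → U) → ℝ,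
      ∑ z : V₁ × V₂ → U, ∑ z' : V₁ × V₂ → U, G (fun a b => z (a, b)) (fun a b => z' (a, b))
        = ∑ Z, ∑ Z', G Z Z' := by
    intro G
    rw [← sum_unc fun Z => ∑ Z', G Z Z']
    refine Finset.sum_congr rfl fun z _ => ?_
    exact sum_unc fun Z' => G (fun a b => z (a, b)) Z'
  set K' : (V₁ × V₂ → U) → (V₁ × V₂ → U) → ℝ :=
    fun z z' => K (fun a b => z (a, b)) (fun a b => z' (a, b)) with hK'
  have e1 : fstLaw K' = unc (fstLaw K) := by
    funext z
    exact sum_unc fun Z' => K (fun a b => z (a, b)) Z'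
  have e2 : sndLaw K' = unc (sndLaw K) := by
    funext z'
    exact sum_unc fun Z => K Z (fun a b => z' (a, b))
  have t2 := tc2_unc m s₂ (supLaw L) s₁ K hf hg
  have t1 := tc_unc m s₂ (supLaw L) s₁ (fstLaw K) hf
  have t1' := tc_unc m s₂ (supLaw L) (fun v => !s₁ v) (sndLaw K) hg
  have hs : (fun v : V₁ × V₂ => !(xor (s₁ v.1) (s₂ v.2))) = fun p : V₁ × V₂ =>
      xor (!s₁ p.1) (s₂ p.2) := by
    funext v
    simp only [Bool.not_bne]
  rw [← hs] at t1'
  rw [sum_side s₁ (innerTc m s₂ (supLaw L)), innerTc_false, innerTc_true,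
    sum_side s₁ (fun b => innerTc m s₂ (supLaw L) (!b)), Bool.not_false, Bool.not_true,
    innerTc_false, innerTc_true] at t2
  rw [sum_side s₁ (innerTc m s₂ (supLaw L)), innerTc_false, innerTc_true] at t1
  rw [sum_side s₁ (fun b => innerTc m s₂ (supLaw L) (!b)), Bool.not_false, Bool.not_true,
    innerTc_false, innerTc_true] at t1'
  have i1 := inf_supLaw m s₂ L
  have b00 := hL.bound
  have b10 := hL.bound_fst
  have b01 := hL.bound_snd
  have b11 := hL.bound_both
  have c00 := hK.bound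
  have c10 := hK.bound_fst
  have c01 := hK.bound_snd
  have c11 := hK.bound_both
  have hc := card_side s₁
  have ha0 : (0 : ℝ) ≤ (univ.filter fun v => s₁ v = false).card := by positivity
  have hb0 : (0 : ℝ) ≤ (univ.filter fun v => s₁ v = true).card := by positivity
  have he0 : (0 : ℝ) ≤ E₁.card := by positivity
  rw [i1, hc] at c00 c10 c01 c11
  have hcard : (((prodEdges E₁ s₁ E₂ s₂).card : ℕ) : ℝ)
      = E₁.card * Fintype.card V₂ + ((univ.filter fun v => s₁ v = false).card +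
        (univ.filter fun v => s₁ v = true).card) * E₂.card := by
    rw [card_prodEdges h2.1, ← hc]
    push_cast
    ring
  have hcard' : (Fintype.card (V₁ × V₂) : ℝ) = ((univ.filter fun v => s₁ v = false).card +
        (univ.filter fun v => s₁ v = true).card) * Fintype.card V₂ := by
    rw [Fintype.card_prod, ← hc]
    push_cast
    ring
  refine ⟨K', ?_, ?_, ?_, ?_, ?_, ?_, ?_, ?_, ?_, ?_⟩
  · exact fun z z' => hK.nonneg _ _
  · exact (sum2 K).trans hK.total
  · rintro ⟨v, w⟩ hvw F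
    refine (sum2 fun Z Z' => K Z Z' * F (Z v w) (Z' v w)).trans ?_
    simp only at hvw
    cases hv : s₁ v
    · rw [hK.rung_false v hv fun x y => F (x w) (y w)]
      exact hL.rung_false w (by simpa [hv] using hvw) F
    · rw [hK.rung_true v hv fun x y => F (y w) (x w)]
      exact hL.rung_true w (by simpa [hv] using hvw) F
  · rintro ⟨v, w⟩ hvw F
    refine (sum2 fun Z Z' => K Z Z' * F (Z' v w) (Z v w)).trans ?_
    simp only at hvw
    cases hv : s₁ v
    · rw [hK.rung_false v hv fun x y => F (y w) (x w)]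
      exact hL.rung_true w (by simpa [hv] using hvw) F
    · rw [hK.rung_true v hv fun x y => F (x w) (y w)]
      exact hL.rung_false w (by simpa [hv] using hvw) F
  · intro e he F
    refine (sum2 fun Z Z' => K Z Z' * F (Z e.1.1 e.1.2) (Z e.2.1 e.2.2)).trans ?_
    exact edge_transfer hL (fun G => ∑ Z, ∑ Z', K Z Z' * G Z)
      (fun v F => (sum_fstLaw fun Z => F (Z v)).symm.trans (hf v F)) hK.edge_fst he F
  · intro e he F
    refine (sum2 fun Z Z' => K Z Z' * F (Z' e.2.1 e.2.2) (Z' e.1.1 e.1.2)).trans ?_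
    exact edge_transfer' hL (fun G => ∑ Z, ∑ Z', K Z Z' * G Z')
      (fun v F => (sum_sndLaw fun Z => F (Z v)).symm.trans (hg v F)) hK.edge_snd he F
  all_goals
    try rw [e1]
    try rw [e2]
    try rw [t1]
    try rw [t1']
    rw [t2]
    try rw [hcard]
    rw [hcard']
    generalize tc2 m s₂ L = T at *
    generalize tc m s₂ (fstLaw L) = t at *
    generalize tc m (fun v => !s₂ v) (sndLaw L) = t' at *
    generalize tc2 (supLaw L) s₁ K = T' at *
    generalize tc (supLaw L) s₁ (fstLaw K) = r at *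
    generalize tc (supLaw L) (fun v => !s₁ v) (sndLaw K) = r' at *
    generalize inf m π = I at *
    generalize ((univ.filter fun v => s₁ v = false).card : ℝ) = a at *
    generalize ((univ.filter fun v => s₁ v = true).card : ℝ) = b at *
    generalize (E₁.card : ℝ) = e at *
    generalize (E₂.card : ℝ) = e' at *
    generalize (Fintype.card V₂ : ℝ) = n at *
    have k1 := mul_le_mul_of_nonneg_left b00 (add_nonneg ha0 hb0)
    have k2 := mul_le_mul_of_nonneg_left b11 he0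
    have k3 := mul_le_mul_of_nonneg_left b10 ha0
    have k4 := mul_le_mul_of_nonneg_left b01 hb0
    have k5 := mul_le_mul_of_nonneg_left b10 hb0
    have k6 := mul_le_mul_of_nonneg_left b01 ha0
    have k7 := mul_le_mul_of_nonneg_left b11 (add_nonneg ha0 hb0)
    nlinarith

end main

section graphs

variable {V₁ V₂ : Type} [Fintype V₁] [DecidableEq V₁] [Fintype V₂] [DecidableEq V₂]

/-- the Cartesian product of a graph with the two-sided Sidorenko inequality, without isolated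
vertices, and a graph with good prisms -/
theorem gsid_boxProd (G : SimpleGraph V₁) (H : SimpleGraph V₂) (s₁ : V₁ → Bool) (s₂ : V₂ → Bool)
    (hG : GSid G s₁) (hiso : ∀ v, ∃ w, G.Adj v w) (hs : ∀ u v, H.Adj u v → s₂ u ≠ s₂ v)
    (hH : Prism (sideEdges H s₂) s₂) :
    GSid (G □ H) (fun p => xor (s₁ p.1) (s₂ p.2)) := by
  refine ⟨?_, ?_⟩
  · rintro ⟨a, b⟩ ⟨c, d⟩ h
    rcases SimpleGraph.boxProd_adj.1 h with ⟨h1, h2⟩ | ⟨h1, h2⟩
    · simp only at h1 h2 ⊢
      subst h2
      intro h3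
      exact hG.1 _ _ h1 (by simpa using h3)
    · simp only at h1 h2 ⊢
      subst h2
      intro h3
      exact hs _ _ h1 (by simpa using h3)
  · rw [sideEdges_boxProd G H hG.1 hs]
    refine KSid.cart hG.2 ?_ hH
    intro v
    obtain ⟨w, hw⟩ := hiso v
    have h1 := hG.1 v w hw
    cases hv : s₁ v
    · cases hw' : s₁ w
      · exact absurd (hv.trans hw'.symm) h1
      · exact ⟨(v, w), by simp [sideEdges, hw, hv, hw'], Or.inl rfl⟩
    · cases hw' : s₁ w
      · exact ⟨(w, v), by simp [sideEdges, hw.symm, hv, hw'], Or.inr rfl⟩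
      · exact absurd (hv.trans hw'.symm) h1

end graphs

end Vale.Agent.P050.Cart
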