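import Vale.Agent.P050.Lev.Glue
import Vale.Agent.P050.Cart.Product

/-!
Gluing prism laws.
-/

set_option linter.unusedSectionVars false

namespace Vale.Agent.P050.Cart

open Finset Vale.Agent.P050.Lev

section weights

variable {V X : Type} [Fintype V] [DecidableEq V] [Fintype X]

/-- total correlation with logarithmic weights -/
noncomputable def tcw (w : V → X → ℝ) (ν : (V → X) → ℝ) : ℝ :=
  ∑ z, ν z * (Real.log (ν z) - ∑ v, w v (z v))

end weights

section glue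

variable {S L R X : Type} [Fintype S] [DecidableEq S] [Fintype L] [DecidableEq L] [Fintype R]
  [DecidableEq R] [Fintype X] {ν₁ : (S ⊕ L → X) → ℝ} {ν₂ : (S ⊕ R → X) → ℝ}

theorem tcw_glue (h₁ : ∀ z, 0 ≤ ν₁ z) (h₂ : ∀ z, 0 ≤ ν₂ z)
    (hm : ∀ s, smarg ν₁ s = smarg ν₂ s) (w : S ⊕ (L ⊕ R) → X → ℝ) :
    tcw w (glueLaw ν₁ ν₂) = tcw (fun v => w (gl v)) ν₁ + tcw (fun v => w (gr v)) ν₂ -
      tcw (fun v => w (Sum.inl v)) (smarg ν₁) := by
  have h : ∀ z : S ⊕ (L ⊕ R) → X, glueLaw ν₁ ν₂ z * (Real.log (glueLaw ν₁ ν₂ z) -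
      ∑ v, w v (z v)) =
      glueLaw ν₁ ν₂ z * (Real.log (ν₁ (z ∘ gl)) - ∑ v, w (gl v) ((z ∘ gl) v)) +
      glueLaw ν₁ ν₂ z * (Real.log (ν₂ (z ∘ gr)) - ∑ v, w (gr v) ((z ∘ gr) v)) -
      glueLaw ν₁ ν₂ z * ((fun z' : S ⊕ L → X => Real.log (smarg ν₁ (z' ∘ Sum.inl)) -
        ∑ v, w (Sum.inl v) ((z' ∘ Sum.inl) v)) (z ∘ gl)) := by
    intro z
    have h3 : (z ∘ gl) ∘ Sum.inl = z ∘ Sum.inl := rfl
    rw [mul_sub, mul_log_glue]
    simp only [h3, Fintype.sum_sum_type]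
    simp only [gl, gr, Function.comp, Sum.map_inl, Sum.map_inr, id]
    ring
  rw [tcw, Finset.sum_congr rfl fun z _ => h z, Finset.sum_sub_distrib, Finset.sum_add_distrib]
  have e1 := sum_glue_left h₁ hm fun z => Real.log (ν₁ z) - ∑ v, w (gl v) (z v)
  have e2 := sum_glue_right h₂ hm fun z => Real.log (ν₂ z) - ∑ v, w (gr v) (z v)
  have e3 := sum_glue_left h₁ hm fun z' : S ⊕ L → X => Real.log (smarg ν₁ (z' ∘ Sum.inl)) -
    ∑ v, w (Sum.inl v) ((z' ∘ Sum.inl) v)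
  have e4 := sum_smarg ν₁ fun s => Real.log (smarg ν₁ s) - ∑ v, w (Sum.inl v) (s v)
  exact congrArg₂ (· - ·) (congrArg₂ (· + ·) e1 e2) (e3.trans e4)

/-- submodularity -/
theorem tcw_submod {ρ : (S ⊕ (L ⊕ R) → X) → ℝ} (h₀ : ∀ z, 0 ≤ ρ z) (hs : ∑ z, ρ z = 1)
    (h₁ : ∀ z, 0 ≤ ν₁ z) (h₂ : ∀ z, 0 ≤ ν₂ z)
    (hl : ∀ F : (S ⊕ L → X) → ℝ, ∑ z, ρ z * F (z ∘ gl) = ∑ z, ν₁ z * F z)
    (hr : ∀ F : (S ⊕ R → X) → ℝ, ∑ z, ρ z * F (z ∘ gr) = ∑ z, ν₂ z * F z)
    (w : S ⊕ (L ⊕ R) → X → ℝ) :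
    tcw (fun v => w (gl v)) ν₁ + tcw (fun v => w (gr v)) ν₂ -
      tcw (fun v => w (Sum.inl v)) (smarg ν₁) ≤ tcw w ρ := by
  classical
  have hm : ∀ s, smarg ν₁ s = smarg ν₂ s := by
    intro s
    rw [smarg_apply, smarg_apply]
    rw [← hl fun z => if z ∘ Sum.inl = s then 1 else 0, ← hr fun z => if z ∘ Sum.inl = s then 1
      else 0]
    rfl
  have hz1 : ∀ z, ν₁ (z ∘ gl) = 0 → ρ z = 0 := by
    intro z hz
    have h := hl fun z' => if z' = z ∘ gl then 1 else 0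
    simp only [mul_ite, mul_one, mul_zero, Finset.sum_ite_eq', Finset.mem_univ, if_true, hz] at h
    have h3 := (Finset.sum_eq_zero_iff_of_nonneg fun z' _ => by
      split_ifs
      · exact h₀ z'
      · exact le_rfl).1 h z (mem_univ z)
    simpa using h3
  have hz2 : ∀ z, ν₂ (z ∘ gr) = 0 → ρ z = 0 := by
    intro z hz
    have h := hr fun z' => if z' = z ∘ gr then 1 else 0
    simp only [mul_ite, mul_one, mul_zero, Finset.sum_ite_eq', Finset.mem_univ, if_true, hz] at h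
    have h3 := (Finset.sum_eq_zero_iff_of_nonneg fun z' _ => by
      split_ifs
      · exact h₀ z'
      · exact le_rfl).1 h z (mem_univ z)
    simpa using h3
  have hz : ∀ z, glueLaw ν₁ ν₂ z = 0 → ρ z = 0 := by
    intro z hz
    rw [glueLaw] at hz
    rcases div_eq_zero_iff.1 hz with h | h
    · rcases mul_eq_zero.1 h with h | h
      · exact hz1 z h
      · exact hz2 z h
    · refine hz1 z ?_
      have h3 : z ∘ gl = Sum.elim (z ∘ Sum.inl) ((z ∘ gl) ∘ Sum.inr) := by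
        funext v
        rcases v with v | v <;> rfl
      rw [h3]
      exact eq_zero_of_smarg h₁ h _
  have hg1 : ∑ z, glueLaw ν₁ ν₂ z = 1 := by
    have h := sum_glue_left h₁ hm fun _ => 1
    have h' := hl fun _ => 1
    simp only [mul_one] at h h'
    rw [h, ← h', hs]
  have hg := gibbs' (p := ρ) (q := glueLaw ν₁ ν₂) h₀ (glueLaw_nonneg h₁ h₂) hz hs hg1.le
  have h : ∀ z : S ⊕ (L ⊕ R) → X, ρ z * (Real.log (glueLaw ν₁ ν₂ z) - ∑ v, w v (z v)) =
      ρ z * (Real.log (ν₁ (z ∘ gl)) - ∑ v, w (gl v) ((z ∘ gl) v)) +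
      ρ z * (Real.log (ν₂ (z ∘ gr)) - ∑ v, w (gr v) ((z ∘ gr) v)) -
      ρ z * ((fun z' : S ⊕ L → X => Real.log (smarg ν₁ (z' ∘ Sum.inl)) -
        ∑ v, w (Sum.inl v) ((z' ∘ Sum.inl) v)) (z ∘ gl)) := by
    intro z
    by_cases h0 : ρ z = 0
    · rw [h0]; ring
    have h3 : (z ∘ gl) ∘ Sum.inl = z ∘ Sum.inl := rfl
    have h4 : glueLaw ν₁ ν₂ z ≠ 0 := fun h => h0 (hz z h)
    have h5 : Real.log (glueLaw ν₁ ν₂ z) = Real.log (ν₁ (z ∘ gl)) + Real.log (ν₂ (z ∘ gr)) -
        Real.log (smarg ν₁ (z ∘ Sum.inl)) :=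
      mul_left_cancel₀ h4 (mul_log_glue z)
    rw [h5]
    simp only [h3, Fintype.sum_sum_type]
    simp only [gl, gr, Function.comp, Sum.map_inl, Sum.map_inr, id]
    ring
  have e0 : ∑ z, ρ z * (Real.log (glueLaw ν₁ ν₂ z) - ∑ v, w v (z v)) =
      tcw (fun v => w (gl v)) ν₁ + tcw (fun v => w (gr v)) ν₂ -
      tcw (fun v => w (Sum.inl v)) (smarg ν₁) := by
    rw [Finset.sum_congr rfl fun z _ => h z, Finset.sum_sub_distrib, Finset.sum_add_distrib]
    have e1 := hl fun z => Real.log (ν₁ z) - ∑ v, w (gl v) (z v)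
    have e2 := hr fun z => Real.log (ν₂ z) - ∑ v, w (gr v) (z v)
    have e3 := hl fun z' : S ⊕ L → X => Real.log (smarg ν₁ (z' ∘ Sum.inl)) -
      ∑ v, w (Sum.inl v) ((z' ∘ Sum.inl) v)
    have e4 := sum_smarg ν₁ fun s => Real.log (smarg ν₁ s) - ∑ v, w (Sum.inl v) (s v)
    exact congrArg₂ (· - ·) (congrArg₂ (· + ·) e1 e2) (e3.trans e4)
  rw [← e0, tcw]
  simp_rw [mul_sub, Finset.sum_sub_distrib]
  linarith

end glue

section pairs

variable {V U : Type} [Fintype V] [DecidableEq V] [Fintype U]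

/-- a joint law of two maps as a law of one map into pairs -/
def pairLaw (K : (V → U) → (V → U) → ℝ) (z : V → U × U) : ℝ :=
  K (fun v => (z v).1) (fun v => (z v).2)

theorem sum_pair (F : (V → U × U) → ℝ) :
    ∑ z, F z = ∑ f : V → U, ∑ g : V → U, F (fun v => (f v, g v)) := by
  rw [← Equiv.sum_comp (Equiv.arrowProdEquivProdArrow V (fun _ => U) (fun _ => U)).symm,
    Fintype.sum_prod_type]
  rfl

theorem sum_pairLaw (K : (V → U) → (V → U) → ℝ) (F : (V → U) → (V → U) → ℝ) :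
    ∑ z, pairLaw K z * F (fun v => (z v).1) (fun v => (z v).2) = ∑ f, ∑ g, K f g * F f g := by
  rw [sum_pair]
  rfl

theorem tc2_eq (m : Bool → U → ℝ) (s : V → Bool) (K : (V → U) → (V → U) → ℝ) :
    tc2 m s K = tcw (fun v p => Real.log (m (s v) p.1) + Real.log (m (!s v) p.2)) (pairLaw K) := by
  unfold tcw tc2
  rw [sum_pair]
  refine Finset.sum_congr rfl fun f _ => Finset.sum_congr rfl fun g _ => ?_
  rw [Finset.sum_add_distrib]
  have h : pairLaw K (fun v => (f v, g v)) = K f g := rfl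
  rw [h]
  ring

end pairs

section gluePrism

variable {S L R U : Type} [Fintype S] [DecidableEq S] [Fintype L] [DecidableEq L] [Fintype R]
  [DecidableEq R] [Fintype U]

/-- glue two joint laws with the same marginal on `S` -/
noncomputable def glueK (K₁ : (S ⊕ L → U) → (S ⊕ L → U) → ℝ) (K₂ : (S ⊕ R → U) → (S ⊕ R → U) → ℝ)
    (f g : S ⊕ (L ⊕ R) → U) : ℝ :=
  glueLaw (pairLaw K₁) (pairLaw K₂) (fun v => (f v, g v))

variable {K₁ : (S ⊕ L → U) → (S ⊕ L → U) → ℝ} {K₂ : (S ⊕ R → U) → (S ⊕ R → U) → ℝ}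

theorem pairLaw_glueK : pairLaw (glueK K₁ K₂) = glueLaw (pairLaw K₁) (pairLaw K₂) := rfl

theorem sum_glueK_left (h₁ : ∀ f g, 0 ≤ K₁ f g)
    (hm : ∀ s, smarg (pairLaw K₁) s = smarg (pairLaw K₂) s)
    (F : (S ⊕ L → U) → (S ⊕ L → U) → ℝ) :
    ∑ f, ∑ g, glueK K₁ K₂ f g * F (f ∘ gl) (g ∘ gl) = ∑ f, ∑ g, K₁ f g * F f g := by
  rw [← sum_pairLaw K₁ F, ← sum_glue_left (ν₁ := pairLaw K₁) (ν₂ := pairLaw K₂)
    (fun _ => h₁ _ _) hm fun z => F (fun v => (z v).1) (fun v => (z v).2), sum_pair]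
  rfl

theorem sum_glueK_right (h₂ : ∀ f g, 0 ≤ K₂ f g)
    (hm : ∀ s, smarg (pairLaw K₁) s = smarg (pairLaw K₂) s)
    (F : (S ⊕ R → U) → (S ⊕ R → U) → ℝ) :
    ∑ f, ∑ g, glueK K₁ K₂ f g * F (f ∘ gr) (g ∘ gr) = ∑ f, ∑ g, K₂ f g * F f g := by
  rw [← sum_pairLaw K₂ F, ← sum_glue_right (ν₁ := pairLaw K₁) (ν₂ := pairLaw K₂)
    (fun _ => h₂ _ _) hm fun z => F (fun v => (z v).1) (fun v => (z v).2), sum_pair]
  rfl

theorem glueK_nonneg (h₁ : ∀ f g, 0 ≤ K₁ f g) (h₂ : ∀ f g, 0 ≤ K₂ f g) (f g) :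
    0 ≤ glueK K₁ K₂ f g := glueLaw_nonneg (fun _ => h₁ _ _) (fun _ => h₂ _ _) _

theorem glueK_total (h₁ : ∀ f g, 0 ≤ K₁ f g) (ht : ∑ f, ∑ g, K₁ f g = 1)
    (hm : ∀ s, smarg (pairLaw K₁) s = smarg (pairLaw K₂) s) :
    ∑ f, ∑ g, glueK K₁ K₂ f g = 1 := by
  have h := sum_glueK_left h₁ hm fun _ _ => 1
  simp only [mul_one] at h
  rw [h, ht]

/-- total correlation of the glued law -/
theorem tc2_glueK (h₁ : ∀ f g, 0 ≤ K₁ f g) (h₂ : ∀ f g, 0 ≤ K₂ f g)
    (hm : ∀ s, smarg (pairLaw K₁) s = smarg (pairLaw K₂) s) (m : Bool → U → ℝ)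
    (σ : S ⊕ (L ⊕ R) → Bool) :
    tc2 m σ (glueK K₁ K₂) = tc2 m (fun v => σ (gl v)) K₁ + tc2 m (fun v => σ (gr v)) K₂
      - tcw (fun v (p : U × U) => Real.log (m (σ (Sum.inl v)) p.1)
        + Real.log (m (!σ (Sum.inl v)) p.2)) (smarg (pairLaw K₁)) := by
  rw [tc2_eq, tc2_eq, tc2_eq, pairLaw_glueK, tcw_glue (ν₁ := pairLaw K₁) (ν₂ := pairLaw K₂)
    (fun _ => h₁ _ _) (fun _ => h₂ _ _) hm]

/-- the first marginal on `S` -/
theorem tc_fst_glueK (h₁ : ∀ f g, 0 ≤ K₁ f g) (h₂ : ∀ f g, 0 ≤ K₂ f g)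
    (ht : ∑ f, ∑ g, K₁ f g = 1) (hm : ∀ s, smarg (pairLaw K₁) s = smarg (pairLaw K₂) s)
    (m : Bool → U → ℝ) (σ : S ⊕ (L ⊕ R) → Bool) :
    tc m (fun v => σ (gl v)) (fstLaw K₁) + tc m (fun v => σ (gr v)) (fstLaw K₂)
      - tc m (fun v => σ (Sum.inl v)) (smarg (fstLaw K₁)) ≤ tc m σ (fstLaw (glueK K₁ K₂)) := by
  refine tcw_submod (ρ := fstLaw (glueK K₁ K₂)) (ν₁ := fstLaw K₁) (ν₂ := fstLaw K₂)
    (fstLaw_nonneg (glueK_nonneg h₁ h₂)) (glueK_total h₁ ht hm) (fstLaw_nonneg h₁)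
    (fstLaw_nonneg h₂) (fun F => ?_) (fun F => ?_) (fun v x => Real.log (m (σ v) x))
  · rw [sum_fstLaw F, sum_fstLaw fun z => F (z ∘ gl)]
    exact sum_glueK_left h₁ hm fun f _ => F f
  · rw [sum_fstLaw F, sum_fstLaw fun z => F (z ∘ gr)]
    exact sum_glueK_right h₂ hm fun f _ => F f

theorem tc_snd_glueK (h₁ : ∀ f g, 0 ≤ K₁ f g) (h₂ : ∀ f g, 0 ≤ K₂ f g)
    (ht : ∑ f, ∑ g, K₁ f g = 1) (hm : ∀ s, smarg (pairLaw K₁) s = smarg (pairLaw K₂) s)
    (m : Bool → U → ℝ) (σ : S ⊕ (L ⊕ R) → Bool) :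
    tc m (fun v => !σ (gl v)) (sndLaw K₁) + tc m (fun v => !σ (gr v)) (sndLaw K₂)
      - tc m (fun v => !σ (Sum.inl v)) (smarg (sndLaw K₁))
        ≤ tc m (fun v => !σ v) (sndLaw (glueK K₁ K₂)) := by
  refine tcw_submod (ρ := sndLaw (glueK K₁ K₂)) (ν₁ := sndLaw K₁) (ν₂ := sndLaw K₂)
    (sndLaw_nonneg (glueK_nonneg h₁ h₂)) ?_ (sndLaw_nonneg h₁)
    (sndLaw_nonneg h₂) (fun F => ?_) (fun F => ?_) (fun v x => Real.log (m (!σ v) x))
  · have := glueK_total h₁ ht hm
    rw [Finset.sum_comm] at this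
    exact this
  · rw [sum_sndLaw F, sum_sndLaw fun z => F (z ∘ gl)]
    exact sum_glueK_left h₁ hm fun _ g => F g
  · rw [sum_sndLaw F, sum_sndLaw fun z => F (z ∘ gr)]
    exact sum_glueK_right h₂ hm fun _ g => F g

end gluePrism

section single

variable {S T U : Type} [Fintype S] [DecidableEq S] [Fintype T] [DecidableEq T] [Fintype U]
  {E : Finset ((S ⊕ T) × (S ⊕ T))} {σ : S ⊕ T → Bool} {m : Bool → U → ℝ} {π : U → U → ℝ}
  {K : (S ⊕ T → U) → (S ⊕ T → U) → ℝ}

theorem smarg_pairLaw (K : (S ⊕ T → U) → (S ⊕ T → U) → ℝ) (G : (S → U × U) → ℝ) :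
    ∑ s, smarg (pairLaw K) s * G s
      = ∑ f, ∑ g, K f g * G (fun v => (f (Sum.inl v), g (Sum.inl v))) := by
  rw [← sum_smarg, sum_pair]
  rfl

/-- the law of the rung at a single vertex -/
theorem smarg_rung [Subsingleton S] (hK : PrismLaw E σ m π K) (u : S) (s : S → U × U) :
    smarg (pairLaw K) s = if σ (Sum.inl u) = false then π (s u).1 (s u).2
      else π (s u).2 (s u).1 := by
  classical
  rw [smarg_apply, sum_pair]
  have h1 : ∀ f g : S ⊕ T → U, (if (fun v => (f v, g v)) ∘ Sum.inl = s then (1 : ℝ) else 0)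
      = if f (Sum.inl u) = (s u).1 ∧ g (Sum.inl u) = (s u).2 then 1 else 0 := by
    intro f g
    congr 1
    refine propext ⟨fun h => ?_, fun h => funext fun v => ?_⟩
    · have := congrFun h u
      exact ⟨congrArg Prod.fst this, congrArg Prod.snd this⟩
    · rw [Subsingleton.elim v u]
      exact Prod.ext h.1 h.2
  simp only [h1]
  split_ifs with h
  · refine (hK.rung_false _ h fun x y => if x = (s u).1 ∧ y = (s u).2 then 1 else 0).trans ?_
    rw [Finset.sum_eq_single (s u).1, Finset.sum_eq_single (s u).2]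
    · simp
    · intro y _ hy
      rw [if_neg fun h => hy h.2, mul_zero]
    · intro h; exact absurd (Finset.mem_univ _) h
    · intro x _ hx
      exact Finset.sum_eq_zero fun y _ => by rw [if_neg fun h => hx h.1, mul_zero]
    · intro h; exact absurd (Finset.mem_univ _) h
  · have h' : σ (Sum.inl u) = true := by
      cases h2 : σ (Sum.inl u)
      · exact absurd h2 h
      · rfl
    refine (hK.rung_true _ h' fun x y => if y = (s u).1 ∧ x = (s u).2 then 1 else 0).trans ?_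
    rw [Finset.sum_eq_single (s u).2, Finset.sum_eq_single (s u).1]
    · simp
    · intro y _ hy
      rw [if_neg fun h => hy h.1, mul_zero]
    · intro h; exact absurd (Finset.mem_univ _) h
    · intro x _ hx
      exact Finset.sum_eq_zero fun y _ => by rw [if_neg fun h => hx h.2, mul_zero]
    · intro h; exact absurd (Finset.mem_univ _) h

theorem smarg_of_isEmpty [IsEmpty S] {X : Type} [Fintype X] (ν : (S ⊕ T → X) → ℝ)
    (ht : ∑ z, ν z = 1) (s : S → X) : smarg ν s = 1 := by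
  classical
  rw [smarg_apply, Finset.sum_congr rfl fun z _ => by
    rw [if_pos (Subsingleton.elim _ _), mul_one], ht]

theorem tcw_isEmpty [IsEmpty S] {X : Type} [Fintype X] (w : S → X → ℝ) (ν : (S → X) → ℝ)
    (h : ∀ s, ν s = 1) : tcw w ν = 0 := by
  simp [tcw, h]

theorem tc2_rung [Subsingleton S] (hK : PrismLaw E σ m π K) :
    tcw (fun v (p : U × U) => Real.log (m (σ (Sum.inl v)) p.1)
        + Real.log (m (!σ (Sum.inl v)) p.2)) (smarg (pairLaw K))
      = Fintype.card S * inf m π := by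
  classical
  rcases isEmpty_or_nonempty S with hS | ⟨⟨u⟩⟩
  · rw [tcw_isEmpty _ _ (smarg_of_isEmpty _ ?_)]
    · simp
    · rw [sum_pair]
      exact hK.total
  · have hc : Fintype.card S = 1 := Fintype.card_eq_one_iff.2 ⟨u, fun v => Subsingleton.elim v u⟩
    rw [hc, Nat.cast_one, one_mul]
    let _ : Unique S := ⟨⟨u⟩, fun v => Subsingleton.elim v u⟩
    unfold tcw
    rw [← Equiv.sum_comp (Equiv.funUnique S (U × U)).symm, Fintype.sum_prod_type]
    unfold inf
    cases h : σ (Sum.inl u)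
    · refine Finset.sum_congr rfl fun x _ => Finset.sum_congr rfl fun y _ => ?_
      rw [smarg_rung hK u, Fintype.sum_unique]
      have h2 : σ (Sum.inl (default : S)) = false := h
      simp only [h, h2, if_true, Equiv.funUnique_symm_apply, uniqueElim_const, Bool.not_false]
      ring
    · rw [Finset.sum_comm]
      refine Finset.sum_congr rfl fun x _ => Finset.sum_congr rfl fun y _ => ?_
      rw [smarg_rung hK u, Fintype.sum_unique]
      have h2 : σ (Sum.inl (default : S)) = true := h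
      simp only [h, h2, Bool.true_eq_false, if_false, Equiv.funUnique_symm_apply,
        uniqueElim_const, Bool.not_true]
      ring

theorem tc_single [Subsingleton S] (w : S → Bool) (ν : (S ⊕ T → U) → ℝ) (ht : ∑ z, ν z = 1)
    (hv : ∀ (v : S) (F : U → ℝ), ∑ z, ν z * F (z (Sum.inl v)) = ∑ x, m (w v) x * F x) :
    tc m w (smarg ν) = 0 := by
  classical
  rcases isEmpty_or_nonempty S with hS | ⟨⟨u⟩⟩
  · exact tcw_isEmpty (fun v x => Real.log (m (w v) x)) _ (smarg_of_isEmpty _ ht)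
  · refine Finset.sum_eq_zero fun s _ => ?_
    have h1 : smarg ν s = m (w u) (s u) := by
      rw [smarg_apply]
      have h := hv u fun x => if x = s u then 1 else 0
      rw [show ∑ x, m (w u) x * (if x = s u then (1 : ℝ) else 0) = m (w u) (s u) by simp] at h
      rw [← h]
      refine Finset.sum_congr rfl fun z _ => ?_
      congr 2
      refine propext ⟨fun h => congrFun h u, fun h => funext fun v => ?_⟩
      rw [Subsingleton.elim v u]
      exact h
    let _ : Unique S := ⟨⟨u⟩, fun v => Subsingleton.elim v u⟩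
    rw [Fintype.sum_unique, h1]
    have h2 : (default : S) = u := rfl
    rw [h2, sub_self, mul_zero]

end single

section rule

variable {S L R : Type} [Fintype S] [DecidableEq S] [Fintype L] [DecidableEq L] [Fintype R]
  [DecidableEq R] {E₁ : Finset ((S ⊕ L) × (S ⊕ L))} {E₂ : Finset ((S ⊕ R) × (S ⊕ R))}
  {σ : S ⊕ (L ⊕ R) → Bool}

theorem glueEdges_side (h₁ : ∀ e ∈ E₁, σ (gl e.1) = false ∧ σ (gl e.2) = true)
    (h₂ : ∀ e ∈ E₂, σ (gr e.1) = false ∧ σ (gr e.2) = true) :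
    ∀ e ∈ glueEdges E₁ E₂, σ e.1 = false ∧ σ e.2 = true := by
  intro e he
  rcases Finset.mem_union.1 he with he | he
  · obtain ⟨e', he', rfl⟩ := Finset.mem_image.1 he
    exact h₁ e' he'
  · obtain ⟨e', he', rfl⟩ := Finset.mem_image.1 he
    exact h₂ e' he'

theorem card_glueEdges [Subsingleton S]
    (h₁ : ∀ e ∈ E₁, σ (gl e.1) = false ∧ σ (gl e.2) = true) :
    (glueEdges E₁ E₂).card = E₁.card + E₂.card := by
  rw [glueEdges, Finset.card_union_of_disjoint, Finset.card_image_of_injective,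
    Finset.card_image_of_injective]
  · exact gr_injective.prodMap gr_injective
  · exact gl_injective.prodMap gl_injective
  · rw [Finset.disjoint_left]
    intro e he he'
    obtain ⟨⟨a, b⟩, hab, rfl⟩ := Finset.mem_image.1 he
    obtain ⟨⟨c, d⟩, -, h⟩ := Finset.mem_image.1 he'
    have h3 := h₁ _ hab
    simp only [Prod.map_apply, Prod.mk.injEq] at h
    rcases a with a | a <;> rcases b with b | b <;> rcases c with c | c <;>
      rcases d with d | d <;> simp [gl, gr] at h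
    rw [Subsingleton.elim a b, h3.2] at h3
    exact absurd h3.1 (by simp)

/-- **Gluing rule.** Good prisms pass to disjoint unions and to graphs glued at one vertex. -/
theorem Prism.glue [Subsingleton S] (h1 : Prism E₁ fun v => σ (gl v))
    (h2 : Prism E₂ fun v => σ (gr v)) : Prism (glueEdges E₁ E₂) σ := by
  classical
  refine ⟨glueEdges_side h1.1 h2.1, fun U _ m π hm hm1 hπ m1 m2 => ?_⟩
  obtain ⟨K₁, hK₁⟩ := h1.2 U m π hm hm1 hπ m1 m2
  obtain ⟨K₂, hK₂⟩ := h2.2 U m π hm hm1 hπ m1 m2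
  have hsm : ∀ s, smarg (pairLaw K₁) s = smarg (pairLaw K₂) s := by
    intro s
    rcases isEmpty_or_nonempty S with hS | ⟨⟨u⟩⟩
    · rw [smarg_of_isEmpty, smarg_of_isEmpty]
      · rw [sum_pair]; exact hK₂.total
      · rw [sum_pair]; exact hK₁.total
    · rw [smarg_rung hK₁ u, smarg_rung hK₂ u]
      rfl
  have q2 := tc2_glueK hK₁.nonneg hK₂.nonneg hsm m σ
  have q1 := tc_fst_glueK hK₁.nonneg hK₂.nonneg hK₁.total hsm m σ
  have q1' := tc_snd_glueK hK₁.nonneg hK₂.nonneg hK₁.total hsm m σ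
  have r2 := tc2_rung hK₁
  have r1 : tc m (fun v => σ (Sum.inl v)) (smarg (fstLaw K₁)) = 0 :=
    tc_single _ _ hK₁.total fun v F => hK₁.vertex_fst m1 m2 (Sum.inl v) F
  have r1' : tc m (fun v => !σ (Sum.inl v)) (smarg (sndLaw K₁)) = 0 :=
    tc_single _ _ (by have := hK₁.total; rw [Finset.sum_comm] at this; exact this)
      fun v F => hK₁.vertex_snd m1 m2 (Sum.inl v) F
  simp only [gl, gr, Sum.map_inl, id] at q2 q1 q1' r2
  have hcE : (((glueEdges E₁ E₂).card : ℕ) : ℝ) = E₁.card + E₂.card := by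
    rw [card_glueEdges h1.1]
    push_cast
    ring
  have hcV : (Fintype.card (S ⊕ (L ⊕ R)) : ℝ) = Fintype.card S + Fintype.card L +
      Fintype.card R := by
    rw [Fintype.card_sum, Fintype.card_sum]
    push_cast
    ring
  have hcL : (Fintype.card (S ⊕ L) : ℝ) = Fintype.card S + Fintype.card L := by
    rw [Fintype.card_sum]
    push_cast
    ring
  have hcR : (Fintype.card (S ⊕ R) : ℝ) = Fintype.card S + Fintype.card R := by
    rw [Fintype.card_sum]
    push_cast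
    ring
  have a00 := hK₁.bound
  have a10 := hK₁.bound_fst
  have a01 := hK₁.bound_snd
  have a11 := hK₁.bound_both
  have b00 := hK₂.bound
  have b10 := hK₂.bound_fst
  have b01 := hK₂.bound_snd
  have b11 := hK₂.bound_both
  simp only [gl, gr, hcL, hcR] at a00 a10 a01 a11 b00 b10 b01 b11
  refine ⟨glueK K₁ K₂, glueK_nonneg hK₁.nonneg hK₂.nonneg,
    glueK_total hK₁.nonneg hK₁.total hsm, ?_, ?_, ?_, ?_, ?_, ?_, ?_, ?_⟩
  · rintro (v | v | v) hv F
    · exact (sum_glueK_left hK₁.nonneg hsm fun f g => F (f (Sum.inl v)) (g (Sum.inl v))).trans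
        (hK₁.rung_false (Sum.inl v) hv F)
    · exact (sum_glueK_left hK₁.nonneg hsm fun f g => F (f (Sum.inr v)) (g (Sum.inr v))).trans
        (hK₁.rung_false (Sum.inr v) hv F)
    · exact (sum_glueK_right hK₂.nonneg hsm fun f g => F (f (Sum.inr v)) (g (Sum.inr v))).trans
        (hK₂.rung_false (Sum.inr v) hv F)
  · rintro (v | v | v) hv F
    · exact (sum_glueK_left hK₁.nonneg hsm fun f g => F (g (Sum.inl v)) (f (Sum.inl v))).trans
        (hK₁.rung_true (Sum.inl v) hv F)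
    · exact (sum_glueK_left hK₁.nonneg hsm fun f g => F (g (Sum.inr v)) (f (Sum.inr v))).trans
        (hK₁.rung_true (Sum.inr v) hv F)
    · exact (sum_glueK_right hK₂.nonneg hsm fun f g => F (g (Sum.inr v)) (f (Sum.inr v))).trans
        (hK₂.rung_true (Sum.inr v) hv F)
  · intro e he F
    rcases Finset.mem_union.1 he with he | he
    · obtain ⟨e', he', rfl⟩ := Finset.mem_image.1 he
      exact (sum_glueK_left hK₁.nonneg hsm fun f _ => F (f e'.1) (f e'.2)).trans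
        (hK₁.edge_fst e' he' F)
    · obtain ⟨e', he', rfl⟩ := Finset.mem_image.1 he
      exact (sum_glueK_right hK₂.nonneg hsm fun f _ => F (f e'.1) (f e'.2)).trans
        (hK₂.edge_fst e' he' F)
  · intro e he F
    rcases Finset.mem_union.1 he with he | he
    · obtain ⟨e', he', rfl⟩ := Finset.mem_image.1 he
      exact (sum_glueK_left hK₁.nonneg hsm fun _ g => F (g e'.2) (g e'.1)).trans
        (hK₁.edge_snd e' he' F)
    · obtain ⟨e', he', rfl⟩ := Finset.mem_image.1 he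
      exact (sum_glueK_right hK₂.nonneg hsm fun _ g => F (g e'.2) (g e'.1)).trans
        (hK₂.edge_snd e' he' F)
  · rw [hcE, hcV, q2, r2]
    linarith
  · rw [hcE, hcV, q2, r2]
    linarith
  · rw [hcE, hcV, q2, r2]
    linarith
  · rw [hcV, q2, r2]
    linarith

end rule

section transport

/-- relabelling -/
theorem Prism.transport {V V' : Type} [Fintype V] [DecidableEq V] [Fintype V'] [DecidableEq V']
    (φ : V ≃ V') {E : Finset (V × V)} {s : V → Bool} (h : Prism E s)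
    {E' : Finset (V' × V')} {s' : V' → Bool} (hE : ∀ a b, (φ a, φ b) ∈ E' ↔ (a, b) ∈ E)
    (hs : ∀ a, s' (φ a) = s a) : Prism E' s' := by
  have hEE : E' = E.image (Prod.map φ φ) := by
    ext ⟨u, v⟩
    obtain ⟨a, rfl⟩ := φ.surjective u
    obtain ⟨b, rfl⟩ := φ.surjective v
    rw [hE, Finset.mem_image]
    constructor
    · exact fun h => ⟨(a, b), h, rfl⟩
    · rintro ⟨⟨c, d⟩, h, h'⟩
      simp only [Prod.map_apply, Prod.mk.injEq, EmbeddingLike.apply_eq_iff_eq] at h'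
      rw [← h'.1, ← h'.2]
      exact h
  have hcE : E'.card = E.card := by
    rw [hEE, Finset.card_image_of_injective _ (φ.injective.prodMap φ.injective)]
  have hcV : Fintype.card V' = Fintype.card V := (Fintype.card_congr φ).symm
  refine ⟨?_, fun U _ m π hm hm1 hπ m1 m2 => ?_⟩
  · rintro ⟨u, v⟩ he
    obtain ⟨a, rfl⟩ := φ.surjective u
    obtain ⟨b, rfl⟩ := φ.surjective v
    rw [hE] at he
    simp only [hs]
    exact h.1 _ he
  obtain ⟨K, hK⟩ := h.2 U m π hm hm1 hπ m1 m2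
  let ψ : (V → U) ≃ (V' → U) := φ.arrowCongr (Equiv.refl U)
  have hψ : ∀ (z : V → U) (a : V), ψ z (φ a) = z a := by
    intro z a; simp [ψ, Equiv.arrowCongr]
  have hψ' : ∀ z : V → U, ψ z ∘ φ = z := fun z => funext fun a => hψ z a
  have hsum : ∀ F : (V' → U) → ℝ, ∑ z, F z = ∑ z, F (ψ z) := fun F =>
    (Equiv.sum_comp ψ F).symm
  set K' : (V' → U) → (V' → U) → ℝ := fun f g => K (f ∘ φ) (g ∘ φ) with hK'
  have hsum2 : ∀ G : (V' → U) → (V' → U) → ℝ,
      ∑ f, ∑ g, K' f g * G f g = ∑ f, ∑ g, K f g * G (ψ f) (ψ g) := by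
    intro G
    rw [hsum]
    refine Finset.sum_congr rfl fun f _ => ?_
    rw [hsum]
    refine Finset.sum_congr rfl fun g _ => ?_
    simp only [hK', hψ']
  have e2 : tc2 m s' K' = tc2 m s K := by
    unfold tc2
    rw [hsum2]
    refine Finset.sum_congr rfl fun f _ => Finset.sum_congr rfl fun g _ => ?_
    simp only [hK', hψ']
    rw [← Equiv.sum_comp φ fun v => Real.log (m (s' v) (ψ f v)),
      ← Equiv.sum_comp φ fun v => Real.log (m (!s' v) (ψ g v))]
    simp only [hψ, hs]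
  have e3 : ∀ f, fstLaw K' (ψ f) = fstLaw K f := by
    intro f
    simp only [fstLaw]
    rw [hsum]
    simp only [hK', hψ']
  have e4 : ∀ f, sndLaw K' (ψ f) = sndLaw K f := by
    intro f
    simp only [sndLaw]
    rw [hsum]
    simp only [hK', hψ']
  have e5 : tc m s' (fstLaw K') = tc m s (fstLaw K) := by
    unfold tc
    rw [hsum]
    refine Finset.sum_congr rfl fun f _ => ?_
    rw [e3, ← Equiv.sum_comp φ fun v => Real.log (m (s' v) (ψ f v))]
    simp only [hψ, hs]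
  have e6 : tc m (fun v => !s' v) (sndLaw K') = tc m (fun v => !s v) (sndLaw K) := by
    unfold tc
    rw [hsum]
    refine Finset.sum_congr rfl fun f _ => ?_
    rw [e4, ← Equiv.sum_comp φ fun v => Real.log (m (!s' v) (ψ f v))]
    simp only [hψ, hs]
  refine ⟨K', fun f g => hK.nonneg _ _, ?_, ?_, ?_, ?_, ?_, ?_, ?_, ?_, ?_⟩
  · have := hsum2 fun _ _ => 1
    simp only [mul_one] at this
    rw [this, hK.total]
  · intro v hv F
    obtain ⟨a, rfl⟩ := φ.surjective v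
    rw [hsum2 fun f g => F (f (φ a)) (g (φ a))]
    simp only [hψ]
    exact hK.rung_false a ((hs a).symm.trans hv) F
  · intro v hv F
    obtain ⟨a, rfl⟩ := φ.surjective v
    rw [hsum2 fun f g => F (g (φ a)) (f (φ a))]
    simp only [hψ]
    exact hK.rung_true a ((hs a).symm.trans hv) F
  · rintro ⟨u, v⟩ he F
    obtain ⟨a, rfl⟩ := φ.surjective u
    obtain ⟨b, rfl⟩ := φ.surjective v
    rw [hsum2 fun f _ => F (f (φ a)) (f (φ b))]
    simp only [hψ]
    exact hK.edge_fst (a, b) ((hE a b).1 he) F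
  · rintro ⟨u, v⟩ he F
    obtain ⟨a, rfl⟩ := φ.surjective u
    obtain ⟨b, rfl⟩ := φ.surjective v
    rw [hsum2 fun _ g => F (g (φ b)) (g (φ a))]
    simp only [hψ]
    exact hK.edge_snd (a, b) ((hE a b).1 he) F
  · rw [e2, hcE, hcV]; exact hK.bound
  · rw [e2, e5, hcE, hcV]; exact hK.bound_fst
  · rw [e2, e6, hcE, hcV]; exact hK.bound_snd
  · rw [e2, e5, e6, hcV]; exact hK.bound_both

end transport

end Vale.Agent.P050.Cart
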