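import Vale.Agent.P050.Cart.Three

/-!
Complete bipartite graphs with a side of three vertices have good prisms.
-/

set_option linter.unusedSectionVars false

namespace Vale.Agent.P050.Cart

open Finset

section law

variable {V U : Type} [Fintype V] [DecidableEq V] [Fintype U] {m : Bool → U → ℝ}
  {π : U → U → ℝ} (h : Base m π) {s : V → Bool} {E : Finset (V × V)} {μ : (V → U × U) → ℝ}

include h

theorem rows_tc2 (hv : ∀ v, mar μ (fun z => z v) = rho π (s v)) : tc2 m s (rows μ) =
    Fintype.card V * (hm m false + hm m true) - ent μ (fun z => z) := by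
  have hcv : ∑ v, hm m (s v) + ∑ v, hm m (!s v) =
      Fintype.card V * (hm m false + hm m true) := by
    rw [← Finset.sum_add_distrib]
    have : ∀ v, hm m (s v) + hm m (!s v) = hm m false + hm m true := by
      intro v
      cases s v
      · rfl
      · exact add_comm _ _
    simp_rw [this]
    rw [Finset.sum_const, Finset.card_univ, nsmul_eq_mul]
  unfold tc2
  rw [sum_rows μ fun f g => (Real.log (rows μ f g) - ∑ v, Real.log (m (s v) (f v))
    - ∑ v, Real.log (m (!s v) (g v)))]
  have e : ∀ z : V → U × U, rows μ (fun v => (z v).1) (fun v => (z v).2) = μ z := fun z => rfl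
  simp_rw [e, mul_sub, Finset.sum_sub_distrib]
  rw [sum_log_fst h hv, sum_log_snd h hv, ent_id']
  linarith

theorem rows_tc_fst (hv : ∀ v, mar μ (fun z => z v) = rho π (s v)) :
    tc m s (fstLaw (rows μ)) = ∑ v, hm m (s v) - ent μ (fun z v => (z v).1) := by
  unfold tc
  rw [rows_fst, sum_mar μ (fun z v => (z v).1) (fun f => Real.log (mar μ (fun z v => (z v).1) f) -
    ∑ v, Real.log (m (s v) (f v)))]
  simp_rw [mul_sub, Finset.sum_sub_distrib]
  rw [sum_log_fst h hv, ent_eq]
  ring

theorem rows_tc_snd (hv : ∀ v, mar μ (fun z => z v) = rho π (s v)) :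
    tc m (fun v => !s v) (sndLaw (rows μ)) =
      ∑ v, hm m (!s v) - ent μ (fun z v => (z v).2) := by
  unfold tc
  rw [rows_snd, sum_mar μ (fun z v => (z v).2) (fun f => Real.log (mar μ (fun z v => (z v).2) f) -
    ∑ v, Real.log (m (!s v) (f v)))]
  simp_rw [mul_sub, Finset.sum_sub_distrib]
  rw [sum_log_snd h hv, ent_eq]
  ring

/-- a law of rungs as a prism law -/
theorem prismLaw_rows (hn : ∀ z, 0 ≤ μ z) (ht : ∑ z, μ z = 1)
    (hv : ∀ v, mar μ (fun z => z v) = rho π (s v))
    (ef : ∀ e ∈ E, mar μ (fun z => ((z e.1).1, (z e.2).1)) = rho π false)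
    (es : ∀ e ∈ E, mar μ (fun z => ((z e.2).2, (z e.1).2)) = rho π false)
    (b00 : tc2 m s (rows μ) ≤ (2 * E.card + Fintype.card V) * inf m π)
    (b10 : tc2 m s (rows μ) - tc m s (fstLaw (rows μ)) ≤ (E.card + Fintype.card V) * inf m π)
    (b01 : tc2 m s (rows μ) - tc m (fun v => !s v) (sndLaw (rows μ)) ≤
      (E.card + Fintype.card V) * inf m π)
    (b11 : tc2 m s (rows μ) - tc m s (fstLaw (rows μ)) -
      tc m (fun v => !s v) (sndLaw (rows μ)) ≤ Fintype.card V * inf m π) :
    PrismLaw E s m π (rows μ) := by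
  refine
    { nonneg := fun f g => hn _
      total := ?_
      rung_false := ?_
      rung_true := ?_
      edge_fst := ?_
      edge_snd := ?_
      bound := b00
      bound_fst := b10
      bound_snd := b01
      bound_both := b11 }
  · have := sum_rows μ fun _ _ => 1
    simp only [mul_one] at this
    rw [this, ht]
  · intro v hv' F
    rw [sum_rows μ fun f g => F (f v) (g v)]
    have e := sum_mar μ (fun z => z v) (fun a => F a.1 a.2)
    rw [← e, hv, hv', Fintype.sum_prod_type]
    rfl
  · intro v hv' F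
    rw [sum_rows μ fun f g => F (g v) (f v)]
    have e := sum_mar μ (fun z => z v) (fun a => F a.2 a.1)
    rw [← e, hv, hv', Fintype.sum_prod_type, Finset.sum_comm]
    rfl
  · intro e he F
    rw [sum_rows μ fun f _ => F (f e.1) (f e.2)]
    have e1 := sum_mar μ (fun z => ((z e.1).1, (z e.2).1)) (fun a => F a.1 a.2)
    rw [← e1, ef e he, Fintype.sum_prod_type]
    rfl
  · intro e he F
    rw [sum_rows μ fun _ g => F (g e.2) (g e.1)]
    have e1 := sum_mar μ (fun z => ((z e.2).2, (z e.1).2)) (fun a => F a.1 a.2)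
    rw [← e1, es e he, Fintype.sum_prod_type]
    rfl

end law

section marginal

variable {S T X : Type} [Fintype S] [DecidableEq S] [Fintype T] [DecidableEq T] [Fintype X]

theorem smarg_eq (ν : (S ⊕ T → X) → ℝ) : Lev.smarg ν = mar ν (fun z => z ∘ Sum.inl) := by
  classical
  funext a
  have e := Lev.sum_smarg ν fun b => if b = a then 1 else 0
  simp only [mul_ite, mul_one, mul_zero, Finset.sum_ite_eq', Finset.mem_univ, if_true] at e
  rw [← e]
  unfold mar
  refine Finset.sum_congr rfl fun z _ => ?_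
  by_cases c : z ∘ Sum.inl = a
  · rw [if_pos c, if_pos c]
  · rw [if_neg c, if_neg c]

variable {U : Type} [Fintype U] (μ : (S ⊕ T → U × U) → ℝ)

theorem smarg_rows : Lev.smarg (pairLaw (rows μ)) =
    pairLaw (rows (mar μ (fun z => z ∘ Sum.inl))) := by
  have e : pairLaw (rows μ) = μ := rfl
  have e2 : pairLaw (rows (mar μ (fun z => z ∘ Sum.inl))) = mar μ (fun z => z ∘ Sum.inl) := rfl
  rw [e, e2, smarg_eq]

theorem smarg_rows_fst : Lev.smarg (fstLaw (rows μ)) =
    fstLaw (rows (mar μ (fun z => z ∘ Sum.inl))) := by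
  rw [rows_fst, rows_fst, smarg_eq]
  funext a
  rw [mar_mar, mar_mar]
  rfl

theorem smarg_rows_snd : Lev.smarg (sndLaw (rows μ)) =
    sndLaw (rows (mar μ (fun z => z ∘ Sum.inl))) := by
  rw [rows_snd, rows_snd, smarg_eq]
  funext a
  rw [mar_mar, mar_mar]
  rfl

end marginal

section three

variable {U : Type} [Fintype U] {m : Bool → U → ℝ} {π : U → U → ℝ}

/-- the rungs of the star -/
def vec (ω : (U × U) × (U × U) × (U × U) × (U × U)) : Fin 3 ⊕ Unit → U × U :=
  Sum.elim (fun i => if i = 0 then ω.2.1 else if i = 1 then ω.2.2.1 else ω.2.2.2) fun _ => ω.1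

/-- the edges of the star -/
def starEdges : Finset ((Fin 3 ⊕ Unit) × (Fin 3 ⊕ Unit)) :=
  univ.image fun i : Fin 3 => (Sum.inl i, Sum.inr ())

/-- the sides of the star -/
def starSide : Fin 3 ⊕ Unit → Bool := Sum.elim (fun _ => false) fun _ => true

theorem card_starEdges : starEdges.card = 3 := by decide

theorem vec_congr (ω ω' : (U × U) × (U × U) × (U × U) × (U × U)) {Y : Type} (F : U × U → Y) :
    ((fun v => F (vec ω v)) = fun v => F (vec ω' v)) ↔
      F ω.2.1 = F ω'.2.1 ∧ F ω.2.2.1 = F ω'.2.2.1 ∧ F ω.2.2.2 = F ω'.2.2.2 ∧ F ω.1 = F ω'.1 := by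
  constructor
  · intro hh
    exact ⟨congrFun hh (Sum.inl 0), congrFun hh (Sum.inl 1), congrFun hh (Sum.inl 2),
      congrFun hh (Sum.inr ())⟩
  · rintro ⟨h1, h2, h3, h4⟩
    funext v
    rcases v with v | v
    · fin_cases v
      · exact h1
      · exact h2
      · exact h3
    · exact h4

theorem vec_congr' (ω ω' : (U × U) × (U × U) × (U × U) × (U × U)) {Y : Type} (F : U × U → Y) :
    ((fun v : Fin 3 => F (vec ω (Sum.inl v))) = fun v => F (vec ω' (Sum.inl v))) ↔
      F ω.2.1 = F ω'.2.1 ∧ F ω.2.2.1 = F ω'.2.2.1 ∧ F ω.2.2.2 = F ω'.2.2.2 := by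
  constructor
  · intro hh
    exact ⟨congrFun hh 0, congrFun hh 1, congrFun hh 2⟩
  · rintro ⟨h1, h2, h3⟩
    funext v
    fin_cases v
    · exact h1
    · exact h2
    · exact h3

variable (h : Base m π)
include h

/-- the laws of the edges of the star -/
theorem starP_edge : (mar (starP m π) (fun ω => (ω.2.1.1, ω.1.1)) = rho π false ∧
    mar (starP m π) (fun ω => (ω.2.2.1.1, ω.1.1)) = rho π false ∧
    mar (starP m π) (fun ω => (ω.2.2.2.1, ω.1.1)) = rho π false) ∧
    mar (starP m π) (fun ω => (ω.1.2, ω.2.1.2)) = rho π false ∧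
    mar (starP m π) (fun ω => (ω.1.2, ω.2.2.1.2)) = rho π false ∧
    mar (starP m π) (fun ω => (ω.1.2, ω.2.2.2.2)) = rho π false := by
  have c1 : ∀ (m : Bool → U → ℝ) (π : U → U → ℝ), Base m π →
      mar (chP m π false 1) (fun p => (p.1.1, p.2.1)) = rho π false := by
    intro m π h
    funext ⟨x, y⟩
    rw [st_row1 h]
    rfl
  have c2 : ∀ (m : Bool → U → ℝ) (π : U → U → ℝ), Base m π →
      mar (chP m π false 1) (fun p => (p.2.2, p.1.2)) = rho π false := by
    intro m π h
    funext ⟨x, y⟩
    rw [tau_vu h]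
    rfl
  refine ⟨⟨?_, ?_, ?_⟩, ?_, ?_, ?_⟩
  · rw [← c1 m π h, ← starP_1 h]
    funext z
    rw [mar_mar]
  · rw [← c1 m π h, ← starP_2 h]
    funext z
    rw [mar_mar]
  · have e := c2 _ _ h.op
    rw [← starP_3 h] at e
    funext ⟨x, y⟩
    have e2 := congrFun e (y, x)
    rw [mar_mar] at e2
    have e3 : mar (starP m π) (fun ω => (ω.1.1, ω.2.2.2.1)) (y, x) =
        mar (starP m π) (fun ω => (ω.2.2.2.1, ω.1.1)) (x, y) :=
      mar_inj (starP m π) (fun ω => (ω.2.2.2.1, ω.1.1)) (e := fun p : U × U => (p.2, p.1))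
        (fun x y hxy => by
          simp only [Prod.mk.injEq] at hxy
          exact Prod.ext hxy.2 hxy.1) (x, y)
    rw [← e3]
    exact e2
  · rw [← c2 m π h, ← starP_1 h]
    funext z
    rw [mar_mar]
  · rw [← c2 m π h, ← starP_2 h]
    funext z
    rw [mar_mar]
  · have e := c1 _ _ h.op
    rw [← starP_3 h] at e
    funext ⟨x, y⟩
    have e2 := congrFun e (y, x)
    rw [mar_mar] at e2
    have e3 : mar (starP m π) (fun ω => (ω.2.2.2.2, ω.1.2)) (y, x) =
        mar (starP m π) (fun ω => (ω.1.2, ω.2.2.2.2)) (x, y) :=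
      mar_inj (starP m π) (fun ω => (ω.1.2, ω.2.2.2.2)) (e := fun p : U × U => (p.2, p.1))
        (fun x y hxy => by
          simp only [Prod.mk.injEq] at hxy
          exact Prod.ext hxy.2 hxy.1) (x, y)
    rw [← e3]
    exact e2

/-- the law of the star as a law of rungs -/
theorem vec_vertex (v : Fin 3 ⊕ Unit) :
    mar (mar (starP m π) vec) (fun z => z v) = rho π (starSide v) := by
  obtain ⟨v1, v2, v3⟩ := starP_vertex h
  have e : mar (mar (starP m π) vec) (fun z => z v) = mar (starP m π) (fun ω => vec ω v) := by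
    funext z
    rw [mar_mar]
  rw [e]
  rcases v with v | v
  · fin_cases v
    · exact v1
    · exact v2
    · exact v3
  · exact starP_0 h

/-- the quantities of the star law -/
theorem star_values :
    tc2 m starSide (rows (mar (starP m π) vec)) =
      10 * ii m π - 2 * jj m π - jj (mo m) (po π) ∧
    3 * ii m π ≤ tc m starSide (fstLaw (rows (mar (starP m π) vec))) ∧
    3 * ii m π ≤ tc m (fun v => !starSide v) (sndLaw (rows (mar (starP m π) vec))) := by
  have hv := vec_vertex h
  have e1 : ent (mar (starP m π) vec) (fun z => z) = ent (starP m π) (fun ω => ω) := by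
    rw [ent_mar]
    exact ent_fib fun ω ω' => by
      have := vec_congr ω ω' (fun z => z)
      refine Iff.trans this ?_
      simp only [Prod.ext_iff]
      tauto
  have e2 : ent (mar (starP m π) vec) (fun z v => (z v).1) =
      ent (starP m π) (fun ω => (ω.2.1.1, ω.2.2.1.1, ω.2.2.2.1, ω.1.1)) := by
    rw [ent_mar]
    exact ent_fib fun ω ω' => by
      have := vec_congr ω ω' (fun z => z.1)
      refine Iff.trans this ?_
      simp only [Prod.mk.injEq]
  have e3 : ent (mar (starP m π) vec) (fun z v => (z v).2) =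
      ent (starP m π) (fun ω => (ω.2.1.2, ω.2.2.1.2, ω.2.2.2.2, ω.1.2)) := by
    rw [ent_mar]
    exact ent_fib fun ω ω' => by
      have := vec_congr ω ω' (fun z => z.2)
      refine Iff.trans this ?_
      simp only [Prod.mk.injEq]
  have c : (Fintype.card (Fin 3 ⊕ Unit) : ℝ) = 4 := by
    norm_num
  have s1 : ∑ v, hm m (starSide v) = 3 * hm m false + hm m true := by
    simp [starSide]
  have s2 : ∑ v, hm m (!starSide v) = 3 * hm m true + hm m false := by
    simp [starSide]
  have e7 : ii m π = hm m false + hm m true - hr π := rfl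
  refine ⟨?_, ?_, ?_⟩
  · rw [rows_tc2 h hv, e1, starP_all h, c]
    linarith
  · rw [rows_tc_fst h hv, e2, s1]
    have := starP_fst h
    linarith
  · rw [rows_tc_snd h hv, e3, s2]
    have := starP_snd h
    linarith

/-- the prism law of the star -/
theorem star_prismLaw : PrismLaw starEdges starSide m π (rows (mar (starP m π) vec)) := by
  obtain ⟨a1, a2, a3⟩ := star_values h
  have j1 := jj_nonneg h
  have j2 := jj_nonneg h.op
  have c : (Fintype.card (Fin 3 ⊕ Unit) : ℝ) = 4 := by
    norm_num
  obtain ⟨⟨f1, f2, f3⟩, g1, g2, g3⟩ := starP_edge h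
  refine prismLaw_rows h (fun z => mar_nonneg (starP_nonneg h) _ _) ?_ (vec_vertex h) ?_ ?_
    ?_ ?_ ?_ ?_
  · rw [mar_total, starP_total h]
  · intro e he
    simp only [starEdges, Finset.mem_image, Finset.mem_univ, true_and] at he
    obtain ⟨i, rfl⟩ := he
    have e : mar (mar (starP m π) vec) (fun z => ((z (Sum.inl i)).1, (z (Sum.inr ())).1)) =
        mar (starP m π) (fun ω => ((vec ω (Sum.inl i)).1, (vec ω (Sum.inr ())).1)) := by
      funext z
      rw [mar_mar]
    refine e.trans ?_
    fin_cases i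
    · exact f1
    · exact f2
    · exact f3
  · intro e he
    simp only [starEdges, Finset.mem_image, Finset.mem_univ, true_and] at he
    obtain ⟨i, rfl⟩ := he
    have e : mar (mar (starP m π) vec) (fun z => ((z (Sum.inr ())).2, (z (Sum.inl i)).2)) =
        mar (starP m π) (fun ω => ((vec ω (Sum.inr ())).2, (vec ω (Sum.inl i)).2)) := by
      funext z
      rw [mar_mar]
    refine e.trans ?_
    fin_cases i
    · exact g1
    · exact g2
    · exact g3
  all_goals
    try rw [card_starEdges]
    rw [c, inf_eq h]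
    push_cast
    linarith

/-- the quantities of the three leaves -/
theorem leaf_values :
    tc2 m (fun _ : Fin 3 => false) (rows (mar (mar (starP m π) vec) fun z => z ∘ Sum.inl)) =
      3 * (hm m false + hm m true) - ent (starP m π) (fun ω => (ω.2.1, ω.2.2.1, ω.2.2.2)) ∧
    tc m (fun _ : Fin 3 => false)
        (fstLaw (rows (mar (mar (starP m π) vec) fun z => z ∘ Sum.inl))) =
      3 * hm m false - ent (starP m π) (fun ω => (ω.2.1.1, ω.2.2.1.1, ω.2.2.2.1)) ∧
    tc m (fun _ : Fin 3 => !false)
        (sndLaw (rows (mar (mar (starP m π) vec) fun z => z ∘ Sum.inl))) =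
      3 * hm m true - ent (starP m π) (fun ω => (ω.2.1.2, ω.2.2.1.2, ω.2.2.2.2)) := by
  have hv : ∀ v : Fin 3, mar (mar (mar (starP m π) vec) fun z => z ∘ Sum.inl) (fun z => z v) =
      rho π false := by
    intro v
    refine Eq.trans ?_ (vec_vertex h (Sum.inl v))
    funext z
    rw [mar_mar]
    rfl
  have e1 : ent (mar (mar (starP m π) vec) fun z => z ∘ Sum.inl) (fun z => z) =
      ent (starP m π) (fun ω => (ω.2.1, ω.2.2.1, ω.2.2.2)) := by
    rw [ent_mar, ent_mar]
    exact ent_fib fun ω ω' => by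
      have := vec_congr' ω ω' (fun z => z)
      refine Iff.trans this ?_
      simp only [Prod.mk.injEq]
  have e2 : ent (mar (mar (starP m π) vec) fun z => z ∘ Sum.inl) (fun z v => (z v).1) =
      ent (starP m π) (fun ω => (ω.2.1.1, ω.2.2.1.1, ω.2.2.2.1)) := by
    rw [ent_mar, ent_mar]
    exact ent_fib fun ω ω' => by
      have := vec_congr' ω ω' (fun z => z.1)
      refine Iff.trans this ?_
      simp only [Prod.mk.injEq]
  have e3 : ent (mar (mar (starP m π) vec) fun z => z ∘ Sum.inl) (fun z v => (z v).2) =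
      ent (starP m π) (fun ω => (ω.2.1.2, ω.2.2.1.2, ω.2.2.2.2)) := by
    rw [ent_mar, ent_mar]
    exact ent_fib fun ω ω' => by
      have := vec_congr' ω ω' (fun z => z.2)
      refine Iff.trans this ?_
      simp only [Prod.mk.injEq]
  refine ⟨?_, ?_, ?_⟩
  · rw [rows_tc2 h (s := fun _ => false) hv, e1]
    simp
  · rw [rows_tc_fst h (s := fun _ => false) hv, e2]
    simp
  · rw [rows_tc_snd h (s := fun _ => false) hv, e3]
    simp

/-- copies of the star, amalgamated over the leaves -/
theorem star_amal {ι : Type} [Fintype ι] [DecidableEq ι] [Nonempty ι] :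
    PrismLaw (Lev.amalEdges ι starEdges) (amalFun ι starSide) m π
      (amalK (rows (mar (starP m π) vec))) := by
  obtain ⟨a1, a2, a3⟩ := star_values h
  obtain ⟨l1, l2, l3⟩ := leaf_values h
  have j1 := jj_nonneg h
  have j2 := jj_nonneg h.op
  obtain ⟨d1, d2⟩ := starP_dp h
  have hpos := starP_pos h
  have hmain := starP_main h
  have e7 : ii m π = hm m false + hm m true - hr π := rfl
  have r1 : tcw (fun (v : Fin 3) (p : U × U) => Real.log (m (starSide (Sum.inl v)) p.1)
        + Real.log (m (!starSide (Sum.inl v)) p.2))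
        (Lev.smarg (pairLaw (rows (mar (starP m π) vec)))) =
      3 * (hm m false + hm m true) - ent (starP m π) (fun ω => (ω.2.1, ω.2.2.1, ω.2.2.2)) := by
    rw [smarg_rows, ← l1, tc2_eq]
    rfl
  have r2 : tc m (fun v : Fin 3 => starSide (Sum.inl v))
        (Lev.smarg (fstLaw (rows (mar (starP m π) vec)))) =
      3 * hm m false - ent (starP m π) (fun ω => (ω.2.1.1, ω.2.2.1.1, ω.2.2.2.1)) := by
    rw [smarg_rows_fst, ← l2]
    rfl
  have r3 : tc m (fun v : Fin 3 => !starSide (Sum.inl v))
        (Lev.smarg (sndLaw (rows (mar (starP m π) vec)))) =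
      3 * hm m true - ent (starP m π) (fun ω => (ω.2.1.2, ω.2.2.1.2, ω.2.2.2.2)) := by
    rw [smarg_rows_snd, ← l3]
    rfl
  have c3 : (Fintype.card (Fin 3) : ℝ) = 3 := by simp
  have c1 : (Fintype.card Unit : ℝ) = 1 := by simp
  refine PrismLaw.amal (star_prismLaw h) ?_ ?_ ?_ ?_ ?_
  · intro e he
    simp only [starEdges, Finset.mem_image, Finset.mem_univ, true_and] at he
    obtain ⟨i, rfl⟩ := he
    exact Or.inr rfl
  · rw [r1, r2, c3, inf_eq h]
    linarith
  · rw [r1, r3, c3, inf_eq h]
    linarith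
  · rw [r2]
    linarith
  · rw [r1, r2, r3, c1, inf_eq h]
    linarith

end three

/-- the sides of a complete bipartite graph -/
def kSide {α β : Type} : α ⊕ β → Bool := Sum.elim (fun _ => false) fun _ => true

/-- **Complete bipartite graphs with a side of three vertices have good prisms.** -/
theorem prism_three (ι : Type) [Fintype ι] [DecidableEq ι] [Nonempty ι] :
    Prism (Lev.sideEdges (completeBipartiteGraph (Fin 3) ι) kSide) kSide := by
  have hp : Prism (Lev.amalEdges ι starEdges) (amalFun ι starSide) := by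
    refine ⟨?_, ?_⟩
    · intro e he
      simp only [Lev.amalEdges, starEdges, Finset.mem_biUnion, Finset.mem_univ, true_and,
        Finset.mem_image] at he
      obtain ⟨i, e', ⟨a, rfl⟩, rfl⟩ := he
      exact ⟨rfl, rfl⟩
    · intro U _ m π m0 m1 pi0 row col
      exact ⟨_, star_amal (ι := ι) { m0 := m0, m1 := m1, pi0 := pi0, row := row, col := col }⟩
  refine hp.transport (Equiv.sumCongr (Equiv.refl _) (Equiv.prodPUnit ι)) ?_ ?_
  · intro a b
    unfold Lev.sideEdges Lev.amalEdges starEdges
    simp only [Finset.mem_filter, Finset.mem_univ, true_and, Finset.mem_biUnion,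
      Finset.mem_image]
    constructor
    · rintro ⟨h1, h2, h3⟩
      rcases a with a | a
      · rcases b with b | b
        · simp [kSide] at h3
        · exact ⟨b.1, (Sum.inl a, Sum.inr ()), ⟨a, rfl⟩, rfl⟩
      · simp [kSide] at h2
    · rintro ⟨i, e, ⟨j, rfl⟩, he⟩
      simp only [Prod.mk.injEq] at he
      obtain ⟨rfl, rfl⟩ := he
      simp [kSide, Lev.inc]
  · intro a
    rcases a with a | a <;> rfl

end Vale.Agent.P050.Cart
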