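import Vale.Agent.P050.Cart.FactorDefs
import Vale.Agent.P050.Cart.GrownPrism
import Vale.Agent.P050.Cart.Product
import Vale.Agent.P050.Cart.PrismGlue
import Vale.Agent.P050.Cart.ThreePrism
import Vale.Agent.P050.Cart.Flip
import Vale.Agent.P050.Cart.FactorEx

/-!
Each member of the class `Factor` has good prisms.
-/

namespace Vale.Agent.P050.Cart

open Finset Vale.Agent.P050.Lev

/-- good prisms, for all choices of the instances -/
def Fac {V : Type} (H : SimpleGraph V) (s : V → Bool) : Prop :=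
  (∀ u v, H.Adj u v → s u ≠ s v) ∧ ∀ (_ : Fintype V) (_ : DecidableEq V), Prism (sideEdges H s) s

theorem Prism.irrel {V : Type} {i1 j1 : Fintype V} {i2 j2 : DecidableEq V} {H : SimpleGraph V}
    {s : V → Bool} (h : @Prism V i1 i2 (@sideEdges V i1 H s) s) :
    @Prism V j1 j2 (@sideEdges V j1 H s) s := by
  cases Subsingleton.elim i1 j1
  cases Subsingleton.elim i2 j2
  exact h

theorem Fac.iso {V W : Type} {G : SimpleGraph V} {H : SimpleGraph W} {s : V → Bool}
    {t : W → Bool} (φ : G ≃g H) (hφ : ∀ v, t (φ v) = s v) (hG : Fac G s) : Fac H t := by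
  refine ⟨?_, ?_⟩
  · intro u v huv
    obtain ⟨a, rfl⟩ := φ.surjective u
    obtain ⟨b, rfl⟩ := φ.surjective v
    rw [hφ, hφ]
    exact hG.1 a b (φ.map_adj_iff.1 huv)
  · intro i1 i2
    let _ : Fintype V := Fintype.ofEquiv W φ.toEquiv.symm
    let _ : DecidableEq V := Classical.decEq V
    refine (hG.2 inferInstance inferInstance).transport φ.toEquiv ?_ hφ
    intro a b
    simp only [sideEdges, mem_filter, mem_univ, true_and]
    have h1 : t (φ.toEquiv a) = s a := hφ a
    have h2 : t (φ.toEquiv b) = s b := hφ b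
    rw [h1, h2]
    have h3 : H.Adj (φ.toEquiv a) (φ.toEquiv b) ↔ G.Adj a b := φ.map_adj_iff
    rw [h3]

theorem Fac.prod {V W : Type} [Finite V] [Finite W] {G : SimpleGraph V} {H : SimpleGraph W}
    {s : V → Bool} {t : W → Bool} (hG : Fac G s) (hH : Fac H t) :
    Fac (G □ H) fun p => xor (s p.1) (t p.2) := by
  refine ⟨?_, ?_⟩
  · rintro ⟨a, b⟩ ⟨c, d⟩ h
    rcases SimpleGraph.boxProd_adj.1 h with ⟨h1, h2⟩ | ⟨h1, h2⟩
    · simp only at h1 h2 ⊢
      subst h2
      intro h3
      exact hG.1 _ _ h1 (by simpa using h3)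
    · simp only at h1 h2 ⊢
      subst h2
      intro h3
      exact hH.1 _ _ h1 (by simpa using h3)
  · intro i1 i2
    let _ : Fintype V := Fintype.ofFinite V
    let _ : Fintype W := Fintype.ofFinite W
    let _ : DecidableEq V := Classical.decEq V
    let _ : DecidableEq W := Classical.decEq W
    have h := (hG.2 inferInstance inferInstance).prod (hH.2 inferInstance inferInstance)
    rw [← sideEdges_boxProd G H hG.1 hH.1] at h
    exact h.irrel

section glue

variable {V : Type} [Finite V] {H : SimpleGraph V} {s : V → Bool}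

theorem Fac.glue (A B : Set V) (hAB : ∀ v, v ∈ A ∨ v ∈ B) (hsub : (A ∩ B).Subsingleton)
    (hadj : ∀ u v, H.Adj u v → (u ∈ A ∧ v ∈ A) ∨ (u ∈ B ∧ v ∈ B))
    (hA : Fac (H.induce A) fun v => s v) (hB : Fac (H.induce B) fun v => s v) : Fac H s := by
  classical
  let S := {v : V // v ∈ A ∧ v ∈ B}
  let L := {v : V // v ∈ A ∧ v ∉ B}
  let R := {v : V // v ∈ B ∧ v ∉ A}
  have hSs : Subsingleton S := ⟨fun a b => Subtype.ext (hsub a.2 b.2)⟩
  let _ : Fintype V := Fintype.ofFinite V
  let iA : S ⊕ L → A := Sum.elim (fun x => ⟨x.1, x.2.1⟩) fun x => ⟨x.1, x.2.1⟩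
  let iB : S ⊕ R → B := Sum.elim (fun x => ⟨x.1, x.2.2⟩) fun x => ⟨x.1, x.2.1⟩
  let iV : S ⊕ (L ⊕ R) → V := Sum.elim (fun x => x.1) (Sum.elim (fun x => x.1) fun x => x.1)
  have bA : Function.Bijective iA := by
    constructor
    · rintro (⟨x, hx⟩ | ⟨x, hx⟩) (⟨y, hy⟩ | ⟨y, hy⟩) h
      · simp only [iA, Sum.elim_inl, Subtype.mk.injEq] at h
        subst h; rfl
      · simp only [iA, Sum.elim_inl, Sum.elim_inr, Subtype.mk.injEq] at h
        subst h; exact absurd hx.2 hy.2
      · simp only [iA, Sum.elim_inl, Sum.elim_inr, Subtype.mk.injEq] at h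
        subst h; exact absurd hy.2 hx.2
      · simp only [iA, Sum.elim_inr, Subtype.mk.injEq] at h
        subst h; rfl
    · rintro ⟨x, hx⟩
      by_cases h : x ∈ B
      · exact ⟨Sum.inl ⟨x, hx, h⟩, rfl⟩
      · exact ⟨Sum.inr ⟨x, hx, h⟩, rfl⟩
  have bB : Function.Bijective iB := by
    constructor
    · rintro (⟨x, hx⟩ | ⟨x, hx⟩) (⟨y, hy⟩ | ⟨y, hy⟩) h
      · simp only [iB, Sum.elim_inl, Subtype.mk.injEq] at h
        subst h; rfl
      · simp only [iB, Sum.elim_inl, Sum.elim_inr, Subtype.mk.injEq] at h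
        subst h; exact absurd hx.1 hy.2
      · simp only [iB, Sum.elim_inl, Sum.elim_inr, Subtype.mk.injEq] at h
        subst h; exact absurd hy.1 hx.2
      · simp only [iB, Sum.elim_inr, Subtype.mk.injEq] at h
        subst h; rfl
    · rintro ⟨x, hx⟩
      by_cases h : x ∈ A
      · exact ⟨Sum.inl ⟨x, h, hx⟩, rfl⟩
      · exact ⟨Sum.inr ⟨x, hx, h⟩, rfl⟩
  have bV : Function.Bijective iV := by
    constructor
    · rintro (⟨x, hx⟩ | ⟨x, hx⟩ | ⟨x, hx⟩) (⟨y, hy⟩ | ⟨y, hy⟩ | ⟨y, hy⟩) h <;>
        simp only [iV, Sum.elim_inl, Sum.elim_inr] at h <;> subst h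
      · rfl
      · exact absurd hx.2 hy.2
      · exact absurd hx.1 hy.2
      · exact absurd hy.2 hx.2
      · rfl
      · exact absurd hx.1 hy.2
      · exact absurd hy.1 hx.2
      · exact absurd hy.1 hx.2
      · rfl
    · intro x
      by_cases h : x ∈ A
      · by_cases h' : x ∈ B
        · exact ⟨Sum.inl ⟨x, h, h'⟩, rfl⟩
        · exact ⟨Sum.inr (Sum.inl ⟨x, h, h'⟩), rfl⟩
      · exact ⟨Sum.inr (Sum.inr ⟨x, (hAB x).resolve_left h, h⟩), rfl⟩
  have cA : ∀ z, ((iA z : A) : V) = iV (gl z) := by rintro (z | z) <;> rfl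
  have cB : ∀ z, ((iB z : B) : V) = iV (gr z) := by rintro (z | z) <;> rfl
  let E₁ : Finset ((S ⊕ L) × (S ⊕ L)) := univ.filter fun e =>
    (iA e.1, iA e.2) ∈ sideEdges (H.induce A) fun v => s v
  let E₂ : Finset ((S ⊕ R) × (S ⊕ R)) := univ.filter fun e =>
    (iB e.1, iB e.2) ∈ sideEdges (H.induce B) fun v => s v
  let σ : S ⊕ (L ⊕ R) → Bool := fun z => s (iV z)
  have p1 : Prism E₁ fun v => σ (gl v) := by
    refine (hA.2 inferInstance inferInstance).transport (Equiv.ofBijective iA bA).symm ?_ ?_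
    · intro a b
      simp only [E₁, mem_filter, mem_univ, true_and]
      have h1 : ∀ a, iA ((Equiv.ofBijective iA bA).symm a) = a :=
        (Equiv.ofBijective iA bA).apply_symm_apply
      rw [h1, h1]
    · intro a
      simp only [σ]
      rw [← cA]
      have h1 : ∀ a, iA ((Equiv.ofBijective iA bA).symm a) = a :=
        (Equiv.ofBijective iA bA).apply_symm_apply
      rw [h1]
  have p2 : Prism E₂ fun v => σ (gr v) := by
    refine (hB.2 inferInstance inferInstance).transport (Equiv.ofBijective iB bB).symm ?_ ?_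
    · intro a b
      simp only [E₂, mem_filter, mem_univ, true_and]
      have h1 : ∀ a, iB ((Equiv.ofBijective iB bB).symm a) = a :=
        (Equiv.ofBijective iB bB).apply_symm_apply
      rw [h1, h1]
    · intro a
      simp only [σ]
      rw [← cB]
      have h1 : ∀ a, iB ((Equiv.ofBijective iB bB).symm a) = a :=
        (Equiv.ofBijective iB bB).apply_symm_apply
      rw [h1]
  have p3 := Prism.glue p1 p2
  refine ⟨?_, ?_⟩
  · intro u v huv
    rcases hadj u v huv with ⟨hu, hv⟩ | ⟨hu, hv⟩
    · exact hA.1 ⟨u, hu⟩ ⟨v, hv⟩ huv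
    · exact hB.1 ⟨u, hu⟩ ⟨v, hv⟩ huv
  · have p4 : Prism (sideEdges H s) s := by
      refine p3.transport (Equiv.ofBijective iV bV) ?_ fun _ => rfl
      intro a b
      change (iV a, iV b) ∈ sideEdges H s ↔ (a, b) ∈ glueEdges E₁ E₂
      simp only [glueEdges, mem_union, mem_image, Prod.exists, Prod.map_apply, Prod.mk.injEq]
      constructor
      · intro h
        simp only [sideEdges, mem_filter, mem_univ, true_and] at h
        rcases hadj _ _ h.1 with ⟨hu, hv⟩ | ⟨hu, hv⟩
        · left
          obtain ⟨a', ha'⟩ := bA.2 ⟨iV a, hu⟩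
          obtain ⟨b', hb'⟩ := bA.2 ⟨iV b, hv⟩
          refine ⟨a', b', ?_, ?_, ?_⟩
          · simp only [E₁, sideEdges, mem_filter, mem_univ, true_and, ha', hb',
              SimpleGraph.comap_adj, Function.Embedding.subtype_apply]
            exact h
          · exact bV.1 ((cA a').symm.trans (congrArg Subtype.val ha'))
          · exact bV.1 ((cA b').symm.trans (congrArg Subtype.val hb'))
        · right
          obtain ⟨a', ha'⟩ := bB.2 ⟨iV a, hu⟩
          obtain ⟨b', hb'⟩ := bB.2 ⟨iV b, hv⟩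
          refine ⟨a', b', ?_, ?_, ?_⟩
          · simp only [E₂, sideEdges, mem_filter, mem_univ, true_and, ha', hb',
              SimpleGraph.comap_adj, Function.Embedding.subtype_apply]
            exact h
          · exact bV.1 ((cB a').symm.trans (congrArg Subtype.val ha'))
          · exact bV.1 ((cB b').symm.trans (congrArg Subtype.val hb'))
      · rintro (⟨a', b', h, rfl, rfl⟩ | ⟨a', b', h, rfl, rfl⟩)
        · simp only [E₁, sideEdges, mem_filter, mem_univ, true_and,
              SimpleGraph.comap_adj, Function.Embedding.subtype_apply, cA] at h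
          simp only [sideEdges, mem_filter, mem_univ, true_and]
          exact h
        · simp only [E₂, sideEdges, mem_filter, mem_univ, true_and,
              SimpleGraph.comap_adj, Function.Embedding.subtype_apply, cB] at h
          simp only [sideEdges, mem_filter, mem_univ, true_and]
          exact h
    intro i1 i2
    exact p4.irrel

end glue

theorem Fac.grown {V : Type} [Fintype V] [DecidableEq V] {H : SimpleGraph V} {s : V → Bool}
    {T : V → V → ℕ → Prop} (hs : ∀ u v, H.Adj u v → s u ≠ s v) (h : Grown H univ T) :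
    Fac H s := by
  refine ⟨hs, ?_⟩
  have := h.prism hs
  intro i1 i2
  exact this.irrel

theorem Fac.flip {V : Type} {H : SimpleGraph V} {s : V → Bool} (h : Fac H s) :
    Fac H fun v => !s v := by
  refine ⟨fun u v huv h' => h.1 u v huv (by simpa using h'), fun i1 i2 => ?_⟩
  exact (h.2 i1 i2).flip_graph

theorem Fac.three (n : ℕ) :
    Fac (completeBipartiteGraph (Fin 3) (Fin n)) fun v => v.isRight := by
  have hs : ∀ u v, (completeBipartiteGraph (Fin 3) (Fin n)).Adj u v → u.isRight ≠ v.isRight := by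
    rintro (u | u) (v | v) h <;> simp at h ⊢
  cases n with
  | zero =>
    obtain ⟨T, hT⟩ := grown_three_zero
    exact Fac.grown hs hT
  | succ n =>
    refine ⟨hs, ?_⟩
    have h := prism_three (Fin (n + 1))
    have e : (fun v : Fin 3 ⊕ Fin (n + 1) => v.isRight) = kSide := by
      funext v
      rcases v with v | v <;> rfl
    rw [e]
    intro i1 i2
    exact h.irrel

theorem Factor.fac {V : Type} {H : SimpleGraph V} {s : V → Bool} (h : Factor H s) : Fac H s := by
  induction h with
  | grown hs h => exact Fac.grown hs h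
  | three n => exact Fac.three n
  | flip _ h => exact h.flip
  | prod _ _ h1 h2 => exact h1.prod h2
  | glue A B hAB hsub hadj _ _ h1 h2 => exact Fac.glue A B hAB hsub hadj h1 h2
  | iso φ hφ _ h => exact Fac.iso φ hφ h

end Vale.Agent.P050.Cart
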