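import Vale.Agent.P050.Cart.GrownDefs

/-!
Statement-level definition: the factors of Cartesian products.
-/

namespace Vale.Agent.P050.Cart

open Finset

/-- `Factor H s`: the graph `H` with the proper 2-colouring `s` belongs to the least class that
contains all grown graphs and all `K_{3,n}` and is closed under the rules below. -/
inductive Factor : ∀ {V : Type}, SimpleGraph V → (V → Bool) → Prop
  /-- a grown graph: built from nothing by isolated vertices, pendant vertices and ears -/
  | grown {V : Type} [Fintype V] [DecidableEq V] {H : SimpleGraph V} {s : V → Bool}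
      {T : V → V → ℕ → Prop} (hs : ∀ u v, H.Adj u v → s u ≠ s v) (h : Grown H univ T) : Factor H s
  /-- the complete bipartite graphs `K_{3,n}` -/
  | three (n : ℕ) : Factor (completeBipartiteGraph (Fin 3) (Fin n)) fun v => v.isRight
  /-- exchange of the two colours -/
  | flip {V : Type} {H : SimpleGraph V} {s : V → Bool} (hH : Factor H s) : Factor H fun v => !s v
  /-- Cartesian products -/
  | prod {V W : Type} [Finite V] [Finite W] {G : SimpleGraph V} {H : SimpleGraph W}
      {s : V → Bool} {t : W → Bool} (hG : Factor G s) (hH : Factor H t) :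
      Factor (G □ H) fun p => xor (s p.1) (t p.2)
  /-- disjoint unions and unions of two graphs with one common vertex -/
  | glue {V : Type} [Finite V] {H : SimpleGraph V} {s : V → Bool} (A B : Set V)
      (hAB : ∀ v, v ∈ A ∨ v ∈ B) (hsub : (A ∩ B).Subsingleton)
      (hadj : ∀ u v, H.Adj u v → (u ∈ A ∧ v ∈ A) ∨ (u ∈ B ∧ v ∈ B))
      (hA : Factor (H.induce A) fun v => s v) (hB : Factor (H.induce B) fun v => s v) : Factor H s
  /-- relabelling the vertices -/
  | iso {V W : Type} {G : SimpleGraph V} {H : SimpleGraph W} {s : V → Bool} {t : W → Bool}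
      (φ : G ≃g H) (hφ : ∀ v, t (φ v) = s v) (hG : Factor G s) : Factor H t

end Vale.Agent.P050.Cart
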