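import Vale.Agent.P050.Cart.PrismGlue

/-!
Graphs with good prisms, glued at one vertex or not at all.
-/

namespace Vale.Agent.P050.Cart

open Finset Vale.Agent.P050.Lev

section glue

variable {V : Type} [Fintype V] [DecidableEq V]

/-- one part of a graph covered by two sets of vertices -/
def partEquiv (A B : Finset V) :
    {v // v ∈ A} ≃ {v // v ∈ A ∧ v ∈ B} ⊕ {v // v ∈ A ∧ v ∉ B} where
  toFun v := if h : v.1 ∈ B then Sum.inl ⟨v.1, v.2, h⟩ else Sum.inr ⟨v.1, v.2, h⟩
  invFun := Sum.elim (fun x => ⟨x.1, x.2.1⟩) fun x => ⟨x.1, x.2.1⟩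
  left_inv v := by
    by_cases h : v.1 ∈ B
    · simp [h]
    · simp [h]
  right_inv x := by
    rcases x with x | x
    · simp [x.2.2]
    · simp [x.2.2]

/-- **Gluing rule** for graphs: if the vertices are covered by two sets with at most one common
vertex, such that each edge lies in one of the two sets, then good prisms of the two parts give
good prisms of the graph. -/
theorem Prism.glue_graph {H : SimpleGraph V} {s : V → Bool} (A B : Finset V)
    (hAB : ∀ v, v ∈ A ∨ v ∈ B) (hone : ∀ u v, u ∈ A → u ∈ B → v ∈ A → v ∈ B → u = v)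
    (hE : ∀ u v, H.Adj u v → (u ∈ A ∧ v ∈ A) ∨ (u ∈ B ∧ v ∈ B))
    (hA : Prism (sideEdges (H.comap (Subtype.val : {v // v ∈ A} → V)) fun v => s v.1)
      (fun v => s v.1))
    (hB : Prism (sideEdges (H.comap (Subtype.val : {v // v ∈ B} → V)) fun v => s v.1)
      (fun v => s v.1)) : Prism (sideEdges H s) s := by
  classical
  let S := {v // v ∈ A ∧ v ∈ B}
  let L := {v // v ∈ A ∧ v ∉ B}
  let R := {v // v ∈ B ∧ v ∉ A}
  have : Subsingleton S := ⟨fun a b => Subtype.ext (hone _ _ a.2.1 a.2.2 b.2.1 b.2.2)⟩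
  let φ : S ⊕ (L ⊕ R) → V := Sum.elim (fun x => x.1) (Sum.elim (fun x => x.1) fun x => x.1)
  let ψ : V → S ⊕ (L ⊕ R) := fun v =>
    if h : v ∈ A then (if h' : v ∈ B then Sum.inl ⟨v, h, h'⟩ else Sum.inr (Sum.inl ⟨v, h, h'⟩))
      else Sum.inr (Sum.inr ⟨v, (hAB v).resolve_left h, h⟩)
  have hφψ : ∀ v, φ (ψ v) = v := by
    intro v
    by_cases h : v ∈ A
    · by_cases h' : v ∈ B
      · simp [φ, ψ, h, h']
      · simp [φ, ψ, h, h']
    · simp [φ, ψ, h]
  have hψφ : ∀ x, ψ (φ x) = x := by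
    intro x
    rcases x with x | x | x
    · simp [φ, ψ, x.2.1, x.2.2]
    · simp [φ, ψ, x.2.1, x.2.2]
    · simp [φ, ψ, x.2.2]
  let eV : S ⊕ (L ⊕ R) ≃ V := ⟨φ, ψ, hψφ, hφψ⟩
  let eB : {v // v ∈ B} ≃ S ⊕ R :=
    (partEquiv B A).trans (Equiv.sumCongr (Equiv.subtypeEquivRight fun v => and_comm)
      (Equiv.refl _))
  have hgl : ∀ a : {v // v ∈ A}, φ (gl (partEquiv A B a)) = a.1 := by
    intro a
    by_cases h : a.1 ∈ B
    · simp [partEquiv, h, gl, φ]
    · simp [partEquiv, h, gl, φ]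
  have hgr : ∀ a : {v // v ∈ B}, φ (gr (eB a)) = a.1 := by
    intro a
    by_cases h : a.1 ∈ A
    · simp [eB, partEquiv, h, gr, φ]
      rfl
    · simp [eB, partEquiv, h, gr, φ]
  have h1 : Prism (sideEdges (H.comap fun x : S ⊕ L => φ (gl x)) fun x => s (φ (gl x)))
      (fun x => s (φ (gl x))) := by
    refine hA.transport (partEquiv A B) ?_ ?_
    · intro a b
      simp only [sideEdges, Finset.mem_filter, Finset.mem_univ, true_and, SimpleGraph.comap_adj,
        hgl]
    · intro a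
      rw [hgl]
  have h2 : Prism (sideEdges (H.comap fun x : S ⊕ R => φ (gr x)) fun x => s (φ (gr x)))
      (fun x => s (φ (gr x))) := by
    refine hB.transport eB ?_ ?_
    · intro a b
      simp only [sideEdges, Finset.mem_filter, Finset.mem_univ, true_and, SimpleGraph.comap_adj,
        hgr]
    · intro a
      rw [hgr]
  have h3 := Prism.glue (σ := fun x : S ⊕ (L ⊕ R) => s (φ x)) h1 h2
  refine h3.transport eV ?_ fun a => rfl
  intro a b
  have ha : ∀ x : S ⊕ (L ⊕ R), eV x = φ x := fun _ => rfl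
  rw [ha, ha]
  constructor
  · intro h
    simp only [sideEdges, Finset.mem_filter, Finset.mem_univ, true_and] at h
    obtain ⟨hadj, hs1, hs2⟩ := h
    rcases hE _ _ hadj with ⟨m1, m2⟩ | ⟨m1, m2⟩
    · refine Finset.mem_union_left _ (Finset.mem_image.2
        ⟨(partEquiv A B ⟨φ a, m1⟩, partEquiv A B ⟨φ b, m2⟩), ?_, ?_⟩)
      · simp only [sideEdges, Finset.mem_filter, Finset.mem_univ, true_and,
          SimpleGraph.comap_adj, hgl]
        exact ⟨hadj, hs1, hs2⟩
      · have e1 : gl (partEquiv A B ⟨φ a, m1⟩) = a := by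
          rw [← hψφ (gl (partEquiv A B ⟨φ a, m1⟩)), hgl, hψφ]
        have e2 : gl (partEquiv A B ⟨φ b, m2⟩) = b := by
          rw [← hψφ (gl (partEquiv A B ⟨φ b, m2⟩)), hgl, hψφ]
        exact Prod.ext e1 e2
    · refine Finset.mem_union_right _ (Finset.mem_image.2 ⟨(eB ⟨φ a, m1⟩, eB ⟨φ b, m2⟩), ?_, ?_⟩)
      · simp only [sideEdges, Finset.mem_filter, Finset.mem_univ, true_and,
          SimpleGraph.comap_adj, hgr]
        exact ⟨hadj, hs1, hs2⟩
      · have e1 : gr (eB ⟨φ a, m1⟩) = a := by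
          rw [← hψφ (gr (eB ⟨φ a, m1⟩)), hgr, hψφ]
        have e2 : gr (eB ⟨φ b, m2⟩) = b := by
          rw [← hψφ (gr (eB ⟨φ b, m2⟩)), hgr, hψφ]
        exact Prod.ext e1 e2
  · intro h
    rcases Finset.mem_union.1 h with h | h
    · obtain ⟨e, he, hab⟩ := Finset.mem_image.1 h
      simp only [sideEdges, Finset.mem_filter, Finset.mem_univ, true_and,
        SimpleGraph.comap_adj] at he ⊢
      have e1 : gl e.1 = a := congrArg Prod.fst hab
      have e2 : gl e.2 = b := congrArg Prod.snd hab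
      rw [e1, e2] at he
      exact he
    · obtain ⟨e, he, hab⟩ := Finset.mem_image.1 h
      simp only [sideEdges, Finset.mem_filter, Finset.mem_univ, true_and,
        SimpleGraph.comap_adj] at he ⊢
      have e1 : gr e.1 = a := congrArg Prod.fst hab
      have e2 : gr e.2 = b := congrArg Prod.snd hab
      rw [e1, e2] at he
      exact he

end glue

end Vale.Agent.P050.Cart
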