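import Mathlib

/-!
Statement-level definition: graphs grown by isolated vertices, pendant vertices and ears between
tied vertices.
-/

namespace Vale.Agent.P050.Cart

open Finset

/-- `Grown H S T`: the part of the graph `H` on the vertex set `S` is built step by step;
`T u v d` means that `u` and `v` are tied at distance `d`. -/
inductive Grown {V : Type} [DecidableEq V] (H : SimpleGraph V) :
    Finset V → (V → V → ℕ → Prop) → Prop
  /-- the empty graph -/
  | empty : Grown H ∅ fun _ _ _ => False
  /-- a new vertex without neighbours -/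
  | isolated {S : Finset V} {T : V → V → ℕ → Prop} (h : Grown H S T) (w : V) (hw : w ∉ S)
      (hadj : ∀ x ∈ S, ¬ H.Adj w x) :
      Grown H (insert w S) fun x y d => T x y d ∨ (x = w ∧ y = w ∧ d = 0)
  /-- a new vertex `w` with one neighbour `v`; it is tied at distance `e + 1` to the vertices
  tied to `v` at distance `e` -/
  | pendant {S : Finset V} {T : V → V → ℕ → Prop} (h : Grown H S T) (w v : V) (hw : w ∉ S)
      (hv : v ∈ S) (hadj : ∀ x ∈ S, H.Adj w x ↔ x = v) :
      Grown H (insert w S) fun x y d => T x y d ∨ (x = w ∧ y = w ∧ d = 0) ∨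
        ∃ e, d = e + 1 ∧ ((x = w ∧ T v y e) ∨ (y = w ∧ T v x e))
  /-- an ear: a path `p 0, …, p d` with new inner vertices between vertices `p 0`, `p d` tied at
  distance `d ≥ 2`; any two vertices of this path become tied -/
  | ear {S : Finset V} {T : V → V → ℕ → Prop} (h : Grown H S T) (p : ℕ → V) (d : ℕ) (hd : 2 ≤ d)
      (hT : T (p 0) (p d) d) (hne : p 0 ≠ p d) (hnew : ∀ i, 0 < i → i < d → p i ∉ S)
      (hinj : ∀ i j, 0 < i → i < j → j < d → p i ≠ p j)
      (hadj : ∀ i, 0 < i → i < d → ∀ x, (x ∈ S ∨ ∃ j, 0 < j ∧ j < d ∧ x = p j) →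
        (H.Adj (p i) x ↔ x = p (i - 1) ∨ x = p (i + 1))) :
      Grown H (S ∪ (range (d - 1)).image fun i => p (i + 1)) fun x y e => T x y e ∨
        ∃ i j, i ≤ j ∧ j ≤ d ∧ e = j - i ∧ ((x = p i ∧ y = p j) ∨ (x = p j ∧ y = p i))

end Vale.Agent.P050.Cart
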