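import Vale.Agent.P050.Cart.Ear2
import Vale.Agent.P050.Cart.GrownDefs

/-!
Grown graphs have good prisms.
-/

set_option linter.unusedSectionVars false

namespace Vale.Agent.P050.Cart

open Finset

variable {V U : Type} [Fintype V] [DecidableEq V] [Fintype U]

theorem Grown.mem {H : SimpleGraph V} {S : Finset V} {T : V → V → ℕ → Prop} (hG : Grown H S T) :
    ∀ x y d, T x y d → x ∈ S ∧ y ∈ S := by
  induction hG with
  | empty => intro x y d h; exact h.elim
  | isolated h w hw hadj ih =>
    rintro x y d (hT | ⟨rfl, rfl, -⟩)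
    · exact ⟨mem_insert_of_mem (ih _ _ _ hT).1, mem_insert_of_mem (ih _ _ _ hT).2⟩
    · exact ⟨mem_insert_self _ _, mem_insert_self _ _⟩
  | pendant h w v hw hv hadj ih =>
    rintro x y d (hT | ⟨rfl, rfl, -⟩ | ⟨e, -, ⟨rfl, hT⟩ | ⟨rfl, hT⟩⟩)
    · exact ⟨mem_insert_of_mem (ih _ _ _ hT).1, mem_insert_of_mem (ih _ _ _ hT).2⟩
    · exact ⟨mem_insert_self _ _, mem_insert_self _ _⟩
    · exact ⟨mem_insert_self _ _, mem_insert_of_mem (ih _ _ _ hT).2⟩
    · exact ⟨mem_insert_of_mem (ih _ _ _ hT).2, mem_insert_self _ _⟩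
  | @ear S T h p d hd hT hne hnew hinj hadj ih =>
    have hp : ∀ i, i ≤ d → p i ∈ S ∪ (range (d - 1)).image fun i => p (i + 1) := by
      intro i hi
      rcases Nat.eq_zero_or_pos i with h1 | h1
      · rw [h1]
        exact mem_union_left _ (ih _ _ _ hT).1
      · rcases Nat.lt_or_ge i d with h2 | h2
        · refine mem_union_right _ (mem_image.2 ⟨i - 1, mem_range.2 (by omega), ?_⟩)
          congr 1
          omega
        · have h3 : i = d := by omega
          rw [h3]
          exact mem_union_left _ (ih _ _ _ hT).2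
    rintro x y e (hT' | ⟨i, j, hij, hj, -, ⟨rfl, rfl⟩ | ⟨rfl, rfl⟩⟩)
    · exact ⟨mem_union_left _ (ih _ _ _ hT').1, mem_union_left _ (ih _ _ _ hT').2⟩
    · exact ⟨hp i (by omega), hp j hj⟩
    · exact ⟨hp j hj, hp i (by omega)⟩

/-- the edges inside `S` -/
noncomputable def inEdges (H : SimpleGraph V) (s : V → Bool) (S : Finset V) : Finset (V × V) :=
  (Lev.sideEdges H s).filter fun e => e.1 ∈ S ∧ e.2 ∈ S

theorem mem_inner {H : SimpleGraph V} {s : V → Bool} {S : Finset V} {e : V × V} :
    e ∈ inEdges H s S ↔ (H.Adj e.1 e.2 ∧ s e.1 = false ∧ s e.2 = true) ∧ e.1 ∈ S ∧ e.2 ∈ S := by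
  unfold inEdges Lev.sideEdges
  simp

theorem dedge_mem {H : SimpleGraph V} {s : V → Bool} (hs : ∀ u v, H.Adj u v → s u ≠ s v)
    {S : Finset V} {x y : V} (hxy : H.Adj x y) (hx : x ∈ S) (hy : y ∈ S) :
    dedge s x y ∈ inEdges H s S := by
  rw [mem_inner]
  have h1 := hs _ _ hxy
  unfold dedge
  split_ifs with hf
  · refine ⟨⟨hxy, hf, ?_⟩, hx, hy⟩
    rw [hf] at h1
    cases hsy : s y
    · exact absurd hsy.symm h1
    · rfl
  · rw [Bool.not_eq_false] at hf
    refine ⟨⟨hxy.symm, ?_, hf⟩, hy, hx⟩
    rw [hf] at h1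
    cases hsy : s y
    · rfl
    · exact absurd hsy.symm h1

theorem eq_dedge {s : V → Bool} {x y : V} {e : V × V} (h1 : s e.1 = false) (h2 : s e.2 = true)
    (h : (e.1 = x ∧ e.2 = y) ∨ (e.1 = y ∧ e.2 = x)) : e = dedge s x y := by
  unfold dedge
  rcases h with ⟨rfl, rfl⟩ | ⟨rfl, rfl⟩
  · rw [if_pos h1]
  · rw [if_neg (by rw [h2]; simp)]

variable {m : Bool → U → ℝ} {π : U → U → ℝ} (h : Base m π)
include h

theorem Grown.law {H : SimpleGraph V} {s : V → Bool} (hs : ∀ u v, H.Adj u v → s u ≠ s v)
    {S : Finset V} {T : V → V → ℕ → Prop} (hG : Grown H S T) :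
    ∃ μ, St m π (inEdges H s S) s S μ 0 0 0 ∧ ∀ x y d, T x y d → Tie m π s μ x y d := by
  classical
  induction hG with
  | empty =>
    refine ⟨fun z : V → U × U => ∏ v, rho π (s v) (z v), ?_, fun x y d hT => hT.elim⟩
    have := St.init h s
    have e : inEdges H s (∅ : Finset V) = ∅ := by
      ext e
      rw [mem_inner]
      simp
    rw [e]
    exact this
  | @isolated S T hG w hw hadj ih =>
    obtain ⟨μ, hst, hT⟩ := ih
    have e : inEdges H s (insert w S) = inEdges H s S := by
      ext e
      rw [mem_inner, mem_inner]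
      constructor
      · rintro ⟨h1, h2, h3⟩
        refine ⟨h1, ?_, ?_⟩
        · rcases mem_insert.1 h2 with h4 | h4
          · rcases mem_insert.1 h3 with h5 | h5
            · rw [h4, h5] at h1
              exact absurd h1.1 (SimpleGraph.irrefl _)
            · rw [h4] at h1
              exact absurd h1.1 (hadj _ h5)
          · exact h4
        · rcases mem_insert.1 h3 with h4 | h4
          · rcases mem_insert.1 h2 with h5 | h5
            · rw [h4, h5] at h1
              exact absurd h1.1 (SimpleGraph.irrefl _)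
            · rw [h4] at h1
              exact absurd h1.1.symm (hadj _ h5)
          · exact h4
      · rintro ⟨h1, h2, h3⟩
        exact ⟨h1, mem_insert_of_mem h2, mem_insert_of_mem h3⟩
    refine ⟨μ, ?_, ?_⟩
    · rw [e]
      exact
        { nonneg := hst.nonneg
          total := hst.total
          vertex := hst.vertex
          indep := fun w' hw' => hst.indep w' fun h => hw' (mem_insert_of_mem h)
          inS := fun e he => ⟨mem_insert_of_mem (hst.inS e he).1,
            mem_insert_of_mem (hst.inS e he).2⟩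
          edge := hst.edge
          bound := hst.bound
          bound_fst := hst.bound_fst
          bound_snd := hst.bound_snd
          bound_both := hst.bound_both }
    · rintro x y d (h1 | ⟨rfl, rfl, rfl⟩)
      · exact hT x y d h1
      · exact Tie.refl h hst.vertex _
  | @pendant S T hG w v hw hv hadj ih =>
    obtain ⟨μ, hst, hT⟩ := ih
    have hwv : H.Adj w v := (hadj v hv).2 rfl
    have hsw : s w = !s v := by
      have := hs _ _ hwv
      cases h1 : s w <;> cases h2 : s v <;> simp_all
    obtain ⟨μ', hst', hp, hn⟩ := hst.pendant h hw hv hsw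
    have hins : insert (dedge s w v) (inEdges H s S) = inEdges H s (insert w S) := by
      ext e
      constructor
      · intro he
        rcases mem_insert.1 he with he | he
        · rw [he]
          exact dedge_mem hs hwv (mem_insert_self _ _) (mem_insert_of_mem hv)
        · rw [mem_inner] at he ⊢
          exact ⟨he.1, mem_insert_of_mem he.2.1, mem_insert_of_mem he.2.2⟩
      · intro he
        rw [mem_inner] at he
        obtain ⟨h1, h2, h3⟩ := he
        rcases mem_insert.1 h2 with h4 | h4
        · rcases mem_insert.1 h3 with h5 | h5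
          · rw [h4, h5] at h1
            exact absurd h1.1 (SimpleGraph.irrefl _)
          · rw [h4] at h1
            have h6 := (hadj _ h5).1 h1.1
            rw [← h4] at h1
            exact mem_insert.2 (Or.inl (eq_dedge h1.2.1 h1.2.2 (Or.inl ⟨h4, h6⟩)))
        · rcases mem_insert.1 h3 with h5 | h5
          · rw [h5] at h1
            have h6 := (hadj _ h4).1 h1.1.symm
            rw [← h5] at h1
            exact mem_insert.2 (Or.inl (eq_dedge h1.2.1 h1.2.2 (Or.inr ⟨h6, h5⟩)))
          · exact mem_insert_of_mem (mem_inner.2 ⟨h1, h4, h5⟩)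
    rw [hins] at hst'
    refine ⟨μ', hst', ?_⟩
    have hm := hG.mem
    rintro x y d (h1 | ⟨rfl, rfl, rfl⟩ | ⟨e, rfl, ⟨rfl, h1⟩ | ⟨rfl, h1⟩⟩)
    · exact hp x y d (hm _ _ _ h1).1 (hm _ _ _ h1).2 (hT x y d h1)
    · exact Tie.refl h hst'.vertex _
    · exact hn y e (hm _ _ _ h1).2 (hT _ _ _ h1)
    · exact Tie.symm h (hn x e (hm _ _ _ h1).2 (hT _ _ _ h1))
  | @ear S T hG p d hd hTd hne hnew hinj hadj ih =>
    obtain ⟨μ, hst, hT⟩ := ih
    have hm := hG.mem
    obtain ⟨n, rfl⟩ : ∃ n, d = n + 2 := ⟨d - 2, by omega⟩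
    have h0 := (hm _ _ _ hTd).1
    have hdS := (hm _ _ _ hTd).2
    -- consecutive vertices are adjacent
    have hcons : ∀ i, i < n + 2 → H.Adj (p i) (p (i + 1)) := by
      intro i hi
      rcases Nat.eq_zero_or_pos i with h1 | h1
      · rw [h1]
        exact ((hadj 1 (by omega) (by omega) (p 0) (Or.inl h0)).2 (Or.inl rfl)).symm
      · refine (hadj i h1 hi (p (i + 1)) ?_).2 (Or.inr rfl)
        rcases Nat.lt_or_ge (i + 1) (n + 2) with h2 | h2
        · exact Or.inr ⟨i + 1, by omega, h2, rfl⟩
        · have h3 : i + 1 = n + 2 := by omega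
          rw [h3]
          exact Or.inl hdS
    have hsd : ∀ i, i < n + 2 → s (p (i + 1)) = !s (p i) := by
      intro i hi
      have := hs _ _ (hcons i hi)
      cases h1 : s (p i) <;> cases h2 : s (p (i + 1)) <;> simp_all
    obtain ⟨μ', hst', hp, hn⟩ := hst.ear h h0 hdS hne hnew hinj hsd (hT _ _ _ hTd)
    set S' := S ∪ (range (n + 1)).image fun i => p (i + 1) with hS'
    have hpS : ∀ i, i ≤ n + 2 → p i ∈ S' := by
      intro i hi
      rcases Nat.eq_zero_or_pos i with h1 | h1
      · rw [h1]
        exact mem_union_left _ h0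
      · rcases Nat.lt_or_ge i (n + 2) with h2 | h2
        · refine mem_union_right _ (mem_image.2 ⟨i - 1, mem_range.2 (by omega), ?_⟩)
          congr 1
          omega
        · have h3 : i = n + 2 := by omega
          rw [h3]
          exact mem_union_left _ hdS
    have e : (inEdges H s S ∪ (range (n + 2)).image fun i => dedge s (p i) (p (i + 1))) =
        inEdges H s S' := by
      ext e
      constructor
      · intro he
        rcases mem_union.1 he with he | he
        · rw [mem_inner] at he ⊢
          exact ⟨he.1, mem_union_left _ he.2.1, mem_union_left _ he.2.2⟩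
        · obtain ⟨i, hi, rfl⟩ := mem_image.1 he
          rw [mem_range] at hi
          exact dedge_mem hs (hcons i hi) (hpS i (by omega)) (hpS (i + 1) (by omega))
      · intro he
        rw [mem_inner] at he
        obtain ⟨h1, h2, h3⟩ := he
        -- the neighbours of an inEdges vertex
        have key : ∀ x y, x ∈ S' → y ∈ S' → x ∉ S → H.Adj x y → ∃ i, i < n + 2 ∧
            ((x = p i ∧ y = p (i + 1)) ∨ (x = p (i + 1) ∧ y = p i)) := by
          intro x y hx hy hxS hxy
          rcases mem_union.1 hx with hx | hx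
          · exact absurd hx hxS
          obtain ⟨i, hi, rfl⟩ := mem_image.1 hx
          rw [mem_range] at hi
          have hy' : y ∈ S ∨ ∃ j, 0 < j ∧ j < n + 2 ∧ y = p j := by
            rcases mem_union.1 hy with hy | hy
            · exact Or.inl hy
            · obtain ⟨j, hj, rfl⟩ := mem_image.1 hy
              rw [mem_range] at hj
              exact Or.inr ⟨j + 1, by omega, by omega, rfl⟩
          rcases (hadj (i + 1) (by omega) (by omega) y hy').1 hxy with h4 | h4
          · exact ⟨i, by omega, Or.inr ⟨rfl, h4⟩⟩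
          · exact ⟨i + 1, by omega, Or.inl ⟨rfl, h4⟩⟩
        by_cases h4 : e.1 ∈ S
        · by_cases h5 : e.2 ∈ S
          · exact mem_union_left _ (mem_inner.2 ⟨h1, h4, h5⟩)
          · obtain ⟨i, hi, h6⟩ := key _ _ h3 h2 h5 h1.1.symm
            refine mem_union_right _ (mem_image.2 ⟨i, mem_range.2 hi, ?_⟩)
            refine (eq_dedge h1.2.1 h1.2.2 ?_).symm
            rcases h6 with ⟨h6, h7⟩ | ⟨h6, h7⟩
            · exact Or.inr ⟨h7, h6⟩
            · exact Or.inl ⟨h7, h6⟩
        · obtain ⟨i, hi, h6⟩ := key _ _ h2 h3 h4 h1.1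
          refine mem_union_right _ (mem_image.2 ⟨i, mem_range.2 hi, ?_⟩)
          exact (eq_dedge h1.2.1 h1.2.2 h6).symm
    rw [e] at hst'
    have e2 : n + 2 - 1 = n + 1 := by omega
    rw [e2]
    refine ⟨μ', hst', ?_⟩
    rintro x y e (h1 | ⟨i, j, hij, hj, rfl, ⟨rfl, rfl⟩ | ⟨rfl, rfl⟩⟩)
    · exact hp x y e (hm _ _ _ h1).1 (hm _ _ _ h1).2 (hT x y e h1)
    · exact hn i j hij hj
    · exact Tie.symm h (hn i j hij hj)

end Vale.Agent.P050.Cart
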