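import Vale.Agent.P050.Cart.Chain

/-!
Entropies of chains of rungs.
-/

set_option linter.unusedSectionVars false

namespace Vale.Agent.P050.Cart

open Finset

section general

variable {Ω α β γ α' β' : Type} [Fintype Ω] [Fintype α] [Fintype β] [Fintype γ] [Fintype α']
  [Fintype β']

theorem ent_const {P : Ω → ℝ} (h1 : ∑ ω, P ω = 1) (c : α) : ent P (fun _ => c) = 0 := by
  classical
  rw [ent_eq]
  have : mar P (fun _ => c) c = 1 := by
    unfold mar
    simpa using h1
  rw [this]
  simp

theorem ent_subadd {P : Ω → ℝ} (hP : ∀ ω, 0 ≤ P ω) (h1 : ∑ ω, P ω = 1) (f : Ω → α) (g : Ω → β) :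
    ent P (fun ω => (f ω, g ω)) ≤ ent P f + ent P g := by
  have h := ent_submod hP f g (fun _ => ())
  rw [ent_const h1] at h
  have e1 : ent P (fun ω => (f ω, g ω, ())) = ent P (fun ω => (f ω, g ω)) :=
    ent_inj P (fun ω => (f ω, g ω)) (e := fun x : α × β => (x.1, x.2, ())) (fun x y hxy => by
      simp only [Prod.mk.injEq, and_true] at hxy
      exact Prod.ext hxy.1 hxy.2)
  have e2 : ent P (fun ω => (f ω, ())) = ent P f :=
    ent_inj P f (e := fun x : α => (x, ())) (fun x y hxy => by simpa using hxy)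
  have e3 : ent P (fun ω => (g ω, ())) = ent P g :=
    ent_inj P g (e := fun x : β => (x, ())) (fun x y hxy => by simpa using hxy)
  rw [e1, e2, e3] at h
  linarith

/-- the entropy of a pair of independent functions -/
theorem ent_indep {P : Ω → ℝ} (hP : ∀ ω, 0 ≤ P ω) (h1 : ∑ ω, P ω = 1) (f : Ω → α) (g : Ω → β)
    (hI : ∀ a b, mar P (fun ω => (f ω, g ω)) (a, b) = mar P f a * mar P g b) :
    ent P (fun ω => (f ω, g ω)) = ent P f + ent P g := by
  have i1 : Function.Injective (fun x : α × β => (x.1, x.2, ())) := fun x y hxy => by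
    simp only [Prod.mk.injEq, and_true] at hxy
    exact Prod.ext hxy.1 hxy.2
  have i2 : Function.Injective (fun x : α => (x, ())) := fun x y hxy => by simpa using hxy
  have i3 : Function.Injective (fun x : β => (x, ())) := fun x y hxy => by simpa using hxy
  have h := ent_markov hP f g (fun _ => ()) (fun a b c => by
    have e1 : mar P (fun ω => (f ω, g ω, ())) (a, b, c) = mar P (fun ω => (f ω, g ω)) (a, b) :=
      mar_inj P (fun ω => (f ω, g ω)) i1 (a, b)
    have e2 : mar P (fun ω => (f ω, ())) (a, c) = mar P f a := mar_inj P f i2 a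
    have e3 : mar P (fun ω => (g ω, ())) (b, c) = mar P g b := mar_inj P g i3 b
    have e4 : mar P (fun _ => ()) c = 1 := by
      unfold mar
      simpa using h1
    rw [e1, e2, e3, e4, mul_one, hI])
  rw [ent_const h1] at h
  have e1 : ent P (fun ω => (f ω, g ω, ())) = ent P (fun ω => (f ω, g ω)) :=
    ent_inj P (fun ω => (f ω, g ω)) i1
  have e2 : ent P (fun ω => (f ω, ())) = ent P f := ent_inj P f i2
  have e3 : ent P (fun ω => (g ω, ())) = ent P g := ent_inj P g i3
  rw [e1, e2, e3] at h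
  linarith

/-- data processing, one side -/
theorem mi_le_left {P : Ω → ℝ} (hP : ∀ ω, 0 ≤ P ω) (f : Ω → α) (g : Ω → β) (F : α → α') :
    ent P (fun ω => (f ω, g ω)) + ent P (fun ω => F (f ω)) ≤
      ent P f + ent P (fun ω => (F (f ω), g ω)) := by
  have h := ent_submod hP f g (fun ω => F (f ω))
  have e1 : ent P (fun ω => (f ω, g ω, F (f ω))) = ent P (fun ω => (f ω, g ω)) :=
    ent_inj P (fun ω => (f ω, g ω)) (e := fun x : α × β => (x.1, x.2, F x.1)) (fun x y hxy => by
      simp only [Prod.mk.injEq] at hxy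
      exact Prod.ext hxy.1 hxy.2.1)
  have e2 : ent P (fun ω => (f ω, F (f ω))) = ent P f :=
    ent_inj P f (e := fun x : α => (x, F x)) (fun x y hxy => by
      simp only [Prod.mk.injEq] at hxy
      exact hxy.1)
  have e3 : ent P (fun ω => (g ω, F (f ω))) = ent P (fun ω => (F (f ω), g ω)) :=
    ent_inj P (fun ω => (F (f ω), g ω)) (e := fun x : α' × β => (x.2, x.1)) (fun x y hxy => by
      simp only [Prod.mk.injEq] at hxy
      exact Prod.ext hxy.2 hxy.1)
  rw [e1, e2, e3] at h
  exact h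

theorem ent_comm (P : Ω → ℝ) (f : Ω → α) (g : Ω → β) :
    ent P (fun ω => (f ω, g ω)) = ent P (fun ω => (g ω, f ω)) :=
  ent_inj P (fun ω => (g ω, f ω)) (e := fun x : β × α => (x.2, x.1)) (fun x y hxy => by
    simp only [Prod.mk.injEq] at hxy
    exact Prod.ext hxy.2 hxy.1)

/-- data processing -/
theorem mi_le {P : Ω → ℝ} (hP : ∀ ω, 0 ≤ P ω) (f : Ω → α) (g : Ω → β) (F : α → α')
    (G : β → β') : ent P (fun ω => F (f ω)) + ent P (fun ω => G (g ω)) -
      ent P (fun ω => (F (f ω), G (g ω))) ≤ ent P f + ent P g - ent P (fun ω => (f ω, g ω)) := by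
  have h1 := mi_le_left hP f g F
  have h2 := mi_le_left hP g (fun ω => F (f ω)) G
  rw [ent_comm P g, ent_comm P (fun ω => G (g ω))] at h2
  linarith

end general

variable {U : Type} [Fintype U]

/-- the law of a chain of rungs as a law on pairs -/
noncomputable def chP (m : Bool → U → ℝ) (π : U → U → ℝ) (b : Bool) (d : ℕ)
    (p : (U × U) × (U × U)) : ℝ := ch m π b d p.1 p.2

/-- the joint law of the rungs `0`, `1`, `d + 1` of a chain of rungs of length `d + 1` -/
noncomputable def trP (m : Bool → U → ℝ) (π : U → U → ℝ) (b : Bool) (d : ℕ)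
    (p : (U × U) × (U × U) × (U × U)) : ℝ :=
  st m π b p.1 p.2.1 * ch m π (!b) d p.2.1 p.2.2 / rho π (!b) p.2.1

/-- the joint law of the rungs `0`, `1`, `2`, `d + 2` of a chain of rungs of length `d + 2` -/
noncomputable def quP (m : Bool → U → ℝ) (π : U → U → ℝ) (b : Bool) (d : ℕ)
    (p : (U × U) × (U × U) × (U × U) × (U × U)) : ℝ :=
  st m π b p.1 p.2.1 * trP m π (!b) d p.2 / rho π (!b) p.2.1

section marginals

variable {m : Bool → U → ℝ} {π : U → U → ℝ} (h : Base m π)
include h

theorem chP_nonneg (b : Bool) (d : ℕ) (p) : 0 ≤ chP m π b d p := h.ch_nonneg _ _ _ _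

theorem trP_nonneg (b : Bool) (d : ℕ) (p) : 0 ≤ trP m π b d p :=
  div_nonneg (mul_nonneg (h.st_nonneg _ _ _) (h.ch_nonneg _ _ _ _)) (h.rho_nonneg _ _)

theorem quP_nonneg (b : Bool) (d : ℕ) (p) : 0 ≤ quP m π b d p :=
  div_nonneg (mul_nonneg (h.st_nonneg _ _ _) (trP_nonneg h _ _ _)) (h.rho_nonneg _ _)

theorem chP_total (b : Bool) (d : ℕ) : ∑ p, chP m π b d p = 1 := by
  rw [Fintype.sum_prod_type]
  unfold chP
  simp_rw [h.ch_sum]
  exact h.rho_sum b

omit h in
theorem mar_prod_fst {α β : Type} [Fintype α] [Fintype β] (P : α × β → ℝ) (a : α) :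
    mar P (fun p => p.1) a = ∑ b, P (a, b) := by
  classical
  unfold mar
  rw [Fintype.sum_prod_type, Finset.sum_eq_single a]
  · simp
  · intro a' _ ha
    simp [ha]
  · intro hn
    exact absurd (mem_univ _) hn

omit h in
theorem mar_prod_snd {α β : Type} [Fintype α] [Fintype β] (P : α × β → ℝ) (b : β) :
    mar P (fun p => p.2) b = ∑ a, P (a, b) := by
  classical
  unfold mar
  rw [Fintype.sum_prod_type, Finset.sum_comm, Finset.sum_eq_single b]
  · simp
  · intro b' _ hb
    simp [hb]
  · intro hn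
    exact absurd (mem_univ _) hn

omit h in
theorem mar_prod_12 {α β γ : Type} [Fintype α] [Fintype β] [Fintype γ] (P : α × β × γ → ℝ)
    (a : α) (b : β) : mar P (fun p => (p.1, p.2.1)) (a, b) = ∑ c, P (a, b, c) := by
  classical
  unfold mar
  rw [Fintype.sum_prod_type, Finset.sum_eq_single a]
  · rw [Fintype.sum_prod_type, Finset.sum_eq_single b]
    · simp
    · intro b' _ hb
      simp [hb]
    · intro hn
      exact absurd (mem_univ _) hn
  · intro a' _ ha
    simp [ha]
  · intro hn
    exact absurd (mem_univ _) hn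

omit h in
theorem mar_prod_13 {α β γ : Type} [Fintype α] [Fintype β] [Fintype γ] (P : α × β × γ → ℝ)
    (a : α) (c : γ) : mar P (fun p => (p.1, p.2.2)) (a, c) = ∑ b, P (a, b, c) := by
  classical
  unfold mar
  rw [Fintype.sum_prod_type, Finset.sum_eq_single a]
  · rw [Fintype.sum_prod_type, Finset.sum_comm, Finset.sum_eq_single c]
    · simp
    · intro b' _ hb
      simp [hb]
    · intro hn
      exact absurd (mem_univ _) hn
  · intro a' _ ha
    simp [ha]
  · intro hn
    exact absurd (mem_univ _) hn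

theorem chP_fst (b : Bool) (d : ℕ) : mar (chP m π b d) (fun p => p.1) = rho π b := by
  funext z
  rw [mar_prod_fst]
  exact h.ch_sum b d z

theorem chP_snd (b : Bool) (d : ℕ) : mar (chP m π b d) (fun p => p.2) = rho π (par b d) := by
  funext z
  rw [mar_prod_snd]
  exact h.ch_sum' b d z

theorem trP_12 (b : Bool) (d : ℕ) : mar (trP m π b d) (fun p => (p.1, p.2.1)) = chP m π b 1 := by
  funext ⟨z, w⟩
  rw [mar_prod_12]
  unfold trP chP
  simp only
  rw [← Finset.sum_div, ← Finset.mul_sum, h.ch_sum, h.ch_one]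
  by_cases h0 : rho π (!b) w = 0
  · rw [h.st_zero' b h0 z]; simp
  · field_simp

theorem trP_23 (b : Bool) (d : ℕ) : mar (trP m π b d) (fun p => p.2) = chP m π (!b) d := by
  funext ⟨z, w⟩
  rw [mar_prod_snd]
  unfold trP chP
  simp only
  rw [← Finset.sum_div, ← Finset.sum_mul, h.st_sum']
  by_cases h0 : rho π (!b) z = 0
  · rw [h.ch_zero (!b) d h0 w]; simp
  · field_simp

theorem trP_13 (b : Bool) (d : ℕ) :
    mar (trP m π b d) (fun p => (p.1, p.2.2)) = chP m π b (d + 1) := by
  funext ⟨z, w⟩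
  rw [mar_prod_13]
  rfl

theorem trP_total (b : Bool) (d : ℕ) : ∑ p, trP m π b d p = 1 := by
  rw [← mar_total _ (fun p : (U × U) × (U × U) × (U × U) => p.2), trP_23 h]
  exact chP_total h _ _

theorem quP_234 (b : Bool) (d : ℕ) : mar (quP m π b d) (fun p => p.2) = trP m π (!b) d := by
  funext p
  rw [mar_prod_snd]
  unfold quP
  simp only
  rw [← Finset.sum_div, ← Finset.sum_mul, h.st_sum']
  by_cases h0 : rho π (!b) p.1 = 0
  · unfold trP
    rw [h.st_zero (!b) h0 p.2.1]; simp
  · field_simp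

/-- the rungs `0, 2, d + 2` -/
theorem quP_134 (b : Bool) (d : ℕ) (z w w' : U × U) :
    mar (quP m π b d) (fun p => (p.1, p.2.2.1, p.2.2.2)) (z, w, w') =
      ch m π b 2 z w * ch m π b d w w' / rho π b w := by
  have e1 : mar (quP m π b d) (fun p => (p.1, p.2.2.1, p.2.2.2)) (z, w, w') =
      ∑ y, quP m π b d (z, y, w, w') := mar_prod_13 (quP m π b d) z (w, w')
  rw [e1]
  have e2 : ch m π b 2 z w = ∑ y, st m π b z y * st m π (!b) y w / rho π (!b) y := by
    show ∑ y, st m π b z y * ch m π (!b) 1 y w / rho π (!b) y = _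
    simp_rw [h.ch_one]
  rw [e2, Finset.sum_mul, Finset.sum_div]
  refine Finset.sum_congr rfl fun y _ => ?_
  unfold quP trP
  simp only [Bool.not_not]
  ring

theorem quP_13 (b : Bool) (d : ℕ) :
    mar (quP m π b d) (fun p => (p.1, p.2.2.1)) = chP m π b 2 := by
  funext ⟨z, w⟩
  have e1 := mar_fst (quP m π b d) (fun p => (p.1, p.2.2.1)) (fun p => p.2.2.2) (z, w)
  rw [← e1]
  have e2 : ∀ w', mar (quP m π b d) (fun p => ((p.1, p.2.2.1), p.2.2.2)) ((z, w), w') =
      ch m π b 2 z w * ch m π b d w w' / rho π b w := by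
    intro w'
    rw [← quP_134 h]
    exact mar_inj (quP m π b d) (fun p => (p.1, p.2.2.1, p.2.2.2))
      (e := fun x : (U × U) × (U × U) × (U × U) => ((x.1, x.2.1), x.2.2)) (fun x y hxy => by
        simp only [Prod.mk.injEq] at hxy
        exact Prod.ext hxy.1.1 (Prod.ext hxy.1.2 hxy.2)) (z, w, w')
  simp_rw [e2]
  rw [← Finset.sum_div, ← Finset.mul_sum, h.ch_sum]
  unfold chP
  simp only
  by_cases h0 : rho π b w = 0
  · have : ch m π b 2 z w = 0 := by
      rw [h.ch_symm, show par b 2 = b by simp [par]]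
      exact h.ch_zero _ _ h0 z
    rw [this]; simp
  · field_simp

theorem quP_14 (b : Bool) (d : ℕ) :
    mar (quP m π b d) (fun p => (p.1, p.2.2.2)) = chP m π b (d + 2) := by
  funext ⟨z, w⟩
  have e1 := mar_fst (quP m π b d) (fun p => (p.1, p.2.2.2)) (fun p => p.2.1) (z, w)
  rw [← e1]
  have e2 : ∀ y, mar (quP m π b d) (fun p => ((p.1, p.2.2.2), p.2.1)) ((z, w), y) =
      st m π b z y * ch m π (!b) (d + 1) y w / rho π (!b) y := by
    intro y
    have e3 := mar_fst (quP m π b d) (fun p => ((p.1, p.2.2.2), p.2.1)) (fun p => p.2.2.1)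
      ((z, w), y)
    rw [← e3]
    have e4 : ∀ y', mar (quP m π b d) (fun p => (((p.1, p.2.2.2), p.2.1), p.2.2.1))
        (((z, w), y), y') = quP m π b d (z, y, y', w) := by
      intro y'
      rw [← mar_id (quP m π b d) (z, y, y', w)]
      exact mar_inj (quP m π b d) (fun p => p) (e := fun x : (U × U) × (U × U) × (U × U) × (U × U)
        => (((x.1, x.2.2.2), x.2.1), x.2.2.1)) (fun x y hxy => by
          simp only [Prod.mk.injEq] at hxy
          exact Prod.ext hxy.1.1.1 (Prod.ext hxy.1.2 (Prod.ext hxy.2 hxy.1.1.2))) (z, y, y', w)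
    simp_rw [e4]
    have e5 : ch m π (!b) (d + 1) y w =
        ∑ y', st m π (!b) y y' * ch m π (!!b) d y' w / rho π (!!b) y' := rfl
    rw [e5, Finset.mul_sum, Finset.sum_div]
    rfl
  simp_rw [e2]
  rfl

end marginals

end Vale.Agent.P050.Cart
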