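import Vale.Agent.P050.Cart.Info

/-!
Numerical relations between the entropies of chains of rungs.
-/

set_option linter.unusedSectionVars false

namespace Vale.Agent.P050.Cart

open Finset

variable {U : Type} [Fintype U]

/-- entropy of a vertex on the side `b` -/
noncomputable def hm (m : Bool → U → ℝ) (b : Bool) : ℝ := ent (m b) (fun x => x)

/-- entropy of an edge -/
noncomputable def hr (π : U → U → ℝ) : ℝ := ent (rho π false) (fun z => z)

/-- mutual information of an edge -/
noncomputable def ii (m : Bool → U → ℝ) (π : U → U → ℝ) : ℝ := hm m false + hm m true - hr π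

/-- entropy of two rungs at distance `d` -/
noncomputable def hc (m : Bool → U → ℝ) (π : U → U → ℝ) (b : Bool) (d : ℕ) : ℝ :=
  ent (chP m π b d) (fun p => p)

/-- entropy of the first entries of two rungs at distance `d` -/
noncomputable def hf (m : Bool → U → ℝ) (π : U → U → ℝ) (b : Bool) (d : ℕ) : ℝ :=
  ent (chP m π b d) (fun p => (p.1.1, p.2.1))

/-- entropy of the second entries of two rungs at distance `d` -/
noncomputable def hs (m : Bool → U → ℝ) (π : U → U → ℝ) (b : Bool) (d : ℕ) : ℝ :=
  ent (chP m π b d) (fun p => (p.1.2, p.2.2))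

/-- conditional information of the first entries of the rungs `0` and `d + 1`, given that of `1` -/
noncomputable def cf (m : Bool → U → ℝ) (π : U → U → ℝ) (b : Bool) (d : ℕ) : ℝ :=
  ent (trP m π b d) (fun p => (p.1.1, p.2.1.1)) + ent (trP m π b d) (fun p => (p.2.2.1, p.2.1.1)) -
    ent (trP m π b d) (fun p => (p.1.1, p.2.2.1, p.2.1.1)) - ent (trP m π b d) (fun p => p.2.1.1)

/-- conditional information of the second entries of the rungs `0` and `d + 1`, given that of
`1` -/
noncomputable def cs (m : Bool → U → ℝ) (π : U → U → ℝ) (b : Bool) (d : ℕ) : ℝ :=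
  ent (trP m π b d) (fun p => (p.1.2, p.2.1.2)) + ent (trP m π b d) (fun p => (p.2.2.2, p.2.1.2)) -
    ent (trP m π b d) (fun p => (p.1.2, p.2.2.2, p.2.1.2)) - ent (trP m π b d) (fun p => p.2.1.2)

/-- sum of conditional informations, first entries -/
noncomputable def ef (m : Bool → U → ℝ) (π : U → U → ℝ) : Bool → ℕ → ℝ
  | _, 0 => 0
  | _, 1 => 0
  | b, d + 2 => cf m π b (d + 1) + ef m π (!b) (d + 1)

/-- sum of conditional informations, second entries -/
noncomputable def es (m : Bool → U → ℝ) (π : U → U → ℝ) : Bool → ℕ → ℝ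
  | _, 0 => 0
  | _, 1 => 0
  | b, d + 2 => cs m π b (d + 1) + es m π (!b) (d + 1)

/-- mutual information of the ends of a cherry -/
noncomputable def jj (m : Bool → U → ℝ) (π : U → U → ℝ) : ℝ :=
  2 * ii m π - (2 * hr π - hc m π false 1)

noncomputable def pot0 (m : Bool → U → ℝ) (π : U → U → ℝ) (b : Bool) (d : ℕ) : ℝ :=
  d * jj m π + (2 * hr π - hc m π b d)

noncomputable def potf (m : Bool → U → ℝ) (π : U → U → ℝ) (b : Bool) (d : ℕ) : ℝ :=
  hm m b + hm m (par b d) - hf m π b d - ef m π b d

noncomputable def pots (m : Bool → U → ℝ) (π : U → U → ℝ) (b : Bool) (d : ℕ) : ℝ :=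
  hm m (!b) + hm m (!(par b d)) - hs m π b d - es m π b d

section rel

variable {m : Bool → U → ℝ} {π : U → U → ℝ} (h : Base m π)
include h

/-- the swap of the entries of a rung -/
def sw (z : U × U) : U × U := (z.2, z.1)

omit h [Fintype U] in
theorem sw_inj : Function.Injective (sw : U × U → U × U) := fun x y hxy => by
  simp only [sw, Prod.mk.injEq] at hxy
  exact Prod.ext hxy.2 hxy.1

omit h [Fintype U] in
theorem rho_sw (b : Bool) (z : U × U) : rho π (!b) (sw z) = rho π b z := by
  unfold rho sw
  cases b <;> simp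

theorem tau_sw (z w : U × U) : tau m π (sw w) (sw z) = tau m π z w := by
  obtain ⟨x, u⟩ := z
  obtain ⟨y, v⟩ := w
  unfold tau sw
  simp only
  have : cherry m π v x = cherry m π x v := by
    unfold cherry
    exact Finset.sum_congr rfl fun y _ => by ring
  rw [this]
  ring

theorem st_sw (b : Bool) (z w : U × U) : st m π (!b) (sw z) (sw w) = st m π b z w := by
  unfold st
  cases b
  · simpa using tau_sw h z w
  · simpa using tau_sw h w z

theorem ch_sw (b : Bool) (d : ℕ) (z w : U × U) :
    ch m π (!b) d (sw z) (sw w) = ch m π b d z w := by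
  classical
  induction d generalizing b z with
  | zero =>
    simp only [ch]
    by_cases hzw : z = w
    · rw [if_pos hzw, if_pos (by rw [hzw]), rho_sw]
    · rw [if_neg hzw, if_neg (fun h => hzw (sw_inj h))]
  | succ d ih =>
    simp only [ch]
    rw [← (Equiv.prodComm U U).sum_comp]
    refine Finset.sum_congr rfl fun z' _ => ?_
    have e : (Equiv.prodComm U U) z' = sw z' := rfl
    rw [e, st_sw h, ih (!b), rho_sw]

theorem ent_rho (b : Bool) : ent (rho π b) (fun z => z) = hr π := by
  cases b
  · rfl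
  · unfold hr
    rw [← ent_inj (rho π false) (fun z => z) sw_inj]
    refine ent_law fun a => ?_
    have e1 : mar (rho π false) (fun ω => sw ω) a = mar (rho π false) (fun ω => sw ω)
      (sw (sw a)) := rfl
    rw [e1, mar_inj (rho π false) (fun z => z) sw_inj, mar_id, mar_id]
    exact (rho_sw false (sw a)).symm ▸ rfl

theorem mar_rho_fst (b : Bool) : mar (rho π b) (fun z => z.1) = m b := by
  funext x
  rw [mar_prod_fst]
  exact h.rho_fst b x

theorem mar_rho_snd (b : Bool) : mar (rho π b) (fun z => z.2) = m (!b) := by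
  funext x
  rw [mar_prod_snd]
  exact h.rho_snd b x

/-- entropy of a function of a function -/
theorem ent_comp {Ω α β : Type} [Fintype Ω] [Fintype α] [Fintype β] {P : Ω → ℝ} {f : Ω → α}
    {Q : α → ℝ} (hQ : mar P f = Q) (g : α → β) : ent P (fun ω => g (f ω)) = ent Q g := by
  rw [← hQ, ent_mar]

theorem ch_ent_fst (b : Bool) (d : ℕ) : ent (chP m π b d) (fun p => p.1) = hr π := by
  rw [ent_comp h (chP_fst h b d) (fun z => z), ent_rho h]

theorem ch_ent_snd (b : Bool) (d : ℕ) : ent (chP m π b d) (fun p => p.2) = hr π := by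
  rw [ent_comp h (chP_snd h b d) (fun z => z), ent_rho h]

theorem ch_ent_11 (b : Bool) (d : ℕ) : ent (chP m π b d) (fun p => p.1.1) = hm m b := by
  rw [ent_comp h (chP_fst h b d) (fun z => z.1), ent_comp h (mar_rho_fst h b) (fun z => z)]
  rfl

theorem ch_ent_12 (b : Bool) (d : ℕ) : ent (chP m π b d) (fun p => p.1.2) = hm m (!b) := by
  rw [ent_comp h (chP_fst h b d) (fun z => z.2), ent_comp h (mar_rho_snd h b) (fun z => z)]
  rfl

theorem ch_ent_21 (b : Bool) (d : ℕ) :
    ent (chP m π b d) (fun p => p.2.1) = hm m (par b d) := by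
  rw [ent_comp h (chP_snd h b d) (fun z => z.1), ent_comp h (mar_rho_fst h _) (fun z => z)]
  rfl

theorem ch_ent_22 (b : Bool) (d : ℕ) :
    ent (chP m π b d) (fun p => p.2.2) = hm m (!(par b d)) := by
  rw [ent_comp h (chP_snd h b d) (fun z => z.2), ent_comp h (mar_rho_snd h _) (fun z => z)]
  rfl

/-- the first entries of two adjacent rungs form an edge -/
theorem st_row1 (b : Bool) (x y : U) :
    mar (chP m π b 1) (fun p => (p.1.1, p.2.1)) (x, y) = if b then π y x else π x y := by
  classical
  have e : ∀ p : (U × U) × (U × U), chP m π b 1 p = st m π b p.1 p.2 := fun p => h.ch_one _ _ _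
  have e1 : mar (chP m π b 1) (fun p => (p.1.1, p.2.1)) (x, y) =
      ∑ u, ∑ v, st m π b (x, u) (y, v) := by
    unfold mar
    simp_rw [e]
    rw [Fintype.sum_prod_type, Fintype.sum_prod_type, Finset.sum_eq_single x]
    · refine Finset.sum_congr rfl fun u _ => ?_
      rw [Fintype.sum_prod_type, Finset.sum_eq_single y]
      · simp
      · intro y' _ hy
        simp [hy]
      · intro hn
        exact absurd (mem_univ _) hn
    · intro x' _ hx
      simp [hx]
    · intro hn
      exact absurd (mem_univ _) hn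
  rw [e1]
  cases b
  · simp only [st, Bool.false_eq_true, if_false]
    rw [Finset.sum_comm]
    simp_rw [h.tau_sum_u]
    simp_rw [mul_comm (π x y)]
    exact h.sum_term x y
  · simp only [st, if_true]
    simp_rw [h.tau_sum_u]
    simp_rw [mul_comm (π y x)]
    exact h.sum_term y x

/-- the second entries of two adjacent rungs form an edge -/
theorem st_row2 (b : Bool) (x y : U) :
    mar (chP m π b 1) (fun p => (p.1.2, p.2.2)) (x, y) = if b then π x y else π y x := by
  have h1 := st_row1 h (!b) x y
  have h2 : mar (chP m π b 1) (fun p => (p.1.2, p.2.2)) (x, y) =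
      mar (chP m π (!b) 1) (fun p => (p.1.1, p.2.1)) (x, y) := by
    classical
    unfold mar
    rw [← (Equiv.prodCongr (Equiv.prodComm U U) (Equiv.prodComm U U)).sum_comp]
    refine Finset.sum_congr rfl fun p _ => ?_
    have e1 : (Equiv.prodCongr (Equiv.prodComm U U) (Equiv.prodComm U U)) p =
      (sw p.1, sw p.2) := rfl
    rw [e1]
    have e2 : chP m π b 1 (sw p.1, sw p.2) = chP m π (!b) 1 p := by
      unfold chP
      have := ch_sw h (!b) 1 p.1 p.2
      rwa [Bool.not_not] at this
    rw [e2]
    rfl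
  rw [h2, h1]
  cases b <;> rfl

theorem ent_pi (c : Bool) : ent (fun p : U × U => if c then π p.2 p.1 else π p.1 p.2)
    (fun p => p) = hr π := by
  have : (fun p : U × U => if c then π p.2 p.1 else π p.1 p.2) = rho π c := rfl
  rw [this]
  exact ent_rho h c

theorem hf_one (b : Bool) : hf m π b 1 = hr π := by
  unfold hf
  have e : mar (chP m π b 1) (fun p => (p.1.1, p.2.1)) = rho π b := by
    funext ⟨x, y⟩
    rw [st_row1 h]
    cases b <;> rfl
  rw [ent_comp h e (fun p => p), ent_rho h]

theorem hs_one (b : Bool) : hs m π b 1 = hr π := by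
  unfold hs
  have e : mar (chP m π b 1) (fun p => (p.1.2, p.2.2)) = rho π (!b) := by
    funext ⟨x, y⟩
    rw [st_row2 h]
    cases b <;> rfl
  rw [ent_comp h e (fun p => p), ent_rho h]

theorem hc_one (b : Bool) : hc m π b 1 = hc m π false 1 := by
  cases b
  · rfl
  · unfold hc
    have e : ∀ p, chP m π true 1 p = chP m π false 1 (p.2, p.1) := by
      intro p
      unfold chP
      rw [h.ch_one, h.ch_one, Base.st_symm]
      rfl
    rw [← ent_inj (chP m π false 1) (fun p => p) (e := fun p : (U × U) × (U × U) => (p.2, p.1))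
      (fun x y hxy => by
        simp only [Prod.mk.injEq] at hxy
        exact Prod.ext hxy.2 hxy.1)]
    refine ent_law fun a => ?_
    have e1 := mar_inj (chP m π false 1) (fun p => p)
      (e := fun p : (U × U) × (U × U) => (p.2, p.1))
      (fun x y hxy => by
        simp only [Prod.mk.injEq] at hxy
        exact Prod.ext hxy.2 hxy.1) (a.2, a.1)
    rw [mar_id]
    simp only at e1
    rw [e1, mar_id, e]

omit h in
/-- conditional independence in the form of a kernel -/
theorem ent_kernel {Ω α β γ : Type} [Fintype Ω] [Fintype α] [Fintype β] [Fintype γ] {P : Ω → ℝ}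
    (hP : ∀ ω, 0 ≤ P ω) (f : Ω → α) (g : Ω → β) (b : β → γ) (κ : γ → α → ℝ)
    (hκ : ∀ a c, mar P (fun ω => (f ω, g ω)) (a, c) = κ (b c) a * mar P g c) :
    ent P (fun ω => (f ω, g ω)) + ent P (fun ω => b (g ω)) =
      ent P (fun ω => (f ω, b (g ω))) + ent P g := by
  classical
  have h1 : ∀ a e, mar P (fun ω => (f ω, b (g ω))) (a, e) = κ e a * mar P (fun ω => b (g ω)) e := by
    intro a e
    have e1 : mar P (fun ω => (f ω, b (g ω))) (a, e) =
        ∑ c, if b c = e then mar P (fun ω => (f ω, g ω)) (a, c) else 0 := by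
      have := mar_mar P (fun ω => (f ω, g ω)) (fun x : α × β => (x.1, b x.2)) (a, e)
      rw [← this]
      unfold mar
      rw [Fintype.sum_prod_type, Finset.sum_eq_single a]
      · simp
      · intro a' _ ha
        simp [ha]
      · intro hn
        exact absurd (mem_univ _) hn
    have e2 : mar P (fun ω => b (g ω)) e = ∑ c, if b c = e then mar P g c else 0 := by
      rw [← mar_mar P g b e]
      rfl
    rw [e1, e2, Finset.mul_sum]
    refine Finset.sum_congr rfl fun c _ => ?_
    split_ifs with hc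
    · rw [hκ, hc]
    · rw [mul_zero]
  rw [ent_eq, ent_eq, ent_eq, ent_eq]
  have e2 : ∀ ω, P ω * Real.log (mar P (fun ω => (f ω, g ω)) (f ω, g ω))
      + P ω * Real.log (mar P (fun ω => b (g ω)) (b (g ω))) =
      P ω * Real.log (mar P (fun ω => (f ω, b (g ω))) (f ω, b (g ω)))
      + P ω * Real.log (mar P g (g ω)) := by
    intro ω
    by_cases h0 : P ω = 0
    · rw [h0]; ring
    have n1 : mar P (fun ω => (f ω, g ω)) (f ω, g ω) ≠ 0 :=
      mar_ne_zero hP (fun ω => (f ω, g ω)) h0
    have n2 : mar P (fun ω => b (g ω)) (b (g ω)) ≠ 0 := mar_ne_zero hP (fun ω => b (g ω)) h0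
    have n3 : mar P g (g ω) ≠ 0 := mar_ne_zero hP g h0
    have n4 : mar P (fun ω => (f ω, b (g ω))) (f ω, b (g ω)) ≠ 0 :=
      mar_ne_zero hP (fun ω => (f ω, b (g ω))) h0
    rw [← mul_add, ← mul_add, ← Real.log_mul n1 n2, ← Real.log_mul n4 n3, hκ, h1]
    congr 2
    ring
  have := Finset.sum_congr rfl fun ω (_ : ω ∈ univ) => e2 ω
  rw [Finset.sum_add_distrib, Finset.sum_add_distrib] at this
  linarith

/-- the entropy of the three rungs `0, 1, d + 1` -/
theorem tr_id (b : Bool) (d : ℕ) :
    ent (trP m π b d) (fun p => p) = hc m π false 1 + hc m π (!b) d - hr π := by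
  have h1 := ent_kernel (trP_nonneg h b d) (fun p => p.1) (fun p => p.2) (fun q => q.1)
    (fun c a => st m π b a c / rho π (!b) c) (fun a c => by
      have e1 : mar (trP m π b d) (fun p => (p.1, p.2)) (a, c) = trP m π b d (a, c) :=
        mar_id (trP m π b d) (a, c)
      rw [e1, trP_23 h]
      unfold trP chP
      ring)
  have e2 : ent (trP m π b d) (fun p => p.2.1) = hr π := by
    rw [ent_comp h (trP_23 h b d) (fun q => q.1)]
    exact ch_ent_fst h _ _
  have e3 : ent (trP m π b d) (fun p => (p.1, p.2.1)) = hc m π b 1 := by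
    rw [ent_comp h (trP_12 h b d) (fun q => q)]
    rfl
  have e4 : ent (trP m π b d) (fun p => p.2) = hc m π (!b) d := by
    rw [ent_comp h (trP_23 h b d) (fun q => q)]
    rfl
  rw [e2, e3, e4, hc_one h] at h1
  have e5 : ent (trP m π b d) (fun p => (p.1, p.2)) = ent (trP m π b d) (fun p => p) := rfl
  rw [e5] at h1
  linarith

theorem tr_13 (b : Bool) (d : ℕ) :
    ent (trP m π b d) (fun p => (p.1, p.2.2)) = hc m π b (d + 1) := by
  rw [ent_comp h (trP_13 h b d) (fun q => q)]
  rfl

theorem tr_13f (b : Bool) (d : ℕ) :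
    ent (trP m π b d) (fun p => (p.1.1, p.2.2.1)) = hf m π b (d + 1) := by
  rw [ent_comp h (trP_13 h b d) (fun q => (q.1.1, q.2.1))]
  rfl

theorem tr_13s (b : Bool) (d : ℕ) :
    ent (trP m π b d) (fun p => (p.1.2, p.2.2.2)) = hs m π b (d + 1) := by
  rw [ent_comp h (trP_13 h b d) (fun q => (q.1.2, q.2.2))]
  rfl

theorem tr_2 (b : Bool) (d : ℕ) : ent (trP m π b d) (fun p => p.2.1) = hr π := by
  rw [ent_comp h (trP_23 h b d) (fun q => q.1)]
  exact ch_ent_fst h _ _

theorem tr_2f (b : Bool) (d : ℕ) : ent (trP m π b d) (fun p => p.2.1.1) = hm m (!b) := by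
  rw [ent_comp h (trP_23 h b d) (fun q => q.1.1)]
  exact ch_ent_11 h _ _

theorem tr_2s (b : Bool) (d : ℕ) : ent (trP m π b d) (fun p => p.2.1.2) = hm m b := by
  rw [ent_comp h (trP_23 h b d) (fun q => q.1.2)]
  rw [ch_ent_12 h, Bool.not_not]

/-- the entropy of the first entries of the three rungs -/
theorem tr_f (b : Bool) (d : ℕ) : ent (trP m π b d) (fun p => (p.1.1, p.2.2.1, p.2.1.1)) =
    hr π + hf m π (!b) d - hm m (!b) - cf m π b d := by
  have e1 : ent (trP m π b d) (fun p => (p.1.1, p.2.1.1)) = hr π := by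
    rw [ent_comp h (trP_12 h b d) (fun q => (q.1.1, q.2.1))]
    exact hf_one h b
  have e2 : ent (trP m π b d) (fun p => (p.2.2.1, p.2.1.1)) = hf m π (!b) d := by
    rw [ent_comm, ent_comp h (trP_23 h b d) (fun q => (q.1.1, q.2.1))]
    rfl
  have e3 := tr_2f h b d
  unfold cf
  rw [e1, e2, e3]
  ring

/-- the entropy of the second entries of the three rungs -/
theorem tr_s (b : Bool) (d : ℕ) : ent (trP m π b d) (fun p => (p.1.2, p.2.2.2, p.2.1.2)) =
    hr π + hs m π (!b) d - hm m b - cs m π b d := by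
  have e1 : ent (trP m π b d) (fun p => (p.1.2, p.2.1.2)) = hr π := by
    rw [ent_comp h (trP_12 h b d) (fun q => (q.1.2, q.2.2))]
    exact hs_one h b
  have e2 : ent (trP m π b d) (fun p => (p.2.2.2, p.2.1.2)) = hs m π (!b) d := by
    rw [ent_comm, ent_comp h (trP_23 h b d) (fun q => (q.1.2, q.2.2))]
    rfl
  have e3 := tr_2s h b d
  unfold cs
  rw [e1, e2, e3]
  ring

theorem cf_nonneg (b : Bool) (d : ℕ) : 0 ≤ cf m π b d := by
  have := ent_submod (trP_nonneg h b d) (fun p => p.1.1) (fun p => p.2.2.1) (fun p => p.2.1.1)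
  unfold cf
  linarith

theorem cs_nonneg (b : Bool) (d : ℕ) : 0 ≤ cs m π b d := by
  have := ent_submod (trP_nonneg h b d) (fun p => p.1.2) (fun p => p.2.2.2) (fun p => p.2.1.2)
  unfold cs
  linarith

theorem ef_nonneg (b : Bool) (d : ℕ) : 0 ≤ ef m π b d := by
  induction d generalizing b with
  | zero => simp [ef]
  | succ d ih =>
    cases d with
    | zero => simp [ef]
    | succ d => exact add_nonneg (cf_nonneg h _ _) (ih _)

theorem es_nonneg (b : Bool) (d : ℕ) : 0 ≤ es m π b d := by
  induction d generalizing b with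
  | zero => simp [es]
  | succ d ih =>
    cases d with
    | zero => simp [es]
    | succ d => exact add_nonneg (cs_nonneg h _ _) (ih _)

/-- the information of two rungs -/
theorem hc_le (b : Bool) (d : ℕ) : hc m π b d ≤ 2 * hr π := by
  have := ent_subadd (chP_nonneg h b d) (chP_total h b d) (fun p => p.1) (fun p => p.2)
  rw [ch_ent_fst h, ch_ent_snd h] at this
  have e : ent (chP m π b d) (fun p => (p.1, p.2)) = hc m π b d := rfl
  rw [e] at this
  linarith

theorem hf_dp (b : Bool) (d : ℕ) :
    hm m b + hm m (par b d) - hf m π b d ≤ 2 * hr π - hc m π b d := by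
  have := mi_le (chP_nonneg h b d) (fun p => p.1) (fun p => p.2) (fun z => z.1) (fun z => z.1)
  rw [ch_ent_fst h, ch_ent_snd h, ch_ent_11 h, ch_ent_21 h] at this
  have e : ent (chP m π b d) (fun p => (p.1, p.2)) = hc m π b d := rfl
  have e2 : ent (chP m π b d) (fun p => (p.1.1, p.2.1)) = hf m π b d := rfl
  rw [e, e2] at this
  linarith

theorem hs_dp (b : Bool) (d : ℕ) :
    hm m (!b) + hm m (!(par b d)) - hs m π b d ≤ 2 * hr π - hc m π b d := by
  have := mi_le (chP_nonneg h b d) (fun p => p.1) (fun p => p.2) (fun z => z.2) (fun z => z.2)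
  rw [ch_ent_fst h, ch_ent_snd h, ch_ent_12 h, ch_ent_22 h] at this
  have e : ent (chP m π b d) (fun p => (p.1, p.2)) = hc m π b d := rfl
  have e2 : ent (chP m π b d) (fun p => (p.1.2, p.2.2)) = hs m π b d := rfl
  rw [e, e2] at this
  linarith

end rel

end Vale.Agent.P050.Cart
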