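import Vale.Agent.P050.Cart.Pot

/-!
The potentials are nonnegative at the start of an ear.
-/

set_option linter.unusedSectionVars false

namespace Vale.Agent.P050.Cart

open Finset

theorem kernel_map {Ω α β γ δ : Type} [Fintype Ω] [Fintype α] [Fintype β] [Fintype γ]
    [Fintype δ] {P : Ω → ℝ} (f : Ω → α) (g : Ω → β) (G : β → δ) (b : δ → γ) (κ : γ → α → ℝ)
    (hκ : ∀ a c, mar P (fun ω => (f ω, g ω)) (a, c) = κ (b (G c)) a * mar P g c) (a : α) (e : δ) :
    mar P (fun ω => (f ω, G (g ω))) (a, e) = κ (b e) a * mar P (fun ω => G (g ω)) e := by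
  classical
  have e1 : mar P (fun ω => (f ω, G (g ω))) (a, e) =
      ∑ c, if G c = e then mar P (fun ω => (f ω, g ω)) (a, c) else 0 := by
    have := mar_mar P (fun ω => (f ω, g ω)) (fun x : α × β => (x.1, G x.2)) (a, e)
    rw [← this]
    unfold mar
    rw [Fintype.sum_prod_type, Finset.sum_eq_single a]
    · simp
    · intro a' _ ha
      simp [ha]
    · intro hn
      exact absurd (mem_univ _) hn
  have e2 : mar P (fun ω => G (g ω)) e = ∑ c, if G c = e then mar P g c else 0 := by
    rw [← mar_mar P g G e]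
    rfl
  rw [e1, e2, Finset.mul_sum]
  refine Finset.sum_congr rfl fun c _ => ?_
  split_ifs with hc
  · rw [hκ, hc]
  · rw [mul_zero]

/-- `I(a; d) ≤ I(a; c) + I(b; d | c)` if `a` and `(c, d)` are independent given `b` -/
theorem info_four {Ω α β γ δ : Type} [Fintype Ω] [Fintype α] [Fintype β] [Fintype γ]
    [Fintype δ] {P : Ω → ℝ} (hP : ∀ ω, 0 ≤ P ω) (a : Ω → α) (b : Ω → β) (c : Ω → γ) (d : Ω → δ)
    (hM : ent P (fun ω => (a ω, b ω, c ω, d ω)) + ent P b =
      ent P (fun ω => (a ω, b ω)) + ent P (fun ω => (b ω, c ω, d ω))) :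
    ent P a + ent P d - ent P (fun ω => (a ω, d ω)) ≤
      (ent P a + ent P c - ent P (fun ω => (a ω, c ω))) +
      (ent P (fun ω => (b ω, c ω)) + ent P (fun ω => (d ω, c ω)) -
        ent P (fun ω => (b ω, d ω, c ω)) - ent P c) := by
  -- I(a; d) ≤ I(a; c d)
  have s1 := ent_submod hP a c d
  -- I(a; d | c) ≤ I(a b; d | c)
  have s2 := ent_submod hP b d (fun ω => (a ω, c ω))
  -- I(a; c | b) ≥ 0
  have s3 := ent_submod hP a c b
  have e1 : ent P (fun ω => (b ω, d ω, a ω, c ω)) = ent P (fun ω => (a ω, b ω, c ω, d ω)) :=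
    ent_inj P (fun ω => (a ω, b ω, c ω, d ω))
      (e := fun x : α × β × γ × δ => (x.2.1, x.2.2.2, x.1, x.2.2.1)) (fun x y hxy => by
      simp only [Prod.mk.injEq] at hxy
      exact Prod.ext hxy.2.2.1 (Prod.ext hxy.1 (Prod.ext hxy.2.2.2 hxy.2.1)))
  have e2 : ent P (fun ω => (b ω, a ω, c ω)) = ent P (fun ω => (a ω, c ω, b ω)) :=
    ent_inj P (fun ω => (a ω, c ω, b ω))
      (e := fun x : α × γ × β => (x.2.2, x.1, x.2.1)) (fun x y hxy => by
      simp only [Prod.mk.injEq] at hxy
      exact Prod.ext hxy.2.1 (Prod.ext hxy.2.2 hxy.1))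
  have e3 : ent P (fun ω => (d ω, a ω, c ω)) = ent P (fun ω => (a ω, c ω, d ω)) :=
    ent_inj P (fun ω => (a ω, c ω, d ω))
      (e := fun x : α × γ × δ => (x.2.2, x.1, x.2.1)) (fun x y hxy => by
      simp only [Prod.mk.injEq] at hxy
      exact Prod.ext hxy.2.1 (Prod.ext hxy.2.2 hxy.1))
  have e4 : ent P (fun ω => (b ω, d ω, c ω)) = ent P (fun ω => (b ω, c ω, d ω)) :=
    ent_inj P (fun ω => (b ω, c ω, d ω))
      (e := fun x : β × γ × δ => (x.1, x.2.2, x.2.1)) (fun x y hxy => by
      simp only [Prod.mk.injEq] at hxy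
      exact Prod.ext hxy.1 (Prod.ext hxy.2.2 hxy.2.1))
  have e5 := ent_comm P c d
  have e6 := ent_comm P c b
  rw [e1, e2, e3] at s2
  rw [e6] at s3
  rw [e4, e5.symm]
  linarith

variable {U : Type} [Fintype U]

section rel

variable {m : Bool → U → ℝ} {π : U → U → ℝ} (h : Base m π)
include h

theorem chP_sw (b : Bool) (d : ℕ) :
    mar (chP m π b d) (fun p => (sw p.1, sw p.2)) = chP m π (!b) d := by
  funext q
  have hinj : Function.Injective (fun p : (U × U) × (U × U) => (sw p.1, sw p.2)) :=
    fun x y hxy => by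
      simp only [Prod.mk.injEq] at hxy
      exact Prod.ext (sw_inj hxy.1) (sw_inj hxy.2)
  have e := mar_inj (chP m π b d) (fun p => p) hinj (sw q.1, sw q.2)
  rw [mar_id] at e
  have e2 : (sw (sw q.1, sw q.2).1, sw (sw q.1, sw q.2).2) = q := rfl
  rw [e2] at e
  rw [e]
  unfold chP
  have := ch_sw h (!b) d q.1 q.2
  rw [Bool.not_not] at this
  exact this

theorem trP_sw (b : Bool) (d : ℕ) :
    mar (trP m π b d) (fun p => (sw p.1, sw p.2.1, sw p.2.2)) = trP m π (!b) d := by
  funext q
  have hinj : Function.Injective (fun p : (U × U) × (U × U) × (U × U) =>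
      (sw p.1, sw p.2.1, sw p.2.2)) :=
    fun x y hxy => by
      simp only [Prod.mk.injEq] at hxy
      exact Prod.ext (sw_inj hxy.1) (Prod.ext (sw_inj hxy.2.1) (sw_inj hxy.2.2))
  have e := mar_inj (trP m π b d) (fun p => p) hinj (sw q.1, sw q.2.1, sw q.2.2)
  rw [mar_id] at e
  have e2 : (sw (sw q.1, sw q.2.1, sw q.2.2).1, sw (sw q.1, sw q.2.1, sw q.2.2).2.1,
    sw (sw q.1, sw q.2.1, sw q.2.2).2.2) = q := rfl
  rw [e2] at e
  rw [e]
  unfold trP
  simp only
  have h1 := st_sw h (!b) q.1 q.2.1
  have h2 := ch_sw h (!!b) d q.2.1 q.2.2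
  have h3 := rho_sw (π := π) (!!b) q.2.1
  rw [Bool.not_not] at h1 h2 h3
  rw [h1, h2, h3, Bool.not_not]

theorem hs_eq (b : Bool) (d : ℕ) : hs m π b d = hf m π (!b) d := by
  unfold hs hf
  rw [← ent_comp h (chP_sw h b d) (fun p => (p.1.1, p.2.1))]
  rfl

theorem cs_eq (b : Bool) (d : ℕ) : cs m π b d = cf m π (!b) d := by
  unfold cs cf
  rw [← ent_comp h (trP_sw h b d) (fun p => (p.1.1, p.2.1.1)),
    ← ent_comp h (trP_sw h b d) (fun p => (p.2.2.1, p.2.1.1)),
    ← ent_comp h (trP_sw h b d) (fun p => (p.1.1, p.2.2.1, p.2.1.1)),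
    ← ent_comp h (trP_sw h b d) (fun p => p.2.1.1)]
  rfl

theorem es_eq (b : Bool) (d : ℕ) : es m π b d = ef m π (!b) d := by
  induction d generalizing b with
  | zero => simp [es, ef]
  | succ d ih =>
    cases d with
    | zero => simp [es, ef]
    | succ d =>
      simp only [es, ef]
      rw [cs_eq h, ih]

theorem pots_eq (b : Bool) (d : ℕ) : pots m π b d = potf m π (!b) d := by
  unfold pots potf
  rw [hs_eq h, es_eq h, par_not]

/-- the law of `x, v, u` -/
theorem tau_xvu (x v u : U) :
    mar (chP m π false 1) (fun p => (p.1.1, p.2.2, p.1.2)) (x, v, u) =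
      π x u * π v u / m true u := by
  classical
  rw [← h.tau_sum_y x u v]
  unfold mar
  rw [Fintype.sum_prod_type, Finset.sum_eq_single (x, u)]
  · rw [Fintype.sum_prod_type]
    refine Finset.sum_congr rfl fun y _ => ?_
    rw [Finset.sum_eq_single v]
    · simp only [if_true]
      exact h.ch_one false (x, u) (y, v)
    · intro v' _ hv
      simp [hv]
    · intro hn
      exact absurd (mem_univ _) hn
  · rintro ⟨x', u'⟩ _ hx
    refine Finset.sum_eq_zero fun w _ => ?_
    rw [if_neg]
    intro hh
    simp only [Prod.mk.injEq] at hh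
    exact hx (by rw [hh.1, hh.2.2])
  · intro hn
    exact absurd (mem_univ _) hn

/-- the law of `x, v, y` -/
theorem tau_xvy (x v y : U) :
    mar (chP m π false 1) (fun p => (p.1.1, p.2.2, p.2.1)) (x, v, y) =
      π x y * π v y / m true y := by
  classical
  rw [← h.tau_sum_u x y v]
  unfold mar
  rw [Fintype.sum_prod_type_right, Finset.sum_eq_single (y, v)]
  · rw [Fintype.sum_prod_type, Finset.sum_eq_single x]
    · refine Finset.sum_congr rfl fun u _ => ?_
      simp only [if_true]
      exact h.ch_one false (x, u) (y, v)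
    · intro x' _ hx
      simp [hx]
    · intro hn
      exact absurd (mem_univ _) hn
  · rintro ⟨y', v'⟩ _ hx
    refine Finset.sum_eq_zero fun w _ => ?_
    rw [if_neg]
    intro hh
    simp only [Prod.mk.injEq] at hh
    exact hx (by rw [hh.2.1, hh.2.2])
  · intro hn
    exact absurd (mem_univ _) hn

/-- the law of `x, v` -/
theorem tau_xv (x v : U) :
    mar (chP m π false 1) (fun p => (p.1.1, p.2.2)) (x, v) = cherry m π x v := by
  have e := mar_fst (chP m π false 1) (fun p => (p.1.1, p.2.2)) (fun p => p.2.1) (x, v)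
  rw [← e]
  unfold cherry
  refine Finset.sum_congr rfl fun y _ => ?_
  rw [← tau_xvy h]
  exact mar_inj (chP m π false 1) (fun p => (p.1.1, p.2.2, p.2.1))
    (e := fun x : U × U × U => ((x.1, x.2.1), x.2.2)) (fun x y hxy => by
      simp only [Prod.mk.injEq] at hxy
      exact Prod.ext hxy.1.1 (Prod.ext hxy.1.2 hxy.2)) (x, v, y)

theorem tau_vu (v u : U) : mar (chP m π false 1) (fun p => (p.2.2, p.1.2)) (v, u) = π v u := by
  have e := st_row2 h false u v
  simp only [Bool.false_eq_true, if_false] at e
  rw [← e]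
  exact mar_inj (chP m π false 1) (fun p => (p.1.2, p.2.2))
    (e := fun x : U × U => (x.2, x.1)) (fun x y hxy => by
      simp only [Prod.mk.injEq] at hxy
      exact Prod.ext hxy.2 hxy.1) (u, v)

theorem tau_vy (v y : U) : mar (chP m π false 1) (fun p => (p.2.2, p.2.1)) (v, y) = π v y := by
  have e : mar (chP m π false 1) (fun p => (p.2.2, p.2.1)) (v, y) =
      mar (mar (chP m π false 1) (fun p => p.2)) (fun w => (w.2, w.1)) (v, y) := by
    rw [mar_mar]
  rw [e, chP_snd h]
  have e2 := mar_inj (rho π (par false 1)) (fun w => w)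
    (e := fun x : U × U => (x.2, x.1)) (fun x y hxy => by
      simp only [Prod.mk.injEq] at hxy
      exact Prod.ext hxy.2 hxy.1) (y, v)
  rw [mar_id] at e2
  exact e2

/-- the entropy of `x, v, u` -/
theorem tau_ent_xvu : ent (chP m π false 1) (fun p => (p.1.1, p.2.2, p.1.2)) =
    2 * hr π - hm m true := by
  have h1 := ent_kernel (chP_nonneg h false 1) (fun p => p.1.1) (fun p => (p.2.2, p.1.2))
    (fun q => q.2) (fun u x => π x u / m true u) (fun x q => by
      obtain ⟨v, u⟩ := q
      rw [tau_xvu h, tau_vu h]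
      ring)
  have e1 : ent (chP m π false 1) (fun p => p.1.2) = hm m true := ch_ent_12 h false 1
  have e2 : ent (chP m π false 1) (fun p => (p.1.1, p.1.2)) = hr π := ch_ent_fst h false 1
  have e3 : ent (chP m π false 1) (fun p => (p.2.2, p.1.2)) = hr π := by
    rw [ent_comm]
    exact hs_one h false
  simp only at h1
  rw [e1, e2, e3] at h1
  linarith

/-- the entropy of `x, v, y` -/
theorem tau_ent_xvy : ent (chP m π false 1) (fun p => (p.1.1, p.2.2, p.2.1)) =
    2 * hr π - hm m true := by
  have h1 := ent_kernel (chP_nonneg h false 1) (fun p => p.1.1) (fun p => (p.2.2, p.2.1))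
    (fun q => q.2) (fun u x => π x u / m true u) (fun x q => by
      obtain ⟨v, u⟩ := q
      rw [tau_xvy h, tau_vy h]
      ring)
  have e1 : ent (chP m π false 1) (fun p => p.2.1) = hm m true := ch_ent_21 h false 1
  have e2 : ent (chP m π false 1) (fun p => (p.1.1, p.2.1)) = hr π := hf_one h false
  have e3 : ent (chP m π false 1) (fun p => (p.2.2, p.2.1)) = hr π := by
    rw [ent_comm]
    exact ch_ent_snd h false 1
  simp only at h1
  rw [e1, e2, e3] at h1
  linarith

theorem hc_false : hc m π false 1 = 4 * hr π - 2 * hm m true -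
    ent (chP m π false 1) (fun p => (p.1.1, p.2.2)) := by
  have h1 := ent_kernel (chP_nonneg h false 1) (fun p => p.2.1) (fun p => (p.1.1, p.2.2, p.1.2))
    (fun q => (q.1, q.2.1)) (fun q y => (π q.1 y * π q.2 y / m true y) / cherry m π q.1 q.2)
    (fun y q => by
      obtain ⟨x, v, u⟩ := q
      rw [tau_xvu h]
      have e1 := mar_inj (chP m π false 1) (fun p => p)
        (e := fun p : (U × U) × (U × U) => (p.2.1, p.1.1, p.2.2, p.1.2)) (fun x y hxy => by
          simp only [Prod.mk.injEq] at hxy
          exact Prod.ext (Prod.ext hxy.2.1 hxy.2.2.2) (Prod.ext hxy.1 hxy.2.2.1)) ((x, u), (y, v))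
      rw [mar_id] at e1
      simp only at e1
      rw [e1]
      unfold chP
      simp only
      rw [h.ch_one]
      unfold st tau
      simp only [Bool.false_eq_true, if_false]
      ring)
  simp only at h1
  have e1 : ent (chP m π false 1) (fun p => (p.2.1, p.1.1, p.2.2, p.1.2)) = hc m π false 1 :=
    ent_inj (chP m π false 1) (fun p => p)
        (e := fun p : (U × U) × (U × U) => (p.2.1, p.1.1, p.2.2, p.1.2)) (fun x y hxy => by
          simp only [Prod.mk.injEq] at hxy
          exact Prod.ext (Prod.ext hxy.2.1 hxy.2.2.2) (Prod.ext hxy.1 hxy.2.2.1))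
  have e2 : ent (chP m π false 1) (fun p => (p.2.1, p.1.1, p.2.2)) = 2 * hr π - hm m true := by
    rw [← tau_ent_xvy h]
    exact ent_inj (chP m π false 1) (fun p => (p.1.1, p.2.2, p.2.1))
        (e := fun p : U × U × U => (p.2.2, p.1, p.2.1)) (fun x y hxy => by
          simp only [Prod.mk.injEq] at hxy
          exact Prod.ext hxy.2.1 (Prod.ext hxy.2.2 hxy.1))
  rw [e1, e2, tau_ent_xvu h] at h1
  linarith

theorem hf_two : hf m π false 2 = ent (chP m π false 1) (fun p => (p.1.1, p.2.2)) := by
  classical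
  unfold hf
  refine ent_law fun a => ?_
  obtain ⟨x, x'⟩ := a
  rw [tau_xv h]
  have e1 : mar (chP m π false 2) (fun p => (p.1.1, p.2.1)) (x, x') =
      ∑ u, ∑ u', ch m π false 2 (x, u) (x', u') := by
    unfold mar
    rw [Fintype.sum_prod_type, Fintype.sum_prod_type, Finset.sum_eq_single x]
    · refine Finset.sum_congr rfl fun u _ => ?_
      rw [Fintype.sum_prod_type, Finset.sum_eq_single x']
      · refine Finset.sum_congr rfl fun u' _ => ?_
        simp [chP]
      · intro y' _ hy
        simp [hy]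
      · intro hn
        exact absurd (mem_univ _) hn
    · intro x' _ hx
      simp [hx]
    · intro hn
      exact absurd (mem_univ _) hn
  have e2 : ∀ u u', ch m π false 2 (x, u) (x', u') = ∑ z', tau m π (x, u) z' *
      tau m π (x', u') z' / rho π true z' := by
    intro u u'
    show ∑ z', st m π false (x, u) z' * ch m π true 1 z' (x', u') / rho π true z' = _
    simp_rw [h.ch_one]
    rfl
  rw [e1]
  simp_rw [e2]
  have e3 : ∑ u, ∑ u', ∑ z', tau m π (x, u) z' * tau m π (x', u') z' / rho π true z' =
      ∑ z', (∑ u, tau m π (x, u) z') * (∑ u', tau m π (x', u') z') / rho π true z' := by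
    rw [Finset.sum_congr rfl fun u _ => Finset.sum_comm]
    rw [Finset.sum_comm]
    refine Finset.sum_congr rfl fun z' _ => ?_
    rw [Finset.sum_mul_sum, Finset.sum_div]
    refine Finset.sum_congr rfl fun u _ => ?_
    rw [Finset.sum_div]
  rw [e3, Fintype.sum_prod_type]
  unfold cherry
  refine Finset.sum_congr rfl fun y _ => ?_
  have e4 : ∀ v, (∑ u, tau m π (x, u) (y, v)) * (∑ u', tau m π (x', u') (y, v)) /
      rho π true (y, v) = (π x y * π x' y / m true y) * (π v y / m true y) := by
    intro v
    rw [h.tau_sum_u, h.tau_sum_u]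
    have : rho π true (y, v) = π v y := rfl
    rw [this]
    by_cases h0 : π v y = 0
    · rw [h0]; simp
    · field_simp
  simp_rw [e4]
  rw [← Finset.mul_sum, ← Finset.sum_div, h.col]
  by_cases hy : m true y = 0
  · rw [hy]; simp
  · rw [div_self hy, mul_one]

theorem jj_eq : jj m π = 2 * hm m false - hf m π false 2 := by
  unfold jj ii
  rw [hf_two h, hc_false h]
  ring

theorem jj_nonneg : 0 ≤ jj m π := by
  rw [jj_eq h]
  have := ent_subadd (chP_nonneg h false 2) (chP_total h false 2) (fun p => p.1.1) (fun p => p.2.1)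
  rw [ch_ent_11 h, ch_ent_21 h] at this
  have e : ent (chP m π false 2) (fun p => (p.1.1, p.2.1)) = hf m π false 2 := rfl
  rw [e] at this
  have e2 : par false 2 = false := rfl
  rw [e2] at this
  linarith

/-- **Main estimate**: the information between the first entries of the ends of a chain. -/
theorem potf_false (d : ℕ) : potf m π false (d + 2) ≤ jj m π := by
  have hef := ef_nonneg h
  have hcf := cf_nonneg h
  cases d with
  | zero =>
    unfold potf
    rw [jj_eq h]
    have e1 : par false (0 + 2) = false := rfl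
    have e2 : ef m π false (0 + 2) = cf m π false 1 + ef m π true 1 := rfl
    rw [e1, e2]
    have := hef true 1
    have := hcf false 1
    linarith
  | succ d =>
    -- the quadruple of rungs `0, 1, 2, d + 3`
    have hP := quP_nonneg h false (d + 1)
    have hk : ∀ a c, mar (quP m π false (d + 1)) (fun p => (p.1.1, p.2)) (a, c) =
        (π a c.1.1 / m true c.1.1) * mar (quP m π false (d + 1)) (fun p => p.2) c := by
      classical
      intro x q
      rw [quP_234 h]
      have e1 : mar (quP m π false (d + 1)) (fun p => (p.1.1, p.2)) (x, q) =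
          ∑ u, quP m π false (d + 1) ((x, u), q) := by
        unfold mar
        rw [Fintype.sum_prod_type, Fintype.sum_prod_type, Finset.sum_eq_single x]
        · refine Finset.sum_congr rfl fun u _ => ?_
          rw [Finset.sum_eq_single q]
          · simp
          · intro q' _ hq
            simp [hq]
          · intro hn
            exact absurd (mem_univ _) hn
        · intro x' _ hx
          simp [hx]
        · intro hn
          exact absurd (mem_univ _) hn
      rw [e1]
      unfold quP
      simp only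
      rw [← Finset.sum_div, ← Finset.sum_mul]
      have e2 : ∑ u, st m π false (x, u) q.1 = π x q.1.1 * π q.1.2 q.1.1 / m true q.1.1 :=
        h.tau_sum_u x q.1.1 q.1.2
      rw [e2]
      have e3 : rho π (!false) q.1 = π q.1.2 q.1.1 := rfl
      rw [e3]
      by_cases h0 : π q.1.2 q.1.1 = 0
      · have e4 : trP m π (!false) (d + 1) q = 0 := by
          unfold trP
          rw [h.st_zero (!false) (by rw [e3, h0]) q.2.1]
          simp
        rw [h0, e4]; simp
      · field_simp
    have hk2 := kernel_map (P := quP m π false (d + 1)) (fun p => p.1.1) (fun p => p.2)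
      (fun q : (U × U) × (U × U) × (U × U) => (q.1.1, q.2.1.1, q.2.2.1)) (fun e => e.1)
      (fun y x => π x y / m true y) hk
    have hM := ent_kernel hP (fun p => p.1.1) (fun p => (p.2.1.1, p.2.2.1.1, p.2.2.2.1))
      (fun e => e.1) (fun y x => π x y / m true y) hk2
    have key := info_four hP (fun p => p.1.1) (fun p => p.2.1.1) (fun p => p.2.2.1.1)
      (fun p => p.2.2.2.1) hM
    -- evaluation
    have a1 : ent (quP m π false (d + 1)) (fun p => p.1.1) = hm m false := by
      rw [ent_comp h (quP_14 h false (d + 1)) (fun q => q.1.1)]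
      exact ch_ent_11 h _ _
    have a2 : ent (quP m π false (d + 1)) (fun p => p.2.2.2.1) = hm m (par false (d + 3)) := by
      rw [ent_comp h (quP_14 h false (d + 1)) (fun q => q.2.1)]
      exact ch_ent_21 h _ _
    have a3 : ent (quP m π false (d + 1)) (fun p => (p.1.1, p.2.2.2.1)) = hf m π false (d + 3) := by
      rw [ent_comp h (quP_14 h false (d + 1)) (fun q => (q.1.1, q.2.1))]
      rfl
    have a4 : ent (quP m π false (d + 1)) (fun p => p.2.2.1.1) = hm m false := by
      rw [ent_comp h (quP_234 h false (d + 1)) (fun q => q.2.1.1)]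
      exact tr_2f h true (d + 1)
    have a5 : ent (quP m π false (d + 1)) (fun p => (p.1.1, p.2.2.1.1)) = hf m π false 2 := by
      rw [ent_comp h (quP_13 h false (d + 1)) (fun q => (q.1.1, q.2.1))]
      rfl
    have a6 : ent (quP m π false (d + 1)) (fun p => (p.2.1.1, p.2.2.1.1)) +
        ent (quP m π false (d + 1)) (fun p => (p.2.2.2.1, p.2.2.1.1)) -
        ent (quP m π false (d + 1)) (fun p => (p.2.1.1, p.2.2.2.1, p.2.2.1.1)) -
        ent (quP m π false (d + 1)) (fun p => p.2.2.1.1) = cf m π true (d + 1) := by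
      rw [ent_comp h (quP_234 h false (d + 1)) (fun q => (q.1.1, q.2.1.1)),
        ent_comp h (quP_234 h false (d + 1)) (fun q => (q.2.2.1, q.2.1.1)),
        ent_comp h (quP_234 h false (d + 1)) (fun q => (q.1.1, q.2.2.1, q.2.1.1)),
        ent_comp h (quP_234 h false (d + 1)) (fun q => q.2.1.1)]
      rfl
    rw [a6, a1, a2, a3, a4, a5] at key
    have e2 : ef m π false (d + 1 + 2) = cf m π false (d + 2) + (cf m π true (d + 1) +
      ef m π false (d + 1)) := rfl
    unfold potf
    rw [jj_eq h, e2]
    have p1 := hef false (d + 1)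
    have p2 := hcf false (d + 2)
    have e3 : par false (d + 1 + 2) = par false (d + 3) := rfl
    rw [e3]
    have e4 : hf m π false (d + 1 + 2) = hf m π false (d + 3) := rfl
    rw [e4]
    linarith

theorem pot_start0 (b : Bool) (d : ℕ) : 0 ≤ pot0 m π b d := by
  unfold pot0
  have := hc_le h b d
  have := jj_nonneg h
  nlinarith [mul_nonneg (Nat.cast_nonneg (α := ℝ) d) (jj_nonneg h)]

theorem potf_le (b : Bool) (d : ℕ) : potf m π b d ≤ 2 * hr π - hc m π b d := by
  have := hf_dp h b d
  have := ef_nonneg h b d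
  unfold potf
  linarith

theorem pots_le (b : Bool) (d : ℕ) : pots m π b d ≤ 2 * hr π - hc m π b d := by
  have := hs_dp h b d
  have := es_nonneg h b d
  unfold pots
  linarith

theorem pot_start1 (b : Bool) (d : ℕ) : 0 ≤ pot0 m π b d - potf m π b d := by
  have := potf_le h b d
  have := mul_nonneg (Nat.cast_nonneg (α := ℝ) d) (jj_nonneg h)
  unfold pot0
  linarith

theorem pot_start2 (b : Bool) (d : ℕ) : 0 ≤ pot0 m π b d - pots m π b d := by
  have := pots_le h b d
  have := mul_nonneg (Nat.cast_nonneg (α := ℝ) d) (jj_nonneg h)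
  unfold pot0
  linarith

theorem pot_start3 (b : Bool) (d : ℕ) :
    0 ≤ pot0 m π b (d + 2) - potf m π b (d + 2) - pots m π b (d + 2) := by
  have hj := jj_nonneg h
  have hd : jj m π ≤ ((d + 2 : ℕ) : ℝ) * jj m π := by
    have : (1 : ℝ) ≤ ((d + 2 : ℕ) : ℝ) := by push_cast; linarith [Nat.cast_nonneg (α := ℝ) d]
    nlinarith
  have h0 := potf_false h d
  have h1 := potf_le h b (d + 2)
  have h2 := pots_le h b (d + 2)
  unfold pot0
  cases b
  · linarith
  · have h3 := pots_eq h true (d + 2)
    have e : (!true) = false := rfl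
    rw [e] at h3
    rw [h3]
    linarith

theorem pot0_one (b : Bool) : pot0 m π b 1 = 2 * ii m π := by
  unfold pot0 jj
  rw [hc_one h b]
  push_cast
  ring

theorem potf_one (b : Bool) : potf m π b 1 = ii m π := by
  unfold potf ii
  rw [hf_one h]
  cases b
  · simp only [par, ef, Bool.not_false]
    ring
  · simp only [par, ef, Bool.not_true]
    ring

theorem pots_one (b : Bool) : pots m π b 1 = ii m π := by
  rw [pots_eq h, potf_one h]

theorem pot0_step (b : Bool) (d : ℕ) :
    pot0 m π b (d + 2) + (hr π + hc m π b (d + 2) - ent (trP m π b (d + 1)) (fun p => p)) =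
      2 * ii m π + pot0 m π (!b) (d + 1) := by
  rw [tr_id h]
  unfold pot0 jj
  push_cast
  ring

theorem potf_step (b : Bool) (d : ℕ) :
    hm m (!b) + hf m π b (d + 2) -
      ent (trP m π b (d + 1)) (fun p => (p.1.1, p.2.2.1, p.2.1.1)) =
      ii m π + potf m π (!b) (d + 1) - potf m π b (d + 2) := by
  rw [tr_f h]
  have e : ef m π b (d + 2) = cf m π b (d + 1) + ef m π (!b) (d + 1) := rfl
  have e2 : par b (d + 2) = par (!b) (d + 1) := rfl
  unfold potf ii
  rw [e, e2]
  cases b
  · simp only [Bool.not_false]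
    ring
  · simp only [Bool.not_true]
    ring

theorem pots_step (b : Bool) (d : ℕ) :
    hm m b + hs m π b (d + 2) -
      ent (trP m π b (d + 1)) (fun p => (p.1.2, p.2.2.2, p.2.1.2)) =
      ii m π + pots m π (!b) (d + 1) - pots m π b (d + 2) := by
  rw [tr_s h]
  have e : es m π b (d + 2) = cs m π b (d + 1) + es m π (!b) (d + 1) := rfl
  have e2 : par b (d + 2) = par (!b) (d + 1) := rfl
  unfold pots ii
  rw [e, e2]
  cases b
  · simp only [Bool.not_false, Bool.not_true]
    ring
  · simp only [Bool.not_true, Bool.not_false]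
    ring

end rel

end Vale.Agent.P050.Cart
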