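import Vale.Agent.P050.Cart.PrismGlue

/-!
Amalgams of copies of a prism law over a set of vertices.
-/

set_option linter.unusedSectionVars false

namespace Vale.Agent.P050.Cart

open Finset Vale.Agent.P050.Lev

section amal

variable {S T X ι : Type} [Fintype S] [DecidableEq S] [Fintype T] [DecidableEq T] [Fintype X]
  [Fintype ι] [DecidableEq ι]

/-- a function on the vertices of the amalgam -/
def amalFun {Y : Type} (ι : Type) (w : S ⊕ T → Y) : S ⊕ (ι × T) → Y :=
  Sum.elim (fun s => w (Sum.inl s)) fun p => w (Sum.inr p.2)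

theorem amalFun_inc {Y : Type} (w : S ⊕ T → Y) (i : ι) (a : S ⊕ T) :
    amalFun ι w (inc i a) = w a := by
  rcases a with a | a <;> rfl

theorem sum_amal_weights (w : S ⊕ T → X → ℝ) (z : S ⊕ (ι × T) → X) :
    ∑ v, amalFun ι w v (z v) = ∑ i : ι, ∑ v, w v ((z ∘ inc i) v) -
      ((Fintype.card ι : ℝ) - 1) * ∑ s : S, w (Sum.inl s) (z (Sum.inl s)) := by
  simp only [Fintype.sum_sum_type, Fintype.sum_prod_type, Finset.sum_add_distrib, amalFun,
    inc, Function.comp, Sum.elim_inl, Sum.elim_inr, Sum.map_inl, Sum.map_inr, id,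
    Finset.sum_const, Finset.card_univ, nsmul_eq_mul]
  ring

theorem sum_amal_smarg [Nonempty ι] {ν : (S ⊕ T → X) → ℝ} (h : ∀ z, 0 ≤ ν z)
    (G : (S → X) → ℝ) :
    ∑ z : S ⊕ (ι × T) → X, amal ν z * G (z ∘ Sum.inl) = ∑ s, smarg ν s * G s := by
  have h := sum_amal ν h (Classical.arbitrary ι) fun z => G (z ∘ Sum.inl)
  refine Eq.trans h ?_
  exact sum_smarg ν G

theorem tcw_amal [Nonempty ι] {ν : (S ⊕ T → X) → ℝ} (h : ∀ z, 0 ≤ ν z) (w : S ⊕ T → X → ℝ) :
    tcw (amalFun ι w) (amal ν) = (Fintype.card ι : ℝ) * tcw w ν -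
      ((Fintype.card ι : ℝ) - 1) * tcw (fun s => w (Sum.inl s)) (smarg ν) := by
  have h1 : ∀ z : S ⊕ (ι × T) → X, amal ν z * (Real.log (amal ν z) -
      ∑ v, amalFun ι w v (z v)) =
      ∑ i : ι, amal ν z * (Real.log (ν (z ∘ inc i)) - ∑ v, w v ((z ∘ inc i) v)) -
      amal ν z * (((Fintype.card ι : ℝ) - 1) * (Real.log (smarg ν (z ∘ Sum.inl)) -
        ∑ a : S, w (Sum.inl a) ((z ∘ Sum.inl) a))) := by
    intro z
    rw [mul_sub, log_amal h z, sum_amal_weights w z, ← Finset.mul_sum, Finset.sum_sub_distrib]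
    simp only [Function.comp]
    ring
  rw [tcw, Finset.sum_congr rfl fun z _ => h1 z, Finset.sum_sub_distrib, Finset.sum_comm]
  rw [Finset.sum_congr rfl fun i _ => sum_amal ν h i fun z =>
    (Real.log (ν z) - ∑ v, w v (z v))]
  rw [Finset.sum_const, Finset.card_univ, nsmul_eq_mul]
  rw [sum_amal_smarg h fun s => (((Fintype.card ι : ℝ) - 1) * (Real.log (smarg ν s) -
        ∑ a : S, w (Sum.inl a) (s a)))]
  rw [tcw, tcw, Finset.mul_sum (Finset.univ : Finset (S → X))]
  congr 1
  exact Finset.sum_congr rfl fun s _ => by ring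

/-- a law all of whose copies have the law `ν` has at least the total correlation of the
amalgam -/
theorem tcw_le_of_copies [Nonempty ι] {ν : (S ⊕ T → X) → ℝ} (h : ∀ z, 0 ≤ ν z)
    {ρ : (S ⊕ (ι × T) → X) → ℝ} (h₀ : ∀ z, 0 ≤ ρ z) (hs : ∑ z, ρ z = 1)
    (hc : ∀ (i : ι) (F : (S ⊕ T → X) → ℝ), ∑ z, ρ z * F (z ∘ inc i) = ∑ z, ν z * F z)
    (w : S ⊕ T → X → ℝ) :
    (Fintype.card ι : ℝ) * tcw w ν -
      ((Fintype.card ι : ℝ) - 1) * tcw (fun s => w (Sum.inl s)) (smarg ν)
        ≤ tcw (amalFun ι w) ρ := by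
  classical
  have hz1 : ∀ (i : ι) z, ν (z ∘ inc i) = 0 → ρ z = 0 := by
    intro i z hz
    have h := hc i fun z' => if z' = z ∘ inc i then 1 else 0
    simp only [mul_ite, mul_one, mul_zero, Finset.sum_ite_eq', Finset.mem_univ, if_true, hz] at h
    have h3 := (Finset.sum_eq_zero_iff_of_nonneg fun z' _ => by
      split_ifs
      · exact h₀ z'
      · exact le_rfl).1 h z (mem_univ z)
    simpa using h3
  have hz : ∀ z, amal ν z = 0 → ρ z = 0 := by
    intro z hz
    rw [amal] at hz
    have hsm : smarg ν (z ∘ Sum.inl) = 0 → ρ z = 0 := by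
      intro hsm
      refine hz1 (Classical.arbitrary ι) z ?_
      have h3 : z ∘ inc (Classical.arbitrary ι)
          = Sum.elim (z ∘ Sum.inl) ((z ∘ inc (Classical.arbitrary ι)) ∘ Sum.inr) := by
        funext v
        rcases v with v | v <;> rfl
      rw [h3]
      exact eq_zero_of_smarg h hsm _
    rcases mul_eq_zero.1 hz with h1 | h1
    · exact hsm h1
    · obtain ⟨i, -, hi⟩ := Finset.prod_eq_zero_iff.1 h1
      rcases div_eq_zero_iff.1 hi with h2 | h2
      · exact hz1 i z h2
      · exact hsm h2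
  have hνs : ∑ z, ν z = 1 := by
    have h1 := hc (Classical.arbitrary ι) fun _ => 1
    simp only [mul_one] at h1
    rw [← h1, hs]
  have hg1 : ∑ z, amal (ι := ι) ν z = 1 := by
    have h1 := sum_amal ν h (Classical.arbitrary ι) fun _ => 1
    simp only [mul_one] at h1
    rw [h1, hνs]
  have hg := gibbs' (p := ρ) (q := amal ν) h₀ (amal_nonneg h) hz hs hg1.le
  have hlog : ∀ z : S ⊕ (ι × T) → X, ρ z * (Real.log (amal ν z) - ∑ v, amalFun ι w v (z v)) =
      ∑ i : ι, ρ z * (Real.log (ν (z ∘ inc i)) - ∑ v, w v ((z ∘ inc i) v)) -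
      ρ z * ((fun z' : S ⊕ T → X => ((Fintype.card ι : ℝ) - 1) *
        (Real.log (smarg ν (z' ∘ Sum.inl)) -
        ∑ a : S, w (Sum.inl a) ((z' ∘ Sum.inl) a))) (z ∘ inc (Classical.arbitrary ι))) := by
    intro z
    by_cases h0 : ρ z = 0
    · rw [h0]; simp
    have h4 : amal ν z ≠ 0 := fun h => h0 (hz z h)
    have h5 := mul_left_cancel₀ h4 (log_amal h z)
    rw [h5, sum_amal_weights w z, ← Finset.mul_sum, Finset.sum_sub_distrib]
    have h6 : (z ∘ inc (Classical.arbitrary ι)) ∘ Sum.inl = z ∘ Sum.inl := rfl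
    have h7 : ∀ x : S, z (inc (Classical.arbitrary ι) (Sum.inl x)) = z (Sum.inl x) := fun _ => rfl
    simp only [h6, Function.comp, h7]
    ring
  have e0 : ∑ z, ρ z * (Real.log (amal ν z) - ∑ v, amalFun ι w v (z v)) =
      (Fintype.card ι : ℝ) * tcw w ν -
      ((Fintype.card ι : ℝ) - 1) * tcw (fun s => w (Sum.inl s)) (smarg ν) := by
    rw [Finset.sum_congr rfl fun z _ => hlog z, Finset.sum_sub_distrib, Finset.sum_comm]
    rw [Finset.sum_congr rfl fun i _ => hc i fun z =>
      (Real.log (ν z) - ∑ v, w v (z v))]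
    rw [Finset.sum_const, Finset.card_univ, nsmul_eq_mul]
    rw [hc (Classical.arbitrary ι) fun z' => ((Fintype.card ι : ℝ) - 1) *
        (Real.log (smarg ν (z' ∘ Sum.inl)) - ∑ a : S, w (Sum.inl a) ((z' ∘ Sum.inl) a))]
    rw [sum_smarg ν fun s => ((Fintype.card ι : ℝ) - 1) *
        (Real.log (smarg ν s) - ∑ a : S, w (Sum.inl a) (s a))]
    rw [tcw, tcw, Finset.mul_sum (Finset.univ : Finset (S → X))]
    congr 1
    exact Finset.sum_congr rfl fun s _ => by ring
  rw [← e0, tcw]
  simp_rw [mul_sub, Finset.sum_sub_distrib]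
  linarith

end amal

section prism

variable {S T ι : Type} [Fintype S] [DecidableEq S] [Fintype T] [DecidableEq T]
  [Fintype ι] [DecidableEq ι] [Nonempty ι]

/-- the amalgam of copies of a joint law -/
noncomputable def amalK {U : Type} [Fintype U] (K : (S ⊕ T → U) → (S ⊕ T → U) → ℝ)
    (f g : S ⊕ (ι × T) → U) : ℝ :=
  amal (pairLaw K) (fun v => (f v, g v))

theorem sum_amalK {U : Type} [Fintype U] {K : (S ⊕ T → U) → (S ⊕ T → U) → ℝ}
    (h : ∀ f g, 0 ≤ K f g) (i : ι) (F : (S ⊕ T → U) → (S ⊕ T → U) → ℝ) :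
    ∑ f, ∑ g, amalK (ι := ι) K f g * F (f ∘ inc i) (g ∘ inc i) = ∑ f, ∑ g, K f g * F f g := by
  rw [← sum_pairLaw K F, ← sum_amal (pairLaw K) (fun _ => h _ _) i
    fun z => F (fun v => (z v).1) (fun v => (z v).2), sum_pair]
  rfl

theorem card_amalEdges (E : Finset ((S ⊕ T) × (S ⊕ T)))
    (hE : ∀ e ∈ E, e.1.isRight ∨ e.2.isRight) :
    ((amalEdges ι E).card : ℝ) = Fintype.card ι * E.card := by
  have h := sum_amalEdges (ι := ι) E hE fun _ => 1
  simpa using h

/-- **Amalgam rule.** If the information between the two copies grows by at most `|T|` times the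
information of an edge when the vertices `T` are added to `S`, then copies of the law can be
amalgamated over `S`. -/
theorem PrismLaw.amal {U : Type} [Fintype U] {E : Finset ((S ⊕ T) × (S ⊕ T))} {s : S ⊕ T → Bool}
    {m : Bool → U → ℝ} {π : U → U → ℝ} {K : (S ⊕ T → U) → (S ⊕ T → U) → ℝ}
    (hK : PrismLaw E s m π K) (hE : ∀ e ∈ E, e.1.isRight ∨ e.2.isRight)
    (h0 : (Fintype.card S : ℝ) * inf m π + tc m (fun v => s (Sum.inl v)) (smarg (fstLaw K)) ≤
      tcw (fun v (p : U × U) => Real.log (m (s (Sum.inl v)) p.1)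
        + Real.log (m (!s (Sum.inl v)) p.2)) (smarg (pairLaw K)))
    (h1 : (Fintype.card S : ℝ) * inf m π + tc m (fun v => !s (Sum.inl v)) (smarg (sndLaw K)) ≤
      tcw (fun v (p : U × U) => Real.log (m (s (Sum.inl v)) p.1)
        + Real.log (m (!s (Sum.inl v)) p.2)) (smarg (pairLaw K)))
    (h2 : 0 ≤ tc m (fun v => s (Sum.inl v)) (smarg (fstLaw K)))
    (hδ : tc2 m s K - tc m s (fstLaw K) - tc m (fun v => !s v) (sndLaw K) ≤
      Fintype.card T * inf m π + (tcw (fun v (p : U × U) => Real.log (m (s (Sum.inl v)) p.1)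
        + Real.log (m (!s (Sum.inl v)) p.2)) (smarg (pairLaw K))
        - tc m (fun v => s (Sum.inl v)) (smarg (fstLaw K))
        - tc m (fun v => !s (Sum.inl v)) (smarg (sndLaw K)))) :
    PrismLaw (amalEdges ι E) (amalFun ι s) m π (amalK K) := by
  have hk : (0 : ℝ) ≤ (Fintype.card ι : ℝ) - 1 := by
    have : 1 ≤ Fintype.card ι := Fintype.card_pos
    have : (1 : ℝ) ≤ (Fintype.card ι : ℝ) := by exact_mod_cast this
    linarith
  have hnn : ∀ f g, 0 ≤ amalK (ι := ι) K f g := fun f g => amal_nonneg (fun _ => hK.nonneg _ _) _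
  have htot : ∑ f, ∑ g, amalK (ι := ι) K f g = 1 := by
    have h := sum_amalK hK.nonneg (Classical.arbitrary ι) fun _ _ => 1
    simp only [mul_one] at h
    rw [h, hK.total]
  have t2 : tc2 m (amalFun ι s) (amalK K) = (Fintype.card ι : ℝ) * tc2 m s K -
      ((Fintype.card ι : ℝ) - 1) * tcw (fun v (p : U × U) => Real.log (m (s (Sum.inl v)) p.1)
        + Real.log (m (!s (Sum.inl v)) p.2)) (smarg (pairLaw K)) := by
    rw [tc2_eq, tc2_eq, ← tcw_amal (ι := ι) (ν := pairLaw K) (fun _ => hK.nonneg _ _)]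
    have : (fun (v : S ⊕ (ι × T)) (p : U × U) => Real.log (m (amalFun ι s v) p.1)
        + Real.log (m (!amalFun ι s v) p.2)) = amalFun ι (fun v (p : U × U) =>
          Real.log (m (s v) p.1) + Real.log (m (!s v) p.2)) := by
      funext v
      rcases v with v | v <;> rfl
    rw [this]
    rfl
  have t1 : (Fintype.card ι : ℝ) * tc m s (fstLaw K) - ((Fintype.card ι : ℝ) - 1) *
      tc m (fun v => s (Sum.inl v)) (smarg (fstLaw K)) ≤
        tc m (amalFun ι s) (fstLaw (amalK (ι := ι) K)) := by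
    have h := tcw_le_of_copies (ι := ι) (ν := fstLaw K) (fstLaw_nonneg hK.nonneg)
      (ρ := fstLaw (amalK K)) (fstLaw_nonneg hnn) htot (fun i F => by
        rw [sum_fstLaw F, sum_fstLaw fun z => F (z ∘ inc i)]
        exact sum_amalK hK.nonneg i fun f _ => F f) (fun v x => Real.log (m (s v) x))
    have h3 : amalFun ι (fun v x => Real.log (m (s v) x))
        = fun v x => Real.log (m (amalFun ι s v) x) := by
      funext v
      rcases v with v | v <;> rfl
    rw [h3] at h
    exact h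
  have t1' : (Fintype.card ι : ℝ) * tc m (fun v => !s v) (sndLaw K) - ((Fintype.card ι : ℝ) - 1) *
      tc m (fun v => !s (Sum.inl v)) (smarg (sndLaw K)) ≤
        tc m (fun v => !amalFun ι s v) (sndLaw (amalK (ι := ι) K)) := by
    have h := tcw_le_of_copies (ι := ι) (ν := sndLaw K) (sndLaw_nonneg hK.nonneg)
      (ρ := sndLaw (amalK K)) (sndLaw_nonneg hnn) (by
        have := htot
        rw [Finset.sum_comm] at this
        exact this) (fun i F => by
        rw [sum_sndLaw F, sum_sndLaw fun z => F (z ∘ inc i)]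
        exact sum_amalK hK.nonneg i fun _ g => F g) (fun v x => Real.log (m (!s v) x))
    have h3 : amalFun ι (fun v x => Real.log (m (!s v) x))
        = fun v x => Real.log (m (!amalFun ι s v) x) := by
      funext v
      rcases v with v | v <;> rfl
    rw [h3] at h
    exact h
  have hcE := card_amalEdges (ι := ι) E hE
  have hcV : (Fintype.card (S ⊕ (ι × T)) : ℝ) = Fintype.card S + Fintype.card ι *
      Fintype.card T := by
    rw [Fintype.card_sum, Fintype.card_prod]
    push_cast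
    ring
  have hcV' : (Fintype.card (S ⊕ T) : ℝ) = Fintype.card S + Fintype.card T := by
    rw [Fintype.card_sum]
    push_cast
    ring
  have b00 := hK.bound
  have b10 := hK.bound_fst
  have b01 := hK.bound_snd
  have b11 := hK.bound_both
  rw [hcV'] at b00 b10 b01 b11
  refine ⟨hnn, htot, ?_, ?_, ?_, ?_, ?_, ?_, ?_, ?_⟩
  · rintro (v | ⟨i, v⟩) hv F
    · exact (sum_amalK hK.nonneg (Classical.arbitrary ι) fun f g =>
        F (f (Sum.inl v)) (g (Sum.inl v))).trans (hK.rung_false (Sum.inl v) hv F)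
    · exact (sum_amalK hK.nonneg i fun f g =>
        F (f (Sum.inr v)) (g (Sum.inr v))).trans (hK.rung_false (Sum.inr v) hv F)
  · rintro (v | ⟨i, v⟩) hv F
    · exact (sum_amalK hK.nonneg (Classical.arbitrary ι) fun f g =>
        F (g (Sum.inl v)) (f (Sum.inl v))).trans (hK.rung_true (Sum.inl v) hv F)
    · exact (sum_amalK hK.nonneg i fun f g =>
        F (g (Sum.inr v)) (f (Sum.inr v))).trans (hK.rung_true (Sum.inr v) hv F)
  · intro e he F
    simp only [amalEdges, Finset.mem_biUnion, Finset.mem_univ, true_and, Finset.mem_image] at he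
    obtain ⟨i, e', he', rfl⟩ := he
    exact (sum_amalK hK.nonneg i fun f _ => F (f e'.1) (f e'.2)).trans (hK.edge_fst e' he' F)
  · intro e he F
    simp only [amalEdges, Finset.mem_biUnion, Finset.mem_univ, true_and, Finset.mem_image] at he
    obtain ⟨i, e', he', rfl⟩ := he
    exact (sum_amalK hK.nonneg i fun _ g => F (g e'.2) (g e'.1)).trans (hK.edge_snd e' he' F)
  all_goals
    try rw [hcE]
    rw [hcV, t2]
    generalize tc2 m s K = T2 at *
    generalize tc m s (fstLaw K) = t at *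
    generalize tc m (fun v => !s v) (sndLaw K) = t' at *
    generalize tc m (fun v => s (Sum.inl v)) (smarg (fstLaw K)) = r at *
    generalize tc m (fun v => !s (Sum.inl v)) (smarg (sndLaw K)) = r' at *
    generalize tcw (fun v (p : U × U) => Real.log (m (s (Sum.inl v)) p.1)
        + Real.log (m (!s (Sum.inl v)) p.2)) (smarg (pairLaw K)) = R at *
    generalize tc m (amalFun ι s) (fstLaw (amalK (ι := ι) K)) = q at *
    generalize tc m (fun v => !amalFun ι s v) (sndLaw (amalK (ι := ι) K)) = q' at *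
    generalize inf m π = I at *
    generalize (Fintype.card ι : ℝ) = k at *
    generalize (Fintype.card S : ℝ) = a at *
    generalize (Fintype.card T : ℝ) = b at *
    generalize (E.card : ℝ) = e at *
  · nlinarith
  · nlinarith
  · nlinarith
  · nlinarith

end prism

end Vale.Agent.P050.Cart
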