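import Vale.Agent.P050.Cart.PotBound

/-!
Resampling one coordinate of a random map.
-/

set_option linter.unusedSectionVars false

namespace Vale.Agent.P050.Cart

open Finset

section resample

variable {V X : Type} [Fintype V] [DecidableEq V] [Fintype X]

/-- the restriction to the other coordinates -/
def off (w : V) (z : V → X) : {v // v ≠ w} → X := fun v => z v

/-- the map with value `a` at `w` and the other values `o` -/
def cmb (w : V) (a : X) (o : {v // v ≠ w} → X) : V → X := fun v => if h : v = w then a else o ⟨v, h⟩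

theorem cmb_self (w : V) (a : X) (o : {v // v ≠ w} → X) : cmb w a o w = a := by simp [cmb]

theorem cmb_ne (w : V) (a : X) (o : {v // v ≠ w} → X) {v : V} (hv : v ≠ w) :
    cmb w a o v = o ⟨v, hv⟩ := by simp [cmb, hv]

theorem off_cmb (w : V) (a : X) (o : {v // v ≠ w} → X) : off w (cmb w a o) = o := by
  funext v
  exact cmb_ne w a o v.2

theorem cmb_off (w : V) (z : V → X) : cmb w (z w) (off w z) = z := by
  funext v
  by_cases hv : v = w
  · rw [hv, cmb_self]
  · rw [cmb_ne w _ _ hv]
    rfl

theorem split_inj (w : V) : Function.Injective (fun z : V → X => (z w, off w z)) := by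
  intro z z' hz
  simp only [Prod.mk.injEq] at hz
  rw [← cmb_off w z, ← cmb_off w z', hz.1, hz.2]

theorem mar_split (μ : (V → X) → ℝ) (w : V) (a : X) (o : {v // v ≠ w} → X) :
    mar μ (fun z => (z w, off w z)) (a, o) = μ (cmb w a o) := by
  have h := mar_inj μ (fun z => z) (split_inj w) (cmb w a o)
  rw [mar_id, cmb_self, off_cmb] at h
  exact h

theorem mar_off (μ : (V → X) → ℝ) (w : V) (o : {v // v ≠ w} → X) :
    mar μ (off w) o = ∑ a, μ (cmb w a o) := by
  rw [← mar_snd μ (fun z => z w) (off w) o]
  exact Finset.sum_congr rfl fun a _ => mar_split μ w a o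

theorem cmb_off_update (w : V) (z : V → X) (a : X) : cmb w a (off w z) = Function.update z w a := by
  funext v
  by_cases hv : v = w
  · rw [hv, cmb_self, Function.update_self]
  · rw [cmb_ne w _ _ hv, Function.update_of_ne hv]
    rfl

/-- resampling the coordinate `w` -/
noncomputable def resample (w : V) (q : X → ({v // v ≠ w} → X) → ℝ) (μ : (V → X) → ℝ)
    (z : V → X) : ℝ := q (z w) (off w z) * mar μ (off w) (off w z)

variable {w : V} {q : X → ({v // v ≠ w} → X) → ℝ} {μ : (V → X) → ℝ}

theorem resample_nonneg (hq : ∀ a o, 0 ≤ q a o) (hμ : ∀ z, 0 ≤ μ z) (z : V → X) :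
    0 ≤ resample w q μ z := mul_nonneg (hq _ _) (mar_nonneg hμ _ _)

theorem resample_split (a : X) (o : {v // v ≠ w} → X) :
    mar (resample w q μ) (fun z => (z w, off w z)) (a, o) = q a o * mar μ (off w) o := by
  rw [mar_split]
  unfold resample
  rw [cmb_self, off_cmb]

/-- the law of the other coordinates does not change -/
theorem resample_off (hs : ∀ o, mar μ (off w) o ≠ 0 → ∑ a, q a o = 1) :
    mar (resample w q μ) (off w) = mar μ (off w) := by
  funext o
  rw [← mar_snd (resample w q μ) (fun z => z w) (off w) o]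
  simp_rw [resample_split, ← Finset.sum_mul]
  by_cases h0 : mar μ (off w) o = 0
  · rw [h0, mul_zero]
  · rw [hs o h0, one_mul]

theorem resample_comp {α : Type} [Fintype α] (hs : ∀ o, mar μ (off w) o ≠ 0 → ∑ a, q a o = 1)
    (G : ({v // v ≠ w} → X) → α) : mar (resample w q μ) (fun z => G (off w z)) =
      mar μ (fun z => G (off w z)) := by
  funext a
  have h1 := mar_mar (resample w q μ) (off w) G a
  have h2 := mar_mar μ (off w) G a
  rw [resample_off hs] at h1
  exact h1.symm.trans h2

theorem resample_total (hs : ∀ o, mar μ (off w) o ≠ 0 → ∑ a, q a o = 1) (h1 : ∑ z, μ z = 1) :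
    ∑ z, resample w q μ z = 1 := by
  rw [← mar_total _ (off w), resample_off hs, mar_total, h1]

/-- `z w` is independent of the rest, and has the law `r` -/
def Indep (μ : (V → X) → ℝ) (w : V) (r : X → ℝ) : Prop :=
  ∃ Λ : (V → X) → ℝ, (∀ z y, Λ (Function.update z w y) = Λ z) ∧ ∀ z, μ z = r (z w) * Λ z

theorem Indep.split {r : X → ℝ} (h : Indep μ w r) (hr : ∑ a, r a = 1) (a : X)
    (o : {v // v ≠ w} → X) :
    mar μ (fun z => (z w, off w z)) (a, o) = r a * mar μ (off w) o := by
  obtain ⟨Λ, h1, h2⟩ := h
  rw [mar_split, mar_off]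
  have h3 : ∀ a', Λ (cmb w a' o) = Λ (cmb w a o) := by
    intro a'
    have : cmb w a' o = Function.update (cmb w a o) w a' := by
      rw [← cmb_off_update, off_cmb]
    rw [this, h1]
  simp_rw [h2, cmb_self, h3]
  rw [← Finset.sum_mul, hr, one_mul]

theorem Indep.resample' {w' : V} (hw : w' ≠ w) {r : X → ℝ} (h : Indep μ w' r)
    (hq : ∀ (a : X) (z : V → X) (y : X), q a (off w (Function.update z w' y)) = q a (off w z)) :
    Indep (resample w q μ) w' r := by
  obtain ⟨Λ, h1, h2⟩ := h
  refine ⟨fun z => q (z w) (off w z) * ∑ a, Λ (Function.update z w a), ?_, ?_⟩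
  · intro z y
    simp only
    rw [hq, Function.update_of_ne hw.symm]
    congr 1
    refine Finset.sum_congr rfl fun a _ => ?_
    rw [Function.update_comm hw, h1]
  · intro z
    unfold resample
    rw [mar_off]
    simp_rw [cmb_off_update, h2, Function.update_of_ne hw]
    rw [← Finset.mul_sum]
    ring

/-- the law of `z w` and of a function of the other coordinates, when the kernel only depends on
this function -/
theorem resample_kernel {α : Type} [Fintype α] (G : ({v // v ≠ w} → X) → α) (κ : α → X → ℝ)
    (hq : ∀ a o, q a o = κ (G o) a) (hs : ∀ o, mar μ (off w) o ≠ 0 → ∑ a, q a o = 1)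
    (a : X) (e : α) : mar (resample w q μ) (fun z => (z w, G (off w z))) (a, e) =
      κ e a * mar μ (fun z => G (off w z)) e := by
  rw [kernel_map (P := resample w q μ) (fun z => z w) (off w) G (fun x => x) κ (fun a c => by
    rw [resample_split, resample_off hs, hq]) a e]
  rw [resample_comp hs]

/-- the exact change of the entropy -/
theorem resample_ent {α : Type} [Fintype α] (hμ : ∀ z, 0 ≤ μ z) (h1 : ∑ z, μ z = 1)
    (hq0 : ∀ a o, 0 ≤ q a o)
    (G : ({v // v ≠ w} → X) → α) (κ : α → X → ℝ)
    (hq : ∀ a o, q a o = κ (G o) a) (hs : ∀ o, mar μ (off w) o ≠ 0 → ∑ a, q a o = 1)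
    {r : X → ℝ} (hr : ∑ a, r a = 1) (hI : Indep μ w r) :
    ent (resample w q μ) (fun z => z) = ent μ (fun z => z) - ent μ (fun z => z w) +
      ent (resample w q μ) (fun z => (z w, G (off w z))) - ent μ (fun z => G (off w z)) := by
  have e1 := ent_kernel (resample_nonneg (w := w) hq0 hμ) (fun z => z w) (off w) G κ (fun a c => by
    rw [resample_split, resample_off hs, hq])
  have e2 : ent (resample w q μ) (fun z => (z w, off w z)) = ent (resample w q μ) (fun z => z) :=
    ent_inj (resample w q μ) (fun z => z) (split_inj w)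
  have e3 : ent (resample w q μ) (fun z => G (off w z)) = ent μ (fun z => G (off w z)) :=
    ent_law fun a => by rw [resample_comp hs]
  have e4 : ent (resample w q μ) (off w) = ent μ (off w) :=
    ent_law fun a => by rw [resample_off hs]
  have hws : mar μ (fun z => z w) = r := by
    funext a
    rw [← mar_fst μ (fun z => z w) (off w) a]
    simp_rw [hI.split hr]
    rw [← Finset.mul_sum, mar_total, h1, mul_one]
  have e5 : ent μ (fun z => (z w, off w z)) = ent μ (fun z => z w) + ent μ (off w) := by
    refine ent_indep hμ h1 _ _ fun a o => ?_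
    rw [hI.split hr, hws]
  have e6 : ent μ (fun z => (z w, off w z)) = ent μ (fun z => z) :=
    ent_inj μ (fun z => z) (split_inj w)
  rw [e2, e3, e4] at e1
  rw [e6] at e5
  linarith

/-- the change of the entropy of the entries `F (z v)` -/
theorem resample_ent_le {Y β : Type} [Fintype Y] [Fintype β] (hμ : ∀ z, 0 ≤ μ z)
    (h1 : ∑ z, μ z = 1) (hq0 : ∀ a o, 0 ≤ q a o)
    (hs : ∀ o, mar μ (off w) o ≠ 0 → ∑ a, q a o = 1)
    {r : X → ℝ} (hr : ∑ a, r a = 1) (hI : Indep μ w r) (F : X → Y)
    (H : ({v // v ≠ w} → Y) → β) :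
    ent (resample w q μ) (fun z v => F (z v)) ≤ ent μ (fun z v => F (z v)) -
      ent μ (fun z => F (z w)) +
      ent (resample w q μ) (fun z => (F (z w), H (fun v => F (z v)))) -
      ent μ (fun z => H (fun v => F (z v))) := by
  have s1 := ent_submod (resample_nonneg (w := w) hq0 hμ) (fun z => F (z w))
    (fun z => (fun v : {v // v ≠ w} => F (z v))) (fun z => H (fun v => F (z v)))
  have e2 : ent (resample w q μ) (fun z => (F (z w), (fun v : {v // v ≠ w} => F (z v)),
      H (fun v => F (z v)))) = ent (resample w q μ) (fun z v => F (z v)) :=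
    ent_inj (resample w q μ) (fun z v => F (z v))
      (e := fun f : V → Y => (f w, (off w f), H (off w f))) (fun f f' hf => by
        simp only [Prod.mk.injEq] at hf
        exact split_inj w (by simp only [Prod.mk.injEq]; exact ⟨hf.1, hf.2.1⟩))
  have e3 : ent (resample w q μ) (fun z => H (fun v => F (z v))) =
      ent μ (fun z => H (fun v => F (z v))) :=
    ent_law fun a => by
      have := resample_comp (q := q) (μ := μ) hs (fun o => H (fun v => F (o v)))
      exact congrFun this a
  have e4 : ent (resample w q μ) (fun z => ((fun v : {v // v ≠ w} => F (z v)),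
      H (fun v => F (z v)))) = ent μ (fun z => (fun v : {v // v ≠ w} => F (z v))) := by
    have e5 : ent (resample w q μ) (fun z => ((fun v : {v // v ≠ w} => F (z v)),
      H (fun v => F (z v)))) = ent (resample w q μ) (fun z => (fun v : {v // v ≠ w} => F (z v))) :=
      ent_inj (resample w q μ) (fun z => (fun v : {v // v ≠ w} => F (z v)))
        (e := fun f : {v // v ≠ w} → Y => (f, H f)) (fun f f' hf => by
          simp only [Prod.mk.injEq] at hf
          exact hf.1)
    rw [e5]
    exact ent_law fun a => by
      have := resample_comp (q := q) (μ := μ) hs (fun o => (fun v => F (o v)))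
      exact congrFun this a
  have e6 : ent μ (fun z => (F (z w), (fun v : {v // v ≠ w} => F (z v)))) =
      ent μ (fun z => F (z w)) + ent μ (fun z => (fun v : {v // v ≠ w} => F (z v))) := by
    have hsplit : ∀ a o, mar μ (fun z => (z w, off w z)) (a, o) =
        mar μ (fun z => z w) a * mar μ (off w) o := by
      have hws : mar μ (fun z => z w) = r := by
        funext a
        rw [← mar_fst μ (fun z => z w) (off w) a]
        simp_rw [hI.split hr]
        rw [← Finset.mul_sum, mar_total, h1, mul_one]
      intro a o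
      rw [hI.split hr, hws]
    refine ent_indep hμ h1 _ _ fun a o => ?_
    classical
    have q1 := mar_mar μ (fun z => (z w, off w z)) (fun x : X × ({v // v ≠ w} → X) =>
      (F x.1, fun v => F (x.2 v))) (a, o)
    have q2 := mar_mar μ (fun z => z w) F a
    have q3 := mar_mar μ (off w) (fun x : {v // v ≠ w} → X => fun v => F (x v)) o
    refine q1.symm.trans ?_
    have q4 : mar μ (fun z => F (z w)) a * mar μ (fun z => (fun v : {v // v ≠ w} => F (z v))) o =
        mar (mar μ (fun z => z w)) F a * mar (mar μ (off w)) (fun x => fun v => F (x v)) o := by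
      rw [q2, q3]
      rfl
    rw [q4]
    unfold mar at hsplit ⊢
    rw [Finset.sum_mul_sum, Fintype.sum_prod_type]
    refine Finset.sum_congr rfl fun x _ => ?_
    refine Finset.sum_congr rfl fun y _ => ?_
    have := hsplit x y
    simp only [Prod.mk.injEq] at this ⊢
    rw [this]
    by_cases c1 : F x = a
    · by_cases c2 : (fun v => F (y v)) = o
      · simp [c1, c2]
      · simp [c1, c2]
    · simp [c1]
  have e7 : ent μ (fun z => (F (z w), (fun v : {v // v ≠ w} => F (z v)))) =
      ent μ (fun z v => F (z v)) :=
    ent_inj μ (fun z v => F (z v)) (e := fun f : V → Y => (f w, (off w f)))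
      (split_inj w)
  rw [e2, e3, e4] at s1
  rw [e7] at e6
  linarith

end resample

end Vale.Agent.P050.Cart
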