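import Vale.Agent.P050.Cart.GrownPrism
import Vale.Agent.P050.Cart.PrismAmal

/-!
The law of a star with three leaves.
-/

set_option linter.unusedSectionVars false

namespace Vale.Agent.P050.Cart

open Finset

section general

variable {Ω α β γ : Type} [Fintype Ω] [Fintype α] [Fintype β] [Fintype γ]

/-- the entropy of a function only depends on its fibres -/
theorem ent_fib {P : Ω → ℝ} {f : Ω → α} {g : Ω → β} (h : ∀ ω ω', f ω = f ω' ↔ g ω = g ω') :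
    ent P f = ent P g := by
  classical
  rw [ent_eq, ent_eq]
  have e : ∀ ω, mar P f (f ω) = mar P g (g ω) := by
    intro ω
    unfold mar
    refine Finset.sum_congr rfl fun ω' _ => ?_
    by_cases c : f ω' = f ω
    · rw [if_pos c, if_pos ((h ω' ω).1 c)]
    · rw [if_neg c, if_neg fun c' => c ((h ω' ω).2 c')]
  simp_rw [e]

theorem mar_equiv (P : Ω → ℝ) (e : Ω ≃ α × β) (a : α) :
    mar P (fun ω => (e ω).1) a = ∑ b, P (e.symm (a, b)) := by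
  classical
  unfold mar
  rw [← e.symm.sum_comp]
  simp only [Equiv.apply_symm_apply]
  rw [Fintype.sum_prod_type, Finset.sum_eq_single a]
  · simp
  · intro a' _ ha
    simp [ha]
  · intro hn
    exact absurd (mem_univ _) hn

end general

section star

variable {A B : Type} [Fintype A] [Fintype B]

/-- three conditionally independent leaves around a centre -/
noncomputable def star (ρ : A → ℝ) (t₁ t₂ t₃ : B → A → ℝ) (ω : A × B × B × B) : ℝ :=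
  t₁ ω.2.1 ω.1 * t₂ ω.2.2.1 ω.1 * t₃ ω.2.2.2 ω.1 / ρ ω.1 ^ 2

variable {ρ : A → ℝ} {t₁ t₂ t₃ : B → A → ℝ} (hn₁ : ∀ b a, 0 ≤ t₁ b a) (hn₂ : ∀ b a, 0 ≤ t₂ b a)
  (hn₃ : ∀ b a, 0 ≤ t₃ b a) (h₁ : ∀ a, ∑ b, t₁ b a = ρ a) (h₂ : ∀ a, ∑ b, t₂ b a = ρ a)
  (h₃ : ∀ a, ∑ b, t₃ b a = ρ a)

include hn₁ hn₂ hn₃ in
theorem star_nonneg (ω) : 0 ≤ star ρ t₁ t₂ t₃ ω :=
  div_nonneg (mul_nonneg (mul_nonneg (hn₁ _ _) (hn₂ _ _)) (hn₃ _ _)) (sq_nonneg _)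

theorem leaf_zero {t : B → A → ℝ} (hn : ∀ b a, 0 ≤ t b a) (hs : ∀ a, ∑ b, t b a = ρ a) {a : A}
    (ha : ρ a = 0) (b : B) : t b a = 0 := by
  rw [← hs] at ha
  exact (Finset.sum_eq_zero_iff_of_nonneg fun b _ => hn b a).1 ha b (mem_univ b)

include hn₁ hn₂ hn₃ h₁ h₂ h₃

theorem star_1 : mar (star ρ t₁ t₂ t₃) (fun ω => (ω.2.1, ω.1)) = fun p => t₁ p.1 p.2 := by
  funext ⟨b, a⟩
  have e := mar_equiv (star ρ t₁ t₂ t₃)
    { toFun := fun ω : A × B × B × B => ((ω.2.1, ω.1), (ω.2.2.1, ω.2.2.2))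
      invFun := fun p : (B × A) × (B × B) => (p.1.2, p.1.1, p.2.1, p.2.2)
      left_inv := fun _ => rfl
      right_inv := fun _ => rfl } (b, a)
  refine e.trans ?_
  simp only [Equiv.coe_fn_symm_mk, star]
  rw [Fintype.sum_prod_type]
  simp only
  rw [Finset.sum_congr rfl fun b₂ _ => show ∑ b₃, t₁ b a * t₂ b₂ a * t₃ b₃ a / ρ a ^ 2 =
    t₁ b a * t₂ b₂ a * ρ a / ρ a ^ 2 by rw [← Finset.sum_div, ← Finset.mul_sum, h₃]]
  rw [← Finset.sum_div, ← Finset.sum_mul, ← Finset.mul_sum, h₂]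
  by_cases h0 : ρ a = 0
  · rw [leaf_zero hn₁ h₁ h0]; simp
  · field_simp

theorem star_2 : mar (star ρ t₁ t₂ t₃) (fun ω => (ω.2.2.1, ω.1)) = fun p => t₂ p.1 p.2 := by
  funext ⟨b, a⟩
  have e := mar_equiv (star ρ t₁ t₂ t₃)
    { toFun := fun ω : A × B × B × B => ((ω.2.2.1, ω.1), (ω.2.1, ω.2.2.2))
      invFun := fun p : (B × A) × (B × B) => (p.1.2, p.2.1, p.1.1, p.2.2)
      left_inv := fun _ => rfl
      right_inv := fun _ => rfl } (b, a)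
  refine e.trans ?_
  simp only [Equiv.coe_fn_symm_mk, star]
  rw [Fintype.sum_prod_type]
  simp only
  rw [Finset.sum_congr rfl fun b₁ _ => show ∑ b₃, t₁ b₁ a * t₂ b a * t₃ b₃ a / ρ a ^ 2 =
    t₁ b₁ a * (t₂ b a * ρ a / ρ a ^ 2) by rw [← Finset.sum_div, ← Finset.mul_sum, h₃]; ring]
  rw [← Finset.sum_mul, h₁]
  by_cases h0 : ρ a = 0
  · rw [leaf_zero hn₂ h₂ h0]; simp
  · field_simp

theorem star_23 : mar (star ρ t₁ t₂ t₃) (fun ω => (ω.2.2.1, (ω.2.2.2, ω.1))) =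
    fun p => t₂ p.1 p.2.2 / ρ p.2.2 * t₃ p.2.1 p.2.2 := by
  funext ⟨b, b', a⟩
  have e := mar_equiv (star ρ t₁ t₂ t₃)
    { toFun := fun ω : A × B × B × B => ((ω.2.2.1, (ω.2.2.2, ω.1)), ω.2.1)
      invFun := fun p : (B × (B × A)) × B => (p.1.2.2, p.2, p.1.1, p.1.2.1)
      left_inv := fun _ => rfl
      right_inv := fun _ => rfl } (b, b', a)
  refine e.trans ?_
  simp only [Equiv.coe_fn_symm_mk, star]
  rw [Finset.sum_congr rfl fun b₁ _ => show t₁ b₁ a * t₂ b a * t₃ b' a / ρ a ^ 2 =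
    t₁ b₁ a * (t₂ b a * t₃ b' a / ρ a ^ 2) by ring]
  rw [← Finset.sum_mul, h₁]
  by_cases h0 : ρ a = 0
  · rw [leaf_zero hn₂ h₂ h0]; simp
  · field_simp

theorem star_3 : mar (star ρ t₁ t₂ t₃) (fun ω => (ω.2.2.2, ω.1)) = fun p => t₃ p.1 p.2 := by
  funext ⟨b, a⟩
  have e := mar_snd (star ρ t₁ t₂ t₃) (fun ω => ω.2.2.1) (fun ω => (ω.2.2.2, ω.1)) (b, a)
  rw [← e, star_23 hn₁ hn₂ hn₃ h₁ h₂ h₃]
  simp only
  rw [← Finset.sum_mul, ← Finset.sum_div, h₂]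
  by_cases h0 : ρ a = 0
  · rw [leaf_zero hn₃ h₃ h0]; simp
  · rw [div_self h0, one_mul]

theorem star_0 : mar (star ρ t₁ t₂ t₃) (fun ω => ω.1) = ρ := by
  funext a
  have e := mar_snd (star ρ t₁ t₂ t₃) (fun ω => ω.2.2.2) (fun ω => ω.1) a
  rw [← e, star_3 hn₁ hn₂ hn₃ h₁ h₂ h₃]
  exact h₃ a

theorem star_total (hρ : ∑ a, ρ a = 1) : ∑ ω, star ρ t₁ t₂ t₃ ω = 1 := by
  rw [← mar_total _ (fun ω : A × B × B × B => ω.1), star_0 hn₁ hn₂ hn₃ h₁ h₂ h₃, hρ]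

/-- the entropy of the star -/
theorem star_ent : ent (star ρ t₁ t₂ t₃) (fun ω => ω) + 2 * ent (star ρ t₁ t₂ t₃) (fun ω => ω.1) =
    ent (star ρ t₁ t₂ t₃) (fun ω => (ω.2.1, ω.1)) + ent (star ρ t₁ t₂ t₃) (fun ω => (ω.2.2.1, ω.1))
      + ent (star ρ t₁ t₂ t₃) (fun ω => (ω.2.2.2, ω.1)) := by
  have hP := star_nonneg (ρ := ρ) hn₁ hn₂ hn₃
  have k1 := ent_kernel hP (fun ω => ω.2.1) (fun ω => (ω.2.2.1, (ω.2.2.2, ω.1)))
    (fun p => p.2.2) (fun a b => t₁ b a / ρ a) (fun b p => by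
      obtain ⟨b₂, b₃, a⟩ := p
      rw [star_23 hn₁ hn₂ hn₃ h₁ h₂ h₃]
      have e1 := mar_inj (star ρ t₁ t₂ t₃) (fun ω => ω)
        (e := fun ω : A × B × B × B => (ω.2.1, (ω.2.2.1, (ω.2.2.2, ω.1)))) (fun x y hxy => by
          simp only [Prod.mk.injEq] at hxy
          exact Prod.ext hxy.2.2.2 (Prod.ext hxy.1 (Prod.ext hxy.2.1 hxy.2.2.1))) (a, b, b₂, b₃)
      rw [mar_id] at e1
      simp only at e1
      rw [e1]
      simp only [star]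
      ring)
  have k2 := ent_kernel hP (fun ω => ω.2.2.1) (fun ω => (ω.2.2.2, ω.1))
    (fun p => p.2) (fun a b => t₂ b a / ρ a) (fun b p => by
      obtain ⟨b₃, a⟩ := p
      rw [star_23 hn₁ hn₂ hn₃ h₁ h₂ h₃, star_3 hn₁ hn₂ hn₃ h₁ h₂ h₃])
  simp only at k1 k2
  have e0 : ent (star ρ t₁ t₂ t₃) (fun ω => (ω.2.1, (ω.2.2.1, (ω.2.2.2, ω.1)))) =
      ent (star ρ t₁ t₂ t₃) (fun ω => ω) :=
    ent_fib fun ω ω' => by
      simp only [Prod.ext_iff]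
      tauto
  rw [e0] at k1
  linarith

end star

end Vale.Agent.P050.Cart
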