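import Vale.Agent.P050.Cart.Resample

/-!
Laws on the prism over a growing graph: pendant vertices and ears.
-/

set_option linter.unusedSectionVars false

namespace Vale.Agent.P050.Cart

open Finset

variable {V U : Type} [Fintype V] [DecidableEq V] [Fintype U]

theorem mar_zero_of_map {Ω α β : Type} [Fintype Ω] [Fintype α] [Fintype β] {P : Ω → ℝ}
    (hP : ∀ ω, 0 ≤ P ω) (f : Ω → α) (G : α → β) {c : α}
    (h : mar P (fun ω => G (f ω)) (G c) = 0) : mar P f c = 0 := by
  classical
  unfold mar at h ⊢
  refine Finset.sum_eq_zero fun ω _ => ?_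
  have h1 := (Finset.sum_eq_zero_iff_of_nonneg (fun ω _ => by
    split_ifs
    · exact hP ω
    · exact le_rfl)).1 h ω (mem_univ ω)
  split_ifs with h2
  · have h3 : (fun ω => G (f ω)) ω = G c := by
      show G (f ω) = G c
      rw [h2]
    rw [if_pos h3] at h1
    exact h1
  · rfl

/-- `u` and `v` are tied at distance `d` -/
def Tie (m : Bool → U → ℝ) (π : U → U → ℝ) (s : V → Bool) (μ : (V → U × U) → ℝ) (u v : V)
    (d : ℕ) : Prop :=
  s v = par (s u) d ∧ mar μ (fun z => (z u, z v)) = chP m π (s u) d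

/-- `x`, `u`, `v` lie on a chain, at distances `a` and `n` -/
def Tri (m : Bool → U → ℝ) (π : U → U → ℝ) (s : V → Bool) (μ : (V → U × U) → ℝ) (x u v : V)
    (a n : ℕ) : Prop :=
  s u = par (s x) a ∧ ∀ ξ α γ, mar μ (fun z => (z x, (z u, z v))) (ξ, (α, γ)) =
    ch m π (s x) a ξ α * ch m π (s u) n α γ / rho π (s u) α

structure St (m : Bool → U → ℝ) (π : U → U → ℝ) (E : Finset (V × V)) (s : V → Bool)
    (S : Finset V) (μ : (V → U × U) → ℝ) (a0 af as : ℝ) : Prop where
  nonneg : ∀ z, 0 ≤ μ z
  total : ∑ z, μ z = 1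
  vertex : ∀ v, mar μ (fun z => z v) = rho π (s v)
  indep : ∀ w, w ∉ S → Indep μ w (rho π (s w))
  inS : ∀ e ∈ E, e.1 ∈ S ∧ e.2 ∈ S
  edge : ∀ e ∈ E, s e.1 = false ∧ Tie m π s μ e.1 e.2 1
  bound : Fintype.card V * (hm m false + hm m true) - ent μ (fun z => z) ≤
    (2 * E.card + Fintype.card V) * ii m π + a0
  bound_fst : (Fintype.card V * (hm m false + hm m true) - ent μ (fun z => z)) -
    (∑ v, hm m (s v) - ent μ (fun z v => (z v).1)) ≤
    (E.card + Fintype.card V) * ii m π + a0 - af
  bound_snd : (Fintype.card V * (hm m false + hm m true) - ent μ (fun z => z)) -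
    (∑ v, hm m (!s v) - ent μ (fun z v => (z v).2)) ≤
    (E.card + Fintype.card V) * ii m π + a0 - as
  bound_both : (Fintype.card V * (hm m false + hm m true) - ent μ (fun z => z)) -
    (∑ v, hm m (s v) - ent μ (fun z v => (z v).1)) -
    (∑ v, hm m (!s v) - ent μ (fun z v => (z v).2)) ≤
    Fintype.card V * ii m π + a0 - af - as

/-- the edge `x y`, directed from the side `false` to the side `true` -/
def dedge (s : V → Bool) (x y : V) : V × V := if s x = false then (x, y) else (y, x)

variable {m : Bool → U → ℝ} {π : U → U → ℝ} (h : Base m π) {s : V → Bool}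
  {E : Finset (V × V)} {S : Finset V} {μ : (V → U × U) → ℝ}

include h

theorem Tie.symm {u v : V} {d : ℕ} (ht : Tie m π s μ u v d) : Tie m π s μ v u d := by
  obtain ⟨h1, h2⟩ := ht
  refine ⟨by rw [h1, par_par], ?_⟩
  funext ⟨γ, α⟩
  have e := mar_inj μ (fun z => (z u, z v)) (e := fun p : (U × U) × (U × U) => (p.2, p.1))
    (fun x y hxy => by
      simp only [Prod.mk.injEq] at hxy
      exact Prod.ext hxy.2 hxy.1) (α, γ)
  simp only at e
  rw [e, h2]
  unfold chP
  simp only
  rw [h.ch_symm, ← h1]

theorem Tie.refl (hv : ∀ v, mar μ (fun z => z v) = rho π (s v)) (v : V) :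
    Tie m π s μ v v 0 := by
  classical
  refine ⟨rfl, ?_⟩
  funext ⟨α, γ⟩
  unfold chP
  simp only [ch]
  have e : mar μ (fun z => (z v, z v)) (α, γ) = if α = γ then mar μ (fun z => z v) α else 0 := by
    unfold mar
    by_cases hαγ : α = γ
    · rw [if_pos hαγ, hαγ]
      refine Finset.sum_congr rfl fun z _ => ?_
      by_cases c1 : z v = γ
      · simp [c1]
      · simp [c1]
    · rw [if_neg hαγ]
      refine Finset.sum_eq_zero fun z _ => ?_
      rw [if_neg]
      intro hz
      simp only [Prod.mk.injEq] at hz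
      exact hαγ (hz.1.symm.trans hz.2)
  rw [e, hv]

omit h in
theorem Tie.resample' {w : V} {q : U × U → ({v // v ≠ w} → U × U) → ℝ}
    (hs : ∀ o, mar μ (off w) o ≠ 0 → ∑ a, q a o = 1) {u v : V} (hu : u ≠ w) (hv : v ≠ w) {d : ℕ}
    (ht : Tie m π s μ u v d) : Tie m π s (resample w q μ) u v d := by
  refine ⟨ht.1, ?_⟩
  have e := resample_comp hs (fun o => (o ⟨u, hu⟩, o ⟨v, hv⟩))
  have e2 : mar (resample w q μ) (fun z => (z u, z v)) = mar μ (fun z => (z u, z v)) := e
  rw [e2]
  exact ht.2

/-- the first two of three vertices on a chain are tied -/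
theorem Tri.tie {x u v : V} {a n : ℕ} (ht : Tri m π s μ x u v a n) : Tie m π s μ x u a := by
  refine ⟨ht.1, ?_⟩
  funext ⟨ξ, α⟩
  have e := mar_fst μ (fun z => (z x, z u)) (fun z => z v) (ξ, α)
  rw [← e]
  have e1 : ∀ γ, mar μ (fun z => ((z x, z u), z v)) ((ξ, α), γ) =
      ch m π (s x) a ξ α * ch m π (s u) n α γ / rho π (s u) α := by
    intro γ
    rw [← ht.2]
    exact mar_inj μ (fun z => (z x, (z u, z v)))
      (e := fun p : (U × U) × (U × U) × (U × U) => ((p.1, p.2.1), p.2.2)) (fun x y hxy => by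
      simp only [Prod.mk.injEq] at hxy
      exact Prod.ext hxy.1.1 (Prod.ext hxy.1.2 hxy.2)) (ξ, (α, γ))
  simp_rw [e1]
  rw [← Finset.sum_div, ← Finset.mul_sum, h.ch_sum]
  unfold chP
  simp only
  by_cases h0 : rho π (s u) α = 0
  · have : ch m π (s x) a ξ α = 0 := by
      rw [h.ch_symm, ← ht.1]
      exact h.ch_zero _ _ h0 _
    rw [this]; simp
  · field_simp

/-- the start of an ear -/
theorem Tie.tri {u v : V} {n : ℕ} (ht : Tie m π s μ u v n) : Tri m π s μ u u v 0 n := by
  classical
  refine ⟨rfl, fun ξ α γ => ?_⟩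
  have e : mar μ (fun z => (z u, (z u, z v))) (ξ, (α, γ)) =
      if ξ = α then mar μ (fun z => (z u, z v)) (α, γ) else 0 := by
    unfold mar
    by_cases hξ : ξ = α
    · rw [if_pos hξ, hξ]
      refine Finset.sum_congr rfl fun z _ => ?_
      simp only [Prod.mk.injEq]
      by_cases c1 : z u = α
      · simp [c1]
      · simp [c1]
    · rw [if_neg hξ]
      refine Finset.sum_eq_zero fun z _ => ?_
      rw [if_neg]
      intro hz
      simp only [Prod.mk.injEq] at hz
      exact hξ (hz.1.symm.trans hz.2.1)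
  rw [e, ht.2]
  simp only [ch]
  by_cases hξ : ξ = α
  · rw [if_pos hξ, if_pos hξ, hξ]
    unfold chP
    simp only
    by_cases h0 : rho π (s u) α = 0
    · rw [h.ch_zero _ _ h0]; simp
    · field_simp
  · rw [if_neg hξ, if_neg hξ]; simp

/-- **A pendant vertex.** -/
theorem St.pendant (hst : St m π E s S μ 0 0 0) {w v : V} (hw : w ∉ S) (hv : v ∈ S)
    (hsw : s w = !s v) : ∃ μ', St m π (insert (dedge s w v) E) s (insert w S) μ' 0 0 0 ∧
      (∀ x y d, x ∈ S → y ∈ S → Tie m π s μ x y d → Tie m π s μ' x y d) ∧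
      ∀ x d, x ∈ S → Tie m π s μ v x d → Tie m π s μ' w x (d + 1) := by
  classical
  have hvw : v ≠ w := fun h => hw (h ▸ hv)
  set κ : U × U → U × U → ℝ := fun e a => st m π (s v) e a / rho π (s v) e with hκ
  set q : U × U → ({v // v ≠ w} → U × U) → ℝ := fun a o => κ (o ⟨v, hvw⟩) a with hq
  have hq0 : ∀ a o, 0 ≤ q a o := fun a o => div_nonneg (h.st_nonneg _ _ _) (h.rho_nonneg _ _)
  have hs : ∀ o, mar μ (off w) o ≠ 0 → ∑ a, q a o = 1 := by
    intro o ho
    simp only [hq, hκ]
    rw [← Finset.sum_div, h.st_sum]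
    refine div_self fun h0 => ho ?_
    refine mar_zero_of_map hst.nonneg (off w) (fun o => o ⟨v, hvw⟩) ?_
    have := hst.vertex v
    have e : mar μ (fun z => off w z ⟨v, hvw⟩) = rho π (s v) := this
    rw [e]
    exact h0
  set μ' := resample w q μ with hμ'
  have hpres : ∀ x y d, x ∈ S → y ∈ S → Tie m π s μ x y d → Tie m π s μ' x y d :=
    fun x y d hx hy ht => ht.resample' hs (fun h => hw (h ▸ hx)) (fun h => hw (h ▸ hy))
  have hnew : ∀ x d, x ∈ S → Tie m π s μ v x d → Tie m π s μ' w x (d + 1) := by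
    intro x d hx ht
    have hxw : x ≠ w := fun h => hw (h ▸ hx)
    refine ⟨?_, ?_⟩
    · rw [ht.1, hsw]
      show _ = par (!(!s v)) d
      rw [Bool.not_not]
    · funext ⟨a, γ⟩
      have e1 : ∀ e, mar μ' (fun z => ((z w, z x), z v)) ((a, γ), e) =
          κ e a * mar μ (fun z => (z v, z x)) (e, γ) := by
        intro e
        have e2 := resample_kernel (q := q) (μ := μ) (fun o => (o ⟨v, hvw⟩, o ⟨x, hxw⟩))
          (fun p => κ p.1) (fun a o => rfl) hs a (e, γ)
        have e3 : mar μ' (fun z => (z w, (z v, z x))) (a, (e, γ)) =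
          κ e a * mar μ (fun z => (z v, z x)) (e, γ) := e2
        rw [← e3]
        exact mar_inj μ' (fun z => (z w, (z v, z x)))
          (e := fun p : (U × U) × (U × U) × (U × U) => ((p.1, p.2.2), p.2.1)) (fun x y hxy => by
          simp only [Prod.mk.injEq] at hxy
          exact Prod.ext hxy.1.1 (Prod.ext hxy.2 hxy.1.2)) (a, (e, γ))
      rw [← mar_fst μ' (fun z => (z w, z x)) (fun z => z v) (a, γ)]
      simp_rw [e1, ht.2]
      unfold chP
      simp only [ch, hsw, Bool.not_not, hκ]
      refine Finset.sum_congr rfl fun e _ => ?_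
      rw [Base.st_symm (s v) e a]
      ring
  have htie1 : Tie m π s μ' w v 1 := hnew v 0 hv (Tie.refl h hst.vertex v)
  have hrs := h.rho_sum (s w)
  have hI := hst.indep w hw
  have hcard : (insert (dedge s w v) E).card = E.card + 1 := by
    refine Finset.card_insert_of_notMem fun hmem => ?_
    have h2 := hst.inS _ hmem
    unfold dedge at h2
    split_ifs at h2
    · exact hw h2.1
    · exact hw h2.2
  have hvert : ∀ x, mar μ' (fun z => z x) = rho π (s x) := by
    intro x
    by_cases hx : x = w
    · rw [hx]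
      funext a
      have e1 := mar_fst μ' (fun z => z w) (fun z => z v) a
      rw [← e1, htie1.2]
      unfold chP
      simp only
      exact h.ch_sum _ _ _
    · have e := resample_comp (q := q) (μ := μ) hs (fun o => o ⟨x, hx⟩)
      have e2 : mar μ' (fun z => z x) = mar μ (fun z => z x) := e
      rw [e2, hst.vertex]
  -- entropies
  have hentμw : ent μ (fun z => z w) = hr π := by
    rw [ent_comp h (hst.vertex w) (fun z => z), ent_rho h]
  have hentμv : ent μ (fun z => z v) = hr π := by
    rw [ent_comp h (hst.vertex v) (fun z => z), ent_rho h]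
  have hE := resample_ent hst.nonneg hst.total hq0 (fun o => o ⟨v, hvw⟩) κ (fun a o => rfl) hs hrs hI
  have hE2 : ent μ' (fun z => z) = ent μ (fun z => z) - (2 * hr π - hc m π false 1) := by
    have e1 : ent μ' (fun z => (z w, off w z ⟨v, hvw⟩)) = hc m π false 1 := by
      have := ent_comp h htie1.2 (fun p => p)
      rw [← hc_one h (s w)]
      exact this
    have e2 : ent μ (fun z => off w z ⟨v, hvw⟩) = hr π := hentμv
    rw [hentμw, e1, e2] at hE
    linarith
  have hF := resample_ent_le (Y := U) (β := U) hst.nonneg hst.total hq0 hs hrs hI (fun z => z.1)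
    (fun o => o ⟨v, hvw⟩)
  have hF2 : ent μ' (fun z v => (z v).1) ≤ ent μ (fun z v => (z v).1) - ii m π := by
    have e1 : ent μ' (fun z => ((z w).1, (z v).1)) = hr π := by
      rw [ent_comp h htie1.2 (fun p => (p.1.1, p.2.1))]
      exact hf_one h _
    have e2 : ent μ (fun z => (z w).1) = hm m (s w) := by
      rw [ent_comp h (hst.vertex w) (fun z => z.1), ent_comp h (mar_rho_fst h _) (fun z => z)]
      rfl
    have e3 : ent μ (fun z => (z v).1) = hm m (s v) := by
      rw [ent_comp h (hst.vertex v) (fun z => z.1), ent_comp h (mar_rho_fst h _) (fun z => z)]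
      rfl
    rw [e1, e2, e3, hsw] at hF
    unfold ii
    cases hsv : s v
    · rw [hsv, Bool.not_false] at hF
      linarith
    · rw [hsv, Bool.not_true] at hF
      linarith
  have hG := resample_ent_le (Y := U) (β := U) hst.nonneg hst.total hq0 hs hrs hI (fun z => z.2)
    (fun o => o ⟨v, hvw⟩)
  have hG2 : ent μ' (fun z v => (z v).2) ≤ ent μ (fun z v => (z v).2) - ii m π := by
    have e1 : ent μ' (fun z => ((z w).2, (z v).2)) = hr π := by
      rw [ent_comp h htie1.2 (fun p => (p.1.2, p.2.2))]
      exact hs_one h _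
    have e2 : ent μ (fun z => (z w).2) = hm m (!s w) := by
      rw [ent_comp h (hst.vertex w) (fun z => z.2), ent_comp h (mar_rho_snd h _) (fun z => z)]
      rfl
    have e3 : ent μ (fun z => (z v).2) = hm m (!s v) := by
      rw [ent_comp h (hst.vertex v) (fun z => z.2), ent_comp h (mar_rho_snd h _) (fun z => z)]
      rfl
    rw [e1, e2, e3, hsw] at hG
    unfold ii
    cases hsv : s v
    · rw [hsv, Bool.not_false, Bool.not_true] at hG
      linarith
    · rw [hsv, Bool.not_true, Bool.not_false] at hG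
      linarith
  have hjj : 2 * hr π - hc m π false 1 = 2 * ii m π - jj m π := by
    unfold jj
    ring
  have hj0 := jj_nonneg h
  refine ⟨μ', ?_, hpres, hnew⟩
  refine
    { nonneg := resample_nonneg hq0 hst.nonneg
      total := resample_total hs hst.total
      vertex := hvert
      indep := ?_
      inS := ?_
      edge := ?_
      bound := ?_
      bound_fst := ?_
      bound_snd := ?_
      bound_both := ?_ }
  · intro w' hw'
    have h1 : w' ≠ w := fun h => hw' (h ▸ mem_insert_self _ _)
    have h2 : w' ∉ S := fun h => hw' (mem_insert_of_mem h)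
    have h3 : v ≠ w' := fun h => h2 (h ▸ hv)
    refine (hst.indep w' h2).resample' h1 fun a z y => ?_
    simp only [hq, off]
    rw [Function.update_of_ne h3]
  · intro e he
    rcases mem_insert.1 he with he | he
    · rw [he]
      unfold dedge
      split_ifs
      · exact ⟨mem_insert_self _ _, mem_insert_of_mem hv⟩
      · exact ⟨mem_insert_of_mem hv, mem_insert_self _ _⟩
    · exact ⟨mem_insert_of_mem (hst.inS e he).1, mem_insert_of_mem (hst.inS e he).2⟩
  · intro e he
    rcases mem_insert.1 he with he | he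
    · rw [he]
      unfold dedge
      split_ifs with hf
      · exact ⟨hf, htie1⟩
      · refine ⟨?_, Tie.symm h htie1⟩
        simp only
        rw [Bool.not_eq_false] at hf
        rw [hf] at hsw
        cases hsv : s v
        · rfl
        · rw [hsv] at hsw
          exact absurd hsw (by simp)
    · exact ⟨(hst.edge e he).1, hpres _ _ _ (hst.inS e he).1 (hst.inS e he).2 (hst.edge e he).2⟩
  · rw [hcard, hE2, hjj]
    push_cast
    have := hst.bound
    linarith
  · rw [hcard, hE2, hjj]
    push_cast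
    have := hst.bound_fst
    linarith
  · rw [hcard, hE2, hjj]
    push_cast
    have := hst.bound_snd
    linarith
  · rw [hE2, hjj]
    have := hst.bound_both
    linarith

end Vale.Agent.P050.Cart
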