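import Vale.Agent.P050.Cart.Star

/-!
The prism law of a star with three leaves, two of which are centred on one side and one on the
other side.
-/

set_option linter.unusedSectionVars false

namespace Vale.Agent.P050.Cart

open Finset

variable {U : Type} [Fintype U] {m : Bool → U → ℝ} {π : U → U → ℝ}

/-- the laws of the vertices with the sides exchanged -/
def mo (m : Bool → U → ℝ) (b : Bool) : U → ℝ := m (!b)

/-- the law of an edge with the sides exchanged -/
def po (π : U → U → ℝ) (x y : U) : ℝ := π y x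

theorem Base.op (h : Base m π) : Base (mo m) (po π) where
  m0 := fun _ _ => h.m0 _ _
  m1 := fun _ => h.m1 _
  pi0 := fun _ _ => h.pi0 _ _
  row := fun x => h.col x
  col := fun y => h.row y

theorem rho_po (b : Bool) (z : U × U) : rho (po π) b z = rho π (!b) z := by
  cases b <;> simp [rho, po]

theorem hr_po (h : Base m π) : hr (po π) = hr π := by
  have e : rho (po π) false = rho π true := funext fun z => rho_po false z
  unfold hr
  rw [e]
  exact ent_rho h true

theorem ii_mo (h : Base m π) : ii (mo m) (po π) = ii m π := by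
  unfold ii
  rw [hr_po h]
  have e1 : hm (mo m) false = hm m true := rfl
  have e2 : hm (mo m) true = hm m false := rfl
  rw [e1, e2]
  ring

theorem cherry_sum (h : Base m π) (x : U) : ∑ v, cherry m π x v = m false x := by
  unfold cherry
  rw [Finset.sum_comm, ← h.row x]
  refine Finset.sum_congr rfl fun y _ => ?_
  exact (Finset.sum_congr rfl fun v _ => by ring).trans (h.sum_term x y)

/-- the law of three rungs around a rung -/
noncomputable def starP (m : Bool → U → ℝ) (π : U → U → ℝ) :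
    (U × U) × (U × U) × (U × U) × (U × U) → ℝ :=
  star (rho π true) (tau m π) (tau m π) fun z w => tau (mo m) (po π) (sw z) (sw w)

section facts

variable (h : Base m π)
include h

theorem third_sum (w : U × U) : ∑ z, tau (mo m) (po π) (sw z) (sw w) = rho π true w := by
  have e : ∑ z : U × U, tau (mo m) (po π) (sw z) (sw w) = ∑ z, tau (mo m) (po π) z (sw w) :=
    (Equiv.prodComm U U).sum_comp fun z => tau (mo m) (po π) z (sw w)
  rw [e, h.op.tau_sum_left, rho_po]
  exact rho_sw true w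

theorem starP_nonneg (ω) : 0 ≤ starP m π ω :=
  star_nonneg h.tau_nonneg h.tau_nonneg (fun _ _ => h.op.tau_nonneg _ _) ω

theorem starP_total : ∑ ω, starP m π ω = 1 :=
  star_total h.tau_nonneg h.tau_nonneg (fun _ _ => h.op.tau_nonneg _ _) h.tau_sum_left
    h.tau_sum_left (third_sum h) (h.rho_sum true)

theorem starP_0 : mar (starP m π) (fun ω => ω.1) = rho π true :=
  star_0 h.tau_nonneg h.tau_nonneg (fun _ _ => h.op.tau_nonneg _ _) h.tau_sum_left
    h.tau_sum_left (third_sum h)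

theorem chP_tau : chP m π false 1 = fun p => tau m π p.1 p.2 := by
  funext p
  unfold chP
  rw [h.ch_one]
  rfl

theorem starP_1 : mar (starP m π) (fun ω => (ω.2.1, ω.1)) = chP m π false 1 := by
  rw [chP_tau h]
  exact star_1 h.tau_nonneg h.tau_nonneg (fun _ _ => h.op.tau_nonneg _ _) h.tau_sum_left
    h.tau_sum_left (third_sum h)

theorem starP_2 : mar (starP m π) (fun ω => (ω.2.2.1, ω.1)) = chP m π false 1 := by
  rw [chP_tau h]
  exact star_2 h.tau_nonneg h.tau_nonneg (fun _ _ => h.op.tau_nonneg _ _) h.tau_sum_left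
    h.tau_sum_left (third_sum h)

theorem starP_3 : mar (starP m π) (fun ω => (sw ω.2.2.2, sw ω.1)) =
    chP (mo m) (po π) false 1 := by
  have e := star_3 h.tau_nonneg h.tau_nonneg (fun z w => h.op.tau_nonneg (sw z) (sw w))
    h.tau_sum_left h.tau_sum_left (third_sum h)
  rw [chP_tau h.op]
  funext ⟨z, w⟩
  have e1 : mar (starP m π) (fun ω => (sw ω.2.2.2, sw ω.1)) (z, w) =
      mar (starP m π) (fun ω => (ω.2.2.2, ω.1)) (sw z, sw w) :=
    mar_inj (starP m π) (fun ω => (ω.2.2.2, ω.1))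
    (e := fun p : (U × U) × (U × U) => (sw p.1, sw p.2)) (fun x y hxy => by
      simp only [Prod.mk.injEq] at hxy
      exact Prod.ext (sw_inj hxy.1) (sw_inj hxy.2)) (sw z, sw w)
  refine e1.trans ?_
  unfold starP
  rw [e]
  rfl

/-- the joint law of `x₁, x₂, y, y₃` -/
theorem starP_q : mar (starP m π) (fun ω => ((ω.2.1.1, ω.2.2.1.1), (ω.1.1, ω.2.2.2.2))) =
    fun p => π p.1.1 p.2.1 * π p.1.2 p.2.1 / m true p.2.1 ^ 2 *
      cherry (mo m) (po π) p.2.1 p.2.2 := by
  funext ⟨⟨x₁, x₂⟩, y, y₃⟩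
  have e := mar_equiv (starP m π)
    { toFun := fun ω : (U × U) × (U × U) × (U × U) × (U × U) =>
        (((ω.2.1.1, ω.2.2.1.1), (ω.1.1, ω.2.2.2.2)), (ω.1.2, ω.2.1.2, ω.2.2.1.2, ω.2.2.2.1))
      invFun := fun p : ((U × U) × (U × U)) × (U × U × U × U) =>
        ((p.1.2.1, p.2.1), (p.1.1.1, p.2.2.1), (p.1.1.2, p.2.2.2.1), (p.2.2.2.2, p.1.2.2))
      left_inv := fun _ => rfl
      right_inv := fun _ => rfl } ((x₁, x₂), (y, y₃))
  refine e.trans ?_
  simp only [Equiv.coe_fn_symm_mk, starP, star]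
  rw [Fintype.sum_prod_type]
  have e2 : ∀ x, ∑ q : U × U × U, tau m π (x₁, q.1) (y, x) * tau m π (x₂, q.2.1) (y, x) *
      tau (mo m) (po π) (sw (q.2.2, y₃)) (sw (y, x)) / rho π true (y, x) ^ 2 =
      π x₁ y * π x₂ y / m true y ^ 2 * (po π y x * po π y₃ x / mo m true x) := by
    intro x
    have e3 : ∑ q : U × U × U, tau m π (x₁, q.1) (y, x) * tau m π (x₂, q.2.1) (y, x) *
        tau (mo m) (po π) (sw (q.2.2, y₃)) (sw (y, x)) / rho π true (y, x) ^ 2 =
        (∑ u, tau m π (x₁, u) (y, x)) * (∑ u, tau m π (x₂, u) (y, x)) *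
        (∑ u, tau (mo m) (po π) (y₃, u) (x, y)) / rho π true (y, x) ^ 2 := by
      rw [Fintype.sum_prod_type, Finset.sum_mul_sum, Finset.sum_mul, Finset.sum_div]
      refine Finset.sum_congr rfl fun a _ => ?_
      rw [Fintype.sum_prod_type, Finset.sum_mul, Finset.sum_div]
      refine Finset.sum_congr rfl fun b _ => ?_
      rw [Finset.mul_sum, Finset.sum_div]
      rfl
    rw [e3, h.tau_sum_u, h.tau_sum_u, h.op.tau_sum_u]
    have e4 : rho π true (y, x) = π x y := rfl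
    have e5 : po π y x = π x y := rfl
    rw [e4, e5]
    by_cases h0 : π x y = 0
    · rw [h0]; simp
    · field_simp
  rw [Finset.sum_congr rfl fun x _ => e2 x, ← Finset.mul_sum]
  rfl

theorem starP_y : mar (starP m π) (fun ω => (ω.1.1, ω.2.2.2.2)) =
    fun p => cherry (mo m) (po π) p.1 p.2 := by
  funext ⟨y, y₃⟩
  have e := mar_snd (starP m π) (fun ω => (ω.2.1.1, ω.2.2.1.1)) (fun ω => (ω.1.1, ω.2.2.2.2))
    (y, y₃)
  rw [← e, starP_q h]
  simp only
  rw [← Finset.sum_mul, ← Finset.sum_div, Fintype.sum_prod_type]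
  simp only
  rw [Finset.sum_congr rfl fun x₁ _ => (Finset.mul_sum univ (fun x₂ => π x₂ y) (π x₁ y)).symm]
  rw [← Finset.sum_mul, h.col]
  by_cases h0 : m true y = 0
  · have e3 : cherry (mo m) (po π) y y₃ = 0 := by
      unfold cherry
      refine Finset.sum_eq_zero fun x _ => ?_
      have e4 : po π y x = 0 := h.zero_col h0 x
      rw [e4]; simp
    rw [e3]; simp
  · field_simp

theorem starP_x : mar (starP m π) (fun ω => (ω.2.1.1, ω.2.2.1.1)) =
    fun p => cherry m π p.1 p.2 := by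
  funext ⟨x₁, x₂⟩
  have e := mar_fst (starP m π) (fun ω => (ω.2.1.1, ω.2.2.1.1)) (fun ω => (ω.1.1, ω.2.2.2.2))
    (x₁, x₂)
  rw [← e, starP_q h]
  simp only
  rw [Fintype.sum_prod_type]
  unfold cherry
  refine Finset.sum_congr rfl fun y _ => ?_
  simp only
  rw [← Finset.mul_sum]
  have e2 := cherry_sum h.op y
  unfold cherry at e2
  rw [e2]
  have e3 : mo m false y = m true y := rfl
  rw [e3]
  by_cases h0 : m true y = 0
  · rw [h0]; simp
  · field_simp

/-! ### entropies -/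

theorem starP_vertex : mar (starP m π) (fun ω => ω.2.1) = rho π false ∧
    mar (starP m π) (fun ω => ω.2.2.1) = rho π false ∧
    mar (starP m π) (fun ω => ω.2.2.2) = rho π false := by
  refine ⟨?_, ?_, ?_⟩
  · rw [← chP_fst h false 1, ← starP_1 h]
    funext z
    rw [mar_mar]
  · rw [← chP_fst h false 1, ← starP_2 h]
    funext z
    rw [mar_mar]
  · funext z
    have e1 : mar (starP m π) (fun ω => sw ω.2.2.2) = rho (po π) false := by
      rw [← chP_fst h.op false 1, ← starP_3 h]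
      funext z
      rw [mar_mar]
    have e2 : mar (starP m π) (fun ω => sw ω.2.2.2) (sw z) = mar (starP m π) (fun ω => ω.2.2.2) z :=
      mar_inj (starP m π) (fun ω => ω.2.2.2) sw_inj z
    rw [← e2, e1, rho_po]
    exact rho_sw false z

theorem starP_ent0 : ent (starP m π) (fun ω => ω.1) = hr π := by
  rw [ent_comp h (starP_0 h) (fun z => z), ent_rho h]

theorem starP_ent0f : ent (starP m π) (fun ω => ω.1.1) = hm m true := by
  rw [ent_comp h (starP_0 h) (fun z => z.1), ent_comp h (mar_rho_fst h true) (fun z => z)]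
  rfl

theorem starP_ent0s : ent (starP m π) (fun ω => ω.1.2) = hm m false := by
  rw [ent_comp h (starP_0 h) (fun z => z.2), ent_comp h (mar_rho_snd h true) (fun z => z)]
  rfl

theorem rung_ent {Ω : Type} [Fintype Ω] {P : Ω → ℝ} {f : Ω → U × U}
    (hf : mar P f = rho π false) : ent P f = hr π ∧ ent P (fun ω => (f ω).1) = hm m false ∧
      ent P (fun ω => (f ω).2) = hm m true := by
  refine ⟨?_, ?_, ?_⟩
  · rw [ent_comp h hf (fun z => z)]
    rfl
  · rw [ent_comp h hf (fun z => z.1), ent_comp h (mar_rho_fst h false) (fun z => z)]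
    rfl
  · rw [ent_comp h hf (fun z => z.2), ent_comp h (mar_rho_snd h false) (fun z => z)]
    rfl

/-- the entropy of the star of rungs -/
theorem starP_all : ent (starP m π) (fun ω => ω) =
    4 * hr π - 6 * ii m π + 2 * jj m π + jj (mo m) (po π) := by
  have e := star_ent h.tau_nonneg h.tau_nonneg (fun z w => h.op.tau_nonneg (sw z) (sw w))
    h.tau_sum_left h.tau_sum_left (third_sum h)
  have e' : ent (starP m π) (fun ω => ω) + 2 * ent (starP m π) (fun ω => ω.1) =
    ent (starP m π) (fun ω => (ω.2.1, ω.1)) + ent (starP m π) (fun ω => (ω.2.2.1, ω.1))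
      + ent (starP m π) (fun ω => (ω.2.2.2, ω.1)) := e
  have e1 : ent (starP m π) (fun ω => (ω.2.1, ω.1)) = hc m π false 1 :=
    ent_comp h (starP_1 h) (fun z => z)
  have e2 : ent (starP m π) (fun ω => (ω.2.2.1, ω.1)) = hc m π false 1 :=
    ent_comp h (starP_2 h) (fun z => z)
  have e3 : ent (starP m π) (fun ω => (ω.2.2.2, ω.1)) = hc (mo m) (po π) false 1 := by
    refine Eq.trans ?_ (ent_comp h.op (starP_3 h) (fun z => z))
    exact ent_fib fun ω ω' => by
      simp only [Prod.ext_iff, sw]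
      tauto
  have e4 : hc m π false 1 = 2 * hr π - 2 * ii m π + jj m π := by
    unfold jj
    ring
  have e5 : hc (mo m) (po π) false 1 = 2 * hr π - 2 * ii m π + jj (mo m) (po π) := by
    unfold jj
    rw [hr_po h, ii_mo h]
    ring
  rw [e1, e2, e3, e4, e5, starP_ent0 h] at e'
  linarith

theorem starP_fst : ent (starP m π) (fun ω => (ω.2.1.1, ω.2.2.1.1, ω.2.2.2.1, ω.1.1)) ≤
    3 * hr π - 2 * hm m true := by
  have hP := starP_nonneg h
  have s1 := ent_submod hP (fun ω => ω.2.1.1) (fun ω => (ω.2.2.1.1, ω.2.2.2.1)) (fun ω => ω.1.1)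
  have s2 := ent_submod hP (fun ω => ω.2.2.1.1) (fun ω => ω.2.2.2.1) (fun ω => ω.1.1)
  have e0 : ent (starP m π) (fun ω => (ω.2.1.1, (ω.2.2.1.1, ω.2.2.2.1), ω.1.1)) =
      ent (starP m π) (fun ω => (ω.2.1.1, ω.2.2.1.1, ω.2.2.2.1, ω.1.1)) :=
    ent_fib fun ω ω' => by
      simp only [Prod.mk.injEq]
      tauto
  have e1 : ent (starP m π) (fun ω => ((ω.2.2.1.1, ω.2.2.2.1), ω.1.1)) =
      ent (starP m π) (fun ω => (ω.2.2.1.1, ω.2.2.2.1, ω.1.1)) :=
    ent_fib fun ω ω' => by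
      simp only [Prod.mk.injEq]
      tauto
  have f1 : ent (starP m π) (fun ω => (ω.2.1.1, ω.1.1)) = hr π :=
    (ent_comp h (starP_1 h) (fun p => (p.1.1, p.2.1))).trans (hf_one h false)
  have f2 : ent (starP m π) (fun ω => (ω.2.2.1.1, ω.1.1)) = hr π :=
    (ent_comp h (starP_2 h) (fun p => (p.1.1, p.2.1))).trans (hf_one h false)
  have f3 : ent (starP m π) (fun ω => (ω.2.2.2.1, ω.1.1)) = hr π :=
    ((ent_comp h.op (starP_3 h) (fun p => (p.1.2, p.2.2))).trans (hs_one h.op false)).trans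
      (hr_po h)
  have f4 := starP_ent0f h
  rw [e0, e1, f1, f4] at s1
  rw [f2, f3, f4] at s2
  linarith

theorem starP_snd : ent (starP m π) (fun ω => (ω.2.1.2, ω.2.2.1.2, ω.2.2.2.2, ω.1.2)) ≤
    3 * hr π - 2 * hm m false := by
  have hP := starP_nonneg h
  have s1 := ent_submod hP (fun ω => ω.2.1.2) (fun ω => (ω.2.2.1.2, ω.2.2.2.2)) (fun ω => ω.1.2)
  have s2 := ent_submod hP (fun ω => ω.2.2.1.2) (fun ω => ω.2.2.2.2) (fun ω => ω.1.2)
  have e0 : ent (starP m π) (fun ω => (ω.2.1.2, (ω.2.2.1.2, ω.2.2.2.2), ω.1.2)) =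
      ent (starP m π) (fun ω => (ω.2.1.2, ω.2.2.1.2, ω.2.2.2.2, ω.1.2)) :=
    ent_fib fun ω ω' => by
      simp only [Prod.mk.injEq]
      tauto
  have e1 : ent (starP m π) (fun ω => ((ω.2.2.1.2, ω.2.2.2.2), ω.1.2)) =
      ent (starP m π) (fun ω => (ω.2.2.1.2, ω.2.2.2.2, ω.1.2)) :=
    ent_fib fun ω ω' => by
      simp only [Prod.mk.injEq]
      tauto
  have f1 : ent (starP m π) (fun ω => (ω.2.1.2, ω.1.2)) = hr π :=
    (ent_comp h (starP_1 h) (fun p => (p.1.2, p.2.2))).trans (hs_one h false)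
  have f2 : ent (starP m π) (fun ω => (ω.2.2.1.2, ω.1.2)) = hr π :=
    (ent_comp h (starP_2 h) (fun p => (p.1.2, p.2.2))).trans (hs_one h false)
  have f3 : ent (starP m π) (fun ω => (ω.2.2.2.2, ω.1.2)) = hr π :=
    ((ent_comp h.op (starP_3 h) (fun p => (p.1.1, p.2.1))).trans (hf_one h.op false)).trans
      (hr_po h)
  have f4 := starP_ent0s h
  rw [e0, e1, f1, f4] at s1
  rw [f2, f3, f4] at s2
  linarith

/-- the entropy of `x₁, x₂` -/
theorem starP_xx : ent (starP m π) (fun ω => (ω.2.1.1, ω.2.2.1.1)) =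
    2 * hm m false - jj m π := by
  have e : ent (starP m π) (fun ω => (ω.2.1.1, ω.2.2.1.1)) = hf m π false 2 := by
    rw [hf_two h]
    refine ent_law fun a => ?_
    rw [starP_x h]
    exact (tau_xv h a.1 a.2).symm
  rw [e, jj_eq h]
  ring

/-- the entropy of `y, y₃` -/
theorem starP_yy : ent (starP m π) (fun ω => (ω.1.1, ω.2.2.2.2)) =
    2 * hm m true - jj (mo m) (po π) := by
  have e : ent (starP m π) (fun ω => (ω.1.1, ω.2.2.2.2)) = hf (mo m) (po π) false 2 := by
    rw [hf_two h.op]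
    refine ent_law fun a => ?_
    rw [starP_y h]
    exact (tau_xv h.op a.1 a.2).symm
  rw [e, jj_eq h.op]
  have e2 : hm (mo m) false = hm m true := rfl
  rw [e2]
  ring

/-- the information between `x₁, x₂` and `y₃` is small -/
theorem starP_xxy : hm m true - jj (mo m) (po π) + ent (starP m π) (fun ω =>
    (ω.2.1.1, ω.2.2.1.1)) ≤ ent (starP m π) (fun ω => ((ω.2.1.1, ω.2.2.1.1), ω.2.2.2.2)) := by
  have hP := starP_nonneg h
  have k := ent_kernel hP (fun ω => (ω.2.1.1, ω.2.2.1.1)) (fun ω => (ω.1.1, ω.2.2.2.2))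
    (fun p => p.1) (fun y a => π a.1 y * π a.2 y / m true y ^ 2) (fun a c => by
      rw [starP_q h, starP_y h])
  simp only at k
  have s := ent_submod hP (fun ω => ω.1.1) (fun ω => ω.2.2.2.2) (fun ω => (ω.2.1.1, ω.2.2.1.1))
  have e0 : ent (starP m π) (fun ω => (ω.1.1, ω.2.2.2.2, (ω.2.1.1, ω.2.2.1.1))) =
      ent (starP m π) (fun ω => ((ω.2.1.1, ω.2.2.1.1), (ω.1.1, ω.2.2.2.2))) :=
    ent_fib fun ω ω' => by
      simp only [Prod.mk.injEq]
      tauto
  have e1 : ent (starP m π) (fun ω => (ω.1.1, (ω.2.1.1, ω.2.2.1.1))) =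
      ent (starP m π) (fun ω => ((ω.2.1.1, ω.2.2.1.1), ω.1.1)) :=
    ent_fib fun ω ω' => by
      simp only [Prod.mk.injEq]
      tauto
  have e2 : ent (starP m π) (fun ω => (ω.2.2.2.2, (ω.2.1.1, ω.2.2.1.1))) =
      ent (starP m π) (fun ω => ((ω.2.1.1, ω.2.2.1.1), ω.2.2.2.2)) :=
    ent_fib fun ω ω' => by
      simp only [Prod.mk.injEq]
      tauto
  rw [e0, e1, e2] at s
  rw [starP_yy h, starP_ent0f h] at k
  linarith

/-- data processing for three rungs -/
theorem starP_dp : ent (starP m π) (fun ω => (ω.2.1, ω.2.2.1, ω.2.2.2)) ≤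
      ent (starP m π) (fun ω => (ω.2.1.1, ω.2.2.1.1, ω.2.2.2.1)) + 3 * (hr π - hm m false) ∧
    ent (starP m π) (fun ω => (ω.2.1, ω.2.2.1, ω.2.2.2)) ≤
      ent (starP m π) (fun ω => (ω.2.1.2, ω.2.2.1.2, ω.2.2.2.2)) + 3 * (hr π - hm m true) := by
  have hP := starP_nonneg h
  obtain ⟨v1, v2, v3⟩ := starP_vertex h
  obtain ⟨a1, b1, c1⟩ := rung_ent h v1
  obtain ⟨a2, b2, c2⟩ := rung_ent h v2
  obtain ⟨a3, b3, c3⟩ := rung_ent h v3
  constructor
  · have i1 := mi_le hP (fun ω => ω.2.1) (fun ω => (ω.2.2.1, ω.2.2.2)) (fun z => z.1)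
      (fun p => (p.1.1, p.2.1))
    have i2 := mi_le hP (fun ω => ω.2.2.1) (fun ω => ω.2.2.2) (fun z => z.1) (fun z => z.1)
    simp only at i1 i2
    rw [a1, b1] at i1
    rw [a2, b2, a3, b3] at i2
    linarith
  · have i1 := mi_le hP (fun ω => ω.2.1) (fun ω => (ω.2.2.1, ω.2.2.2)) (fun z => z.2)
      (fun p => (p.1.2, p.2.2))
    have i2 := mi_le hP (fun ω => ω.2.2.1) (fun ω => ω.2.2.2) (fun z => z.2) (fun z => z.2)
    simp only at i1 i2
    rw [a1, c1] at i1
    rw [a2, c2, a3, c3] at i2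
    linarith

theorem starP_pos : ent (starP m π) (fun ω => (ω.2.1.1, ω.2.2.1.1, ω.2.2.2.1)) ≤
    3 * hm m false := by
  have hP := starP_nonneg h
  obtain ⟨v1, v2, v3⟩ := starP_vertex h
  obtain ⟨a1, b1, c1⟩ := rung_ent h v1
  obtain ⟨a2, b2, c2⟩ := rung_ent h v2
  obtain ⟨a3, b3, c3⟩ := rung_ent h v3
  have s1 := ent_subadd hP (starP_total h) (fun ω => ω.2.1.1) (fun ω => (ω.2.2.1.1, ω.2.2.2.1))
  have s2 := ent_subadd hP (starP_total h) (fun ω => ω.2.2.1.1) (fun ω => ω.2.2.2.1)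
  linarith

/-- **Main estimate**: the information between the two ends of the three leaves -/
theorem starP_main : ent (starP m π) (fun ω => (ω.2.1, ω.2.2.1, ω.2.2.2)) +
      (3 * ii m π - jj m π - jj (mo m) (po π)) ≤
    ent (starP m π) (fun ω => (ω.2.1.1, ω.2.2.1.1, ω.2.2.2.1)) +
      ent (starP m π) (fun ω => (ω.2.1.2, ω.2.2.1.2, ω.2.2.2.2)) := by
  have hP := starP_nonneg h
  obtain ⟨v1, v2, v3⟩ := starP_vertex h
  obtain ⟨a1, b1, c1⟩ := rung_ent h v1
  obtain ⟨a2, b2, c2⟩ := rung_ent h v2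
  obtain ⟨a3, b3, c3⟩ := rung_ent h v3
  -- the first two rungs
  have i1 := mi_le hP (fun ω => ω.2.1) (fun ω => ω.2.2.1) (fun z => z.2) (fun z => z.2)
  rw [a1, c1, a2, c2] at i1
  -- the third rung
  have i2 := mi_le_left hP (fun ω => ω.2.2.2) (fun ω => (ω.2.1.1, ω.2.2.1.1)) (fun z => z.1)
  rw [a3, b3] at i2
  have i3 := starP_xxy h
  have i4 := starP_xx h
  -- the chain rule
  have s1 := ent_submod hP (fun ω => ω.2.2.2.1) (fun ω => (ω.2.1.2, ω.2.2.1.2))
    (fun ω => ((ω.2.1.1, ω.2.2.1.1), ω.2.2.2.2))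
  have s2 := ent_submod hP (fun ω => (ω.2.1.1, ω.2.2.1.1)) (fun ω => ω.2.2.2.2)
    (fun ω => (ω.2.1.2, ω.2.2.1.2))
  have e1 : ent (starP m π) (fun ω => (ω.2.2.2.1, (ω.2.1.2, ω.2.2.1.2),
      ((ω.2.1.1, ω.2.2.1.1), ω.2.2.2.2))) =
      ent (starP m π) (fun ω => (ω.2.1, ω.2.2.1, ω.2.2.2)) :=
    ent_fib fun ω ω' => by
      simp only [Prod.ext_iff]
      tauto
  have e2 : ent (starP m π) (fun ω => (ω.2.2.2.1, ((ω.2.1.1, ω.2.2.1.1), ω.2.2.2.2))) =
      ent (starP m π) (fun ω => (ω.2.2.2, (ω.2.1.1, ω.2.2.1.1))) :=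
    ent_fib fun ω ω' => by
      simp only [Prod.ext_iff]
      tauto
  have e3 : ent (starP m π) (fun ω => ((ω.2.1.2, ω.2.2.1.2), ((ω.2.1.1, ω.2.2.1.1),
      ω.2.2.2.2))) = ent (starP m π) (fun ω => ((ω.2.1.1, ω.2.2.1.1), ω.2.2.2.2,
        (ω.2.1.2, ω.2.2.1.2))) :=
    ent_fib fun ω ω' => by
      simp only [Prod.ext_iff]
      tauto
  have e4 : ent (starP m π) (fun ω => ((ω.2.1.1, ω.2.2.1.1), (ω.2.1.2, ω.2.2.1.2))) =
      ent (starP m π) (fun ω => (ω.2.1, ω.2.2.1)) :=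
    ent_fib fun ω ω' => by
      simp only [Prod.ext_iff]
      tauto
  have e5 : ent (starP m π) (fun ω => (ω.2.2.2.2, (ω.2.1.2, ω.2.2.1.2))) =
      ent (starP m π) (fun ω => (ω.2.1.2, ω.2.2.1.2, ω.2.2.2.2)) :=
    ent_fib fun ω ω' => by
      simp only [Prod.ext_iff]
      tauto
  have e6 : ent (starP m π) (fun ω => (ω.2.2.2.1, (ω.2.1.1, ω.2.2.1.1))) =
      ent (starP m π) (fun ω => (ω.2.1.1, ω.2.2.1.1, ω.2.2.2.1)) :=
    ent_fib fun ω ω' => by
      simp only [Prod.ext_iff]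
      tauto
  rw [e1, e2, e3] at s1
  rw [e4, e5] at s2
  rw [e6] at i2
  have e7 : ii m π = hm m false + hm m true - hr π := rfl
  linarith

end facts

end Vale.Agent.P050.Cart
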